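import Vale.Agent.P262.S2.LevelLemmas

/-!
P262 / S₂: allowances of endpoints.

The allowance of a point bounds, on every stretch of later levels, the steering energy it shows at
clean levels and its squares on coordinates becoming inactive, up to the crowding of the stretch.
-/

namespace Vale.Agent.P262.S2

open Finset
open scoped Classical

variable {d N : ℕ}

/-- Share of the squares of coordinates becoming inactive in the charge. -/
noncomputable def kap0 : ℝ := (10 ^ 4 * CP)⁻¹

/-- Rate of the crowding in an allowance. -/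
noncomputable def CH : ℝ := 10 ^ 9 * sg ^ 2

/-- Allowance of a new interior point per skipped level. -/
noncomputable def th : ℝ := 1 / 100

/-- Charge of the point `P` at level `f`. -/
noncomputable def Hv (X : Inst d N) (f : ℕ) (P : Fin d → ℝ) : ℝ := by
  classical
  exact (if Clean X f then Gv X f P / gS else 0) + kap0 * ∑ j ∈ cross X.lam f, P j ^ 2

/-- Crowding rate at level `f`. -/
noncomputable def hv (X : Inst d N) (f : ℕ) : ℝ :=
  CH * (eps X.lam f + (#(cross X.lam f) : ℝ))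

/-- The point `P` has allowance `a` after level `k`. -/
def Allow (X : Inst d N) (k : ℕ) (a : ℝ) (P : Fin d → ℝ) : Prop :=
  ∀ T, k ≤ T → ∑ f ∈ Ioc k T, Hv X f P ≤ a + ∑ f ∈ Ioc k T, hv X f

lemma sg_sq_pos : 0 < sg ^ 2 := by
  have := two_le_sg
  positivity

lemma CP_pos : 0 < CP := mul_pos (by norm_num) sg_sq_pos

lemma kap0_pos : 0 < kap0 := inv_pos.2 (mul_pos (by norm_num) CP_pos)

lemma CH_pos : 0 < CH := mul_pos (by norm_num) sg_sq_pos

lemma eS_pos' : 0 < eS := by
  unfold eS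
  have := two_le_sg
  positivity

lemma gS_pos : 0 < gS := by norm_num [gS]

lemma Es_pos : 0 < Es := mul_pos (by norm_num) sg_sq_pos

variable (X : Inst d N)

lemma Gv_nonneg (f : ℕ) (P : Fin d → ℝ) : 0 ≤ Gv X f P :=
  sum_nonneg fun j _ => div_nonneg (sq_nonneg _) (xv_nonneg X.lam_nonneg f j)

lemma hv_nonneg (f : ℕ) : 0 ≤ hv X f :=
  mul_nonneg CH_pos.le (add_nonneg (eps_nonneg' f) (Nat.cast_nonneg _))

lemma sum_cross (k T : ℕ) (y : Fin d → ℝ) :
    ∑ f ∈ Ioc k T, ∑ j ∈ cross X.lam f, y j = ∑ j ∈ newS X.lam k T, y j := by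
  rw [← sum_fiberwise_of_maps_to (s := newS X.lam k T) (t := Ioc k T) (g := lev X.lam)
    (fun j hj => mem_Ioc.2 (mem_newS.1 hj)) y]
  refine sum_congr rfl fun f hf => sum_congr ?_ fun _ _ => rfl
  ext j
  simp only [mem_cross, mem_filter, mem_newS]
  have := mem_Ioc.1 hf
  constructor
  · rintro rfl
    exact ⟨this, rfl⟩
  · exact fun h => h.2

lemma sum_hv (k T : ℕ) :
    ∑ f ∈ Ioc k T, hv X f
      = CH * (∑ f ∈ Ioc k T, eps X.lam f) + CH * (#(newS X.lam k T) : ℝ) := by
  have h := sum_cross X k T fun _ => (1 : ℝ)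
  simp only [sum_const, nsmul_eq_mul, mul_one] at h
  rw [← h, mul_sum, mul_sum, ← sum_add_distrib]
  exact sum_congr rfl fun f _ => mul_add _ _ _

lemma Hv_congr {b f : ℕ} (hbf : b < f) {P Q : Fin d → ℝ} (h : ∀ j ∈ act X.lam b, P j = Q j) :
    Hv X f P = Hv X f Q := by
  have h1 : Gv X f P = Gv X f Q :=
    sum_congr rfl fun j hj => by rw [h j (act_anti hbf.le hj)]
  have h2 : ∑ j ∈ cross X.lam f, P j ^ 2 = ∑ j ∈ cross X.lam f, Q j ^ 2 :=
    sum_congr rfl fun j hj => by rw [h j (mem_act.2 (by rw [mem_cross.1 hj]; exact hbf))]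
  simp only [Hv, h1, h2]

lemma Allow.congr {b : ℕ} {a : ℝ} {P Q : Fin d → ℝ} (hA : Allow X b a P)
    (h : ∀ j ∈ act X.lam b, P j = Q j) : Allow X b a Q := fun T hT => by
  refine le_trans (le_of_eq (sum_congr rfl fun f hf => ?_)) (hA T hT)
  exact (Hv_congr X (mem_Ioc.1 hf).1 h).symm

/-- An endpoint keeps the unused part of its allowance. -/
lemma Allow.shift {k b : ℕ} {a : ℝ} {P : Fin d → ℝ} (hA : Allow X k a P) (hkb : k ≤ b) :
    0 ≤ a + ∑ f ∈ Ioc k b, hv X f - ∑ f ∈ Ioc k b, Hv X f P ∧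
      Allow X b (a + ∑ f ∈ Ioc k b, hv X f - ∑ f ∈ Ioc k b, Hv X f P) P := by
  refine ⟨by linarith [hA b hkb], fun T hT => ?_⟩
  have h := hA T (hkb.trans hT)
  rw [← Ioc_union_Ioc_eq_Ioc hkb hT, sum_union (Ioc_disjoint_Ioc_of_le le_rfl),
    sum_union (Ioc_disjoint_Ioc_of_le le_rfl)] at h
  linarith

/-- Summation by parts against an antitone weight. -/
lemma abel_bound (J : Finset (Fin d)) (g : Fin d → ℕ) (b : ℕ) (hg : ∀ j ∈ J, b < g j) (A : ℕ → ℝ)
    (hA : Antitone A) (hA0 : ∀ l, 0 ≤ A l) (y : Fin d → ℝ) {C S : ℝ} (hC : 0 ≤ C) (hS : 0 ≤ S)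
    (hy : ∀ T, ∑ j ∈ J.filter (fun j => g j ≤ T), y j
      ≤ C * ((#(J.filter (fun j => g j ≤ T)) : ℝ) + S)) :
    ∑ j ∈ J, A (g j) * y j ≤ C * (∑ j ∈ J, A (g j) + A (b + 1) * S) := by
  have key : ∀ m, ∑ j ∈ J.filter (fun j => g j ≤ b + m), A (g j) * y j
      + A (b + m) * (C * ((#(J.filter (fun j => g j ≤ b + m)) : ℝ) + S)
          - ∑ j ∈ J.filter (fun j => g j ≤ b + m), y j)
      ≤ C * ∑ j ∈ J.filter (fun j => g j ≤ b + m), A (g j) + C * (A (b + min m 1) * S) := by
    intro m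
    induction m with
    | zero =>
      have : J.filter (fun j => g j ≤ b + 0) = ∅ :=
        filter_eq_empty_iff.2 fun j hj => by have := hg j hj; omega
      rw [this]
      simp only [sum_empty, card_empty, Nat.cast_zero, zero_add, mul_zero, sub_zero,
        Nat.zero_min, add_zero]
      exact le_of_eq (by ring)
    | succ m ih =>
      set F := J.filter (fun j => g j ≤ b + m) with hF
      set G := J.filter (fun j => g j = b + (m + 1)) with hG
      have hU : J.filter (fun j => g j ≤ b + (m + 1)) = F ∪ G := by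
        ext j
        simp only [hF, hG, mem_filter, mem_union]
        constructor
        · rintro ⟨h1, h2⟩
          rcases Nat.lt_or_ge (g j) (b + (m + 1)) with h | h
          · exact Or.inl ⟨h1, by omega⟩
          · exact Or.inr ⟨h1, by omega⟩
        · rintro (⟨h1, h2⟩ | ⟨h1, h2⟩) <;> exact ⟨h1, by omega⟩
      have hd : Disjoint F G := disjoint_left.2 fun j h1 h2 => by
        have := (mem_filter.1 h1).2
        have := (mem_filter.1 h2).2
        omega
      have hc : ((#(F ∪ G) : ℕ) : ℝ) = (#F : ℝ) + (#G : ℝ) := by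
        rw [card_union_of_disjoint hd]; push_cast; rfl
      have e1 : ∑ j ∈ G, A (g j) * y j = A (b + (m + 1)) * ∑ j ∈ G, y j := by
        rw [mul_sum]
        exact sum_congr rfl fun j hj => by rw [(mem_filter.1 hj).2]
      have e2 : ∑ j ∈ G, A (g j) = A (b + (m + 1)) * (#G : ℝ) := by
        rw [sum_congr rfl fun j hj => by rw [(mem_filter.1 hj).2], sum_const, nsmul_eq_mul, mul_comm]
      rw [hU, sum_union hd, sum_union hd, sum_union hd, e1, e2, hc]
      have hslack : 0 ≤ C * ((#F : ℝ) + S) - ∑ j ∈ F, y j := sub_nonneg.2 (hy (b + m))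
      rcases Nat.eq_zero_or_pos m with hm | hm
      · subst hm
        have hF0 : F = ∅ := filter_eq_empty_iff.2 fun j hj => by have := hg j hj; omega
        rw [hF0]
        simp only [sum_empty, card_empty, Nat.cast_zero, zero_add, min_self]
        exact le_of_eq (by ring)
      · rw [show min (m + 1) 1 = 1 by omega]
        rw [show min m 1 = 1 by omega] at ih
        have := mul_le_mul_of_nonneg_right (hA (show b + m ≤ b + (m + 1) by omega)) hslack
        linarith
  set m₀ := J.sup g + 1 with hm₀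
  have hall : J.filter (fun j => g j ≤ b + m₀) = J :=
    filter_true_of_mem fun j hj => by have := le_sup (f := g) hj; omega
  have h := key m₀
  have hy0 := hy (b + m₀)
  rw [hall] at h hy0
  rw [show min m₀ 1 = 1 by omega] at h
  have := mul_nonneg (hA0 (b + m₀)) (sub_nonneg.2 hy0)
  linarith

/-- Coefficient of a coordinate with last level `l` in the energies up to level `T`. -/
noncomputable def aT (T l : ℕ) : ℝ := min (2 * eS) (4 * 2 ^ T / 2 ^ l)

lemma aT_anti (T : ℕ) : Antitone (aT T) := fun _ _ h =>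
  min_le_min le_rfl
    (div_le_div_of_nonneg_left (by positivity) (by positivity) (pow_le_pow_right₀ one_le_two h))

lemma aT_nonneg (T l : ℕ) : 0 ≤ aT T l := le_min (by have := eS_pos'; positivity) (by positivity)

lemma aT_le (T l : ℕ) : aT T l ≤ 2 * eS := min_le_left _ _

lemma coeff_le {j : Fin d} (b T : ℕ) :
    ∑ f ∈ (Ioc b T).filter (fun f => Clean X f ∧ j ∈ act X.lam f), (xv X.lam f j)⁻¹
      ≤ aT T (lev X.lam j) := by
  classical
  set F := (Ioc b T).filter (fun f => Clean X f ∧ j ∈ act X.lam f) with hF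
  rcases F.eq_empty_or_nonempty with h0 | h0
  · rw [h0, sum_empty]
    exact aT_nonneg T _
  set m := F.max' h0 with hm
  obtain ⟨hmI, hmC, hmA⟩ : m ∈ Ioc b T ∧ Clean X m ∧ j ∈ act X.lam m :=
    mem_filter.1 (max'_mem F h0)
  have hml := mem_act.1 hmA
  have hlam : 0 < X.lam j := by
    have h1 := one_le_xv hml
    have h2 : X.lam j = xv X.lam m j * 2 ^ m := by
      unfold xv; rw [div_mul_cancel₀]; positivity
    rw [h2]
    positivity
  have e : ∀ f, (xv X.lam f j)⁻¹ = 2 ^ f / X.lam j := fun f => by unfold xv; rw [inv_div]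
  have hsum : ∑ f ∈ F, (xv X.lam f j)⁻¹ ≤ 2 * (2 ^ m / X.lam j) := by
    simp only [e, ← sum_div, mul_div_assoc']
    exact div_le_div_of_nonneg_right (sum_pow_two_le F fun f hf => le_max' F f hf) hlam.le
  refine le_min (hsum.trans ?_) (hsum.trans ?_)
  · rw [← e]
    have := (inv_xv_le_inv_qv hmA).trans ((inv_qv_le_eps hmA).trans hmC)
    linarith
  · set l := lev X.lam j
    have hl : (2 : ℝ) ^ (l - 1) ≤ X.lam j := by
      have h1 := one_le_xv (lam := X.lam) (j := j) (k := l - 1) (by omega)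
      unfold xv at h1
      rwa [one_le_div (by positivity)] at h1
    have hp : (2 : ℝ) ^ l = 2 * 2 ^ (l - 1) := by rw [← pow_succ']; congr 1; omega
    rw [hp, show (4 : ℝ) * 2 ^ T / (2 * 2 ^ (l - 1)) = 2 * (2 ^ T / 2 ^ (l - 1)) by ring]
    refine mul_le_mul_of_nonneg_left (div_le_div₀ (by positivity) ?_ (by positivity) hl) zero_le_two
    exact pow_le_pow_right₀ one_le_two (mem_Ioc.1 hmI).2

lemma sum_energy_le (b T : ℕ) (P : Fin d → ℝ) :
    ∑ f ∈ Ioc b T, Hv X f P
      ≤ (∑ j ∈ act X.lam b, aT T (lev X.lam j) * P j ^ 2) / gS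
        + kap0 * ∑ j ∈ newS X.lam b T, P j ^ 2 := by
  classical
  simp only [Hv, sum_add_distrib]
  refine add_le_add ?_ ?_
  · rw [sum_div, ← sum_filter]
    calc ∑ f ∈ (Ioc b T).filter (fun f => Clean X f), Gv X f P / gS
        = ∑ f ∈ (Ioc b T).filter (fun f => Clean X f), ∑ j ∈ act X.lam b,
            (if j ∈ act X.lam f then (xv X.lam f j)⁻¹ * P j ^ 2 / gS else 0) := by
          refine sum_congr rfl fun f hf => ?_
          rw [Gv, sum_div, ← sum_filter, filter_mem_eq_inter,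
            inter_eq_right.2 (act_anti (mem_Ioc.1 (mem_filter.1 hf).1).1.le)]
          exact sum_congr rfl fun j _ => by ring
      _ = ∑ j ∈ act X.lam b, (∑ f ∈ (Ioc b T).filter (fun f => Clean X f ∧ j ∈ act X.lam f),
            (xv X.lam f j)⁻¹) * P j ^ 2 / gS := by
          rw [sum_comm]
          refine sum_congr rfl fun j _ => ?_
          rw [← sum_filter, filter_filter, sum_mul, sum_div]
      _ ≤ ∑ j ∈ act X.lam b, aT T (lev X.lam j) * P j ^ 2 / gS := sum_le_sum fun j _ =>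
          div_le_div_of_nonneg_right
            (mul_le_mul_of_nonneg_right (coeff_le X b T) (sq_nonneg _)) gS_pos.le
  · rw [← mul_sum, sum_cross X b T fun j => P j ^ 2]

lemma sum_aT_le (b T : ℕ) (hT : b ≤ T) :
    ∑ j ∈ act X.lam b, aT T (lev X.lam j)
      ≤ 2 * eS * (#(newS X.lam b T) : ℝ) + 4 * eps X.lam T := by
  classical
  have hsub : act X.lam T ⊆ act X.lam b := act_anti hT
  rw [← sum_sdiff hsub]
  refine add_le_add ?_ ?_
  · refine (sum_le_sum fun j _ => aT_le T _).trans (le_of_eq ?_)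
    rw [sum_const, nsmul_eq_mul, newS, mul_comm]
  · rw [eps, mul_sum]
    refine sum_le_sum fun j hj => ?_
    refine (min_le_right _ _).trans ?_
    have h1 := one_le_xv (mem_act.1 hj)
    have h2 := inv_xv_le_inv_qv hj
    have h3 : (2 : ℝ) ^ T / 2 ^ lev X.lam j ≤ (xv X.lam T j)⁻¹ := by
      have h4 := xv_lev (lam := X.lam) j
      unfold xv at h4 h1 ⊢
      rw [inv_div]
      rw [div_lt_one (by positivity)] at h4
      refine div_le_div_of_nonneg_left (by positivity) ?_ h4.le
      rw [one_le_div (by positivity)] at h1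
      exact lt_of_lt_of_le (by positivity) h1
    rw [mul_div_assoc]
    linarith

lemma coef_facts : 800 * CP * eS ≤ 1 / 1000 ∧ 1600 * CP ≤ CH ∧ kap0 * CP = 1 / 10000 := by
  have h := two_le_sg
  have h4 : (4 : ℝ) ≤ sg ^ 2 := by nlinarith
  refine ⟨?_, ?_, ?_⟩
  · unfold CP eS
    rw [show sg ^ 4 = sg ^ 2 * sg ^ 2 by ring]
    rw [← div_eq_mul_inv, div_le_iff₀ (by positivity)]
    nlinarith [mul_le_mul_of_nonneg_left h4 (show (0 : ℝ) ≤ sg ^ 2 by positivity)]
  · unfold CP CH
    nlinarith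
  · unfold kap0
    have := CP_pos
    field_simp
    norm_num

/-- A new interior point of a step has a small allowance. -/
lemma allow_new {b S : ℕ} {P : Fin d → ℝ}
    (hdev : ∀ T, ∑ j ∈ act X.lam b \ act X.lam T, P j ^ 2
      ≤ CP * ((#(act X.lam b \ act X.lam T) : ℝ) + (S : ℝ))) :
    Allow X b (th * S) P := by
  intro T hT
  rcases eq_or_lt_of_le hT with rfl | hbT
  · simp only [Ioc_self, sum_empty, add_zero]
    unfold th
    positivity
  have hS : (0 : ℝ) ≤ S := S.cast_nonneg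
  have hA : ∀ T', ∑ j ∈ (act X.lam b).filter (fun j => lev X.lam j ≤ T'), P j ^ 2
      ≤ CP * ((#((act X.lam b).filter (fun j => lev X.lam j ≤ T')) : ℝ) + (S : ℝ)) := fun T' => by
    have : act X.lam b \ act X.lam T' = (act X.lam b).filter (fun j => lev X.lam j ≤ T') := by
      ext j; simp [mem_act, not_lt]
    rw [← this]
    exact hdev T'
  have h1 := abel_bound (act X.lam b) (lev X.lam) b (fun j hj => mem_act.1 hj) (aT T) (aT_anti T)
    (aT_nonneg T) (fun j => P j ^ 2) CP_pos.le hS hA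
  have h2 := sum_aT_le X b T hT
  have h3 : ∑ j ∈ newS X.lam b T, P j ^ 2 ≤ CP * ((#(newS X.lam b T) : ℝ) + S) := hdev T
  have h4 : eps X.lam T ≤ ∑ f ∈ Ioc b T, eps X.lam f :=
    single_le_sum (f := fun f => eps X.lam f) (fun f _ => eps_nonneg' f) (mem_Ioc.2 ⟨hbT, le_rfl⟩)
  have h5 : aT T (b + 1) * (S : ℝ) ≤ 2 * eS * S := mul_le_mul_of_nonneg_right (aT_le T _) hS
  obtain ⟨c1, c2, c3⟩ := coef_facts
  have hn : (0 : ℝ) ≤ (#(newS X.lam b T) : ℝ) := Nat.cast_nonneg _
  have he : (0 : ℝ) ≤ ∑ f ∈ Ioc b T, eps X.lam f := sum_nonneg fun f _ => eps_nonneg' f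
  refine (sum_energy_le X b T P).trans ?_
  rw [sum_hv]
  have hg : ∀ x : ℝ, x / gS = 400 * x := fun x => by unfold gS; ring
  rw [hg]
  have i1 : ∑ j ∈ act X.lam b, aT T (lev X.lam j) * P j ^ 2
      ≤ CP * (2 * eS * (#(newS X.lam b T) : ℝ) + 4 * ∑ f ∈ Ioc b T, eps X.lam f + 2 * eS * S) :=
    h1.trans (mul_le_mul_of_nonneg_left (by linarith) CP_pos.le)
  have i2 : kap0 * ∑ j ∈ newS X.lam b T, P j ^ 2
      ≤ 1 / 10000 * ((#(newS X.lam b T) : ℝ) + S) := by
    refine (mul_le_mul_of_nonneg_left h3 kap0_pos.le).trans (le_of_eq ?_)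
    rw [← c3]; ring
  have i3 := mul_le_mul_of_nonneg_right c1 (add_nonneg hn hS)
  have i4 := mul_le_mul_of_nonneg_right c2 he
  have i5 : (1 / 1000 + 1 / 10000) * (#(newS X.lam b T) : ℝ) ≤ CH * (#(newS X.lam b T) : ℝ) := by
    refine mul_le_mul_of_nonneg_right ?_ hn
    have h6 := two_le_sg
    unfold CH
    nlinarith
  have i6 : (1 / 1000 + 1 / 10000) * (S : ℝ) ≤ th * S :=
    mul_le_mul_of_nonneg_right (by norm_num [th]) hS
  linarith

end Vale.Agent.P262.S2
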