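import Vale.Agent.P262.S2.Allowance

/-!
P262 / S₂: the children of a step and the potential of the recursion.
-/

namespace Vale.Agent.P262.S2

open Finset
open scoped Classical

variable {d N : ℕ}

/-- Cost of the deviations per unit of old content. -/
noncomputable def C1 : ℝ := 180 * CP

/-- Cost of the removals per unit of old content. -/
noncomputable def C2 : ℝ := 400 / Mk

/-- Weight of the old content. -/
noncomputable def K2 : ℝ := 10 * (C1 + C2)

/-- Cost per unit of new content. -/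
noncomputable def Mc : ℝ := (K2 + C2) * CN + 20 * CP

/-- Weight of the skipped levels. -/
noncomputable def K3 : ℝ := 2 * Mc + Mc * Es + 10 / kap0

/-- Weight of an active coordinate. -/
noncomputable def K1 : ℝ := Mc + 2 * K3 * CH

lemma Mk_pos : 0 < Mk := by
  unfold Mk
  have := two_le_sg
  positivity

lemma CN_pos : 0 < CN := mul_pos (by norm_num) sg_sq_pos

lemma C1_pos : 0 < C1 := mul_pos (by norm_num) CP_pos

lemma C2_pos : 0 < C2 := div_pos (by norm_num) Mk_pos

lemma K2_pos : 0 < K2 := mul_pos (by norm_num) (add_pos C1_pos C2_pos)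

lemma Mc_pos : 0 < Mc :=
  add_pos (mul_pos (add_pos K2_pos C2_pos) CN_pos) (mul_pos (by norm_num) CP_pos)

lemma K3_pos : 0 < K3 := by
  have := Mc_pos; have := Es_pos; have := kap0_pos
  unfold K3
  positivity

lemma K1_pos : 0 < K1 := by
  have := Mc_pos; have := K3_pos; have := CH_pos
  unfold K1
  positivity

/-- A recursion state: a node, bounds on its old coordinates, removed amounts, allowances. -/
structure St (d N : ℕ) where
  n : Node d N
  B : Fin d → ℝ
  Dm : Fin d → ℝ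
  aO : ℝ
  aY : ℝ

/-- Unclean levels and crowding still ahead. -/
noncomputable def Ut (X : Inst d N) (L k : ℕ) : ℝ :=
  ∑ f ∈ Ioc k L, ((if Clean X f then (0 : ℝ) else 1) + 4 * CH * eps X.lam f)

/-- Excess still ahead. -/
noncomputable def PE (L k : ℕ) (E : ℕ → ℝ) : ℝ := (∑ f ∈ Finset.Icc k L, E f) / Es

/-- Cost of the old coordinates. -/
noncomputable def oldCost (X : Inst d N) (s : St d N) : ℝ :=
  ∑ j ∈ (act X.lam s.n.k)ᶜ, (1 + (√(s.n.w j))⁻¹) * s.B j ^ 2

/-- The potential of a state. -/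
noncomputable def Pot (X : Inst d N) (L : ℕ) (s : St d N) : ℝ :=
  oldCost X s + K1 * (#(act X.lam s.n.k) : ℝ) + K2 * s.n.Bud
    + K3 * (Ut X L s.n.k + PE L s.n.k s.n.E + s.aO + s.aY)

/-- The invariant of the recursion. -/
structure Ok (X : Inst d N) (P0 : ℝ) (L : ℕ) (s : St d N) : Prop where
  inv : NodeInv X s.n
  le_L : s.n.k ≤ L
  boundO : ∀ j ∈ (act X.lam s.n.k)ᶜ, |s.n.O j| + s.Dm j ≤ s.B j
  boundY : ∀ j ∈ (act X.lam s.n.k)ᶜ, |s.n.Y j| + s.Dm j ≤ s.B j
  Dm_nonneg : ∀ j, 0 ≤ s.Dm j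
  Dm_act : ∀ j ∈ act X.lam s.n.k, s.Dm j = 0
  aO_nonneg : 0 ≤ s.aO
  aY_nonneg : 0 ≤ s.aY
  allowO : Allow X s.n.k s.aO s.n.O
  allowY : Allow X s.n.k s.aY s.n.Y
  pot_le : Pot X L s ≤ P0
  decay : lmax X.lam ≤ s.n.k → s.n.Bud ≤ P0 / K2 * (21 / 25) ^ (s.n.k - lmax X.lam)

section

variable (X : Inst d N) (n : Node d N) (b : ℕ) (π : Fin N → ℕ) (P : ℕ → Fin d → ℝ) (t : ℕ)

/-- Amount of new content of a step. -/
noncomputable def n3 : ℝ :=
  if newS X.lam n.k b = ∅ then 0
  else (#(newS X.lam n.k b) : ℝ) + ((b - n.k - 1 : ℕ) : ℝ) + n.E n.k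

/-- Weights of a child. -/
noncomputable def wC (j : Fin d) : ℝ := if j ∈ act X.lam n.k then 1 else 7 / 5 * n.w j

/-- Content budget of a child. -/
noncomputable def budC : ℝ := 21 / 25 * n.Bud + CN * n3 X n b

/-- Content of a vector outside the coordinates active at `b`. -/
noncomputable def gC (i : Fin N) : ℝ := ∑ j ∈ (act X.lam b)ᶜ, wC X n j * n.u i j ^ 2

/-- The vectors of a child: too heavy vectors lose their inactive entries. -/
noncomputable def uC (i : Fin N) (j : Fin d) : ℝ :=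
  if j ∈ act X.lam b ∨ gC X n b i ≤ Mk * budC X n b then n.u i j else 0

/-- Removed amount on a piece. -/
noncomputable def rem (j : Fin d) : ℝ := ∑ i ∈ piece n π t, |n.u i j - uC X n b i j|

/-- The child node with index `t`. -/
noncomputable def childN : Node d N where
  I := piece n π t
  k := b
  u := uC X n b
  O := P t
  Y := fun j => P (t + 1) j - ∑ i ∈ piece n π t, (n.u i j - uC X n b i j)
  w := wC X n
  Bud := budC X n b
  E := childE n b

/-- Deviation from the interpolation. -/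
noncomputable def dev (j : Fin d) : ℝ := |P t j - ramp n (2 ^ (b - n.k)) t j|

end

/-- The child state with index `t`. -/
noncomputable def childS (X : Inst d N) (s : St d N) (b : ℕ) (π : Fin N → ℕ)
    (P : ℕ → Fin d → ℝ) (t : ℕ) : St d N where
  n := childN X s.n b π P t
  B := fun j =>
    (if j ∈ act X.lam s.n.k then |s.n.O j| + |s.n.Y j| else s.B j)
      + dev s.n b P t j + dev s.n b P (t + 1) j + 2 * rem X s.n b π t j
  Dm := fun j => s.Dm j + rem X s.n b π t j
  aO := if t = 0 then s.aO + ∑ f ∈ Ioc s.n.k b, hv X f - ∑ f ∈ Ioc s.n.k b, Hv X f s.n.O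
    else th * ((b - s.n.k - 1 : ℕ) : ℝ)
  aY := if t + 1 = 2 ^ (b - s.n.k) then
      s.aY + ∑ f ∈ Ioc s.n.k b, hv X f - ∑ f ∈ Ioc s.n.k b, Hv X f s.n.Y
    else th * ((b - s.n.k - 1 : ℕ) : ℝ)

/-- Growth of a weighted square under a perturbation. -/
lemma sq_growth {a a' B e : ℝ} (ha : 0 < a) (ha1 : a ≤ 1) (ha'1 : a' ≤ 17 / 20 * a) :
    (1 + a') * (B + e) ^ 2 ≤ (1 + a) * B ^ 2 + 30 / a * e ^ 2 := by
  have h1 : (B + e) ^ 2 ≤ (1 + a / 15) * B ^ 2 + (1 + 15 / a) * e ^ 2 := by
    have h : 0 ≤ (a * B - 15 * e) ^ 2 / (15 * a) := by positivity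
    have e1 : (a * B - 15 * e) ^ 2 / (15 * a) = a / 15 * B ^ 2 - 2 * B * e + 15 / a * e ^ 2 := by
      field_simp
      ring
    linarith [add_sq B e]
  have h2 : (1 + a') * (B + e) ^ 2
      ≤ (1 + 17 / 20 * a) * ((1 + a / 15) * B ^ 2 + (1 + 15 / a) * e ^ 2) :=
    (mul_le_mul_of_nonneg_right (by linarith) (sq_nonneg _)).trans
      (mul_le_mul_of_nonneg_left h1 (by positivity))
  refine h2.trans ?_
  rw [mul_add, ← mul_assoc, ← mul_assoc]
  refine add_le_add (mul_le_mul_of_nonneg_right ?_ (sq_nonneg B))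
    (mul_le_mul_of_nonneg_right ?_ (sq_nonneg e))
  · nlinarith [mul_le_mul_of_nonneg_left ha1 ha.le]
  · rw [le_div_iff₀ ha, mul_assoc, add_mul (1 : ℝ) (15 / a) a, div_mul_cancel₀ _ ha.ne']
    nlinarith

section child

variable {X : Inst d N} {n : Node d N} {b : ℕ} {π : Fin N → ℕ} {P : ℕ → Fin d → ℝ} {t : ℕ}

lemma n3_nonneg (hn : NodeInv X n) : 0 ≤ n3 X n b := by
  unfold n3
  split_ifs
  · exact le_rfl
  · have := hn.E_nonneg n.k
    positivity

lemma budC_nonneg (hn : NodeInv X n) : 0 ≤ budC X n b := by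
  have := hn.bud_nonneg
  have := n3_nonneg (b := b) hn
  have := CN_pos
  unfold budC
  positivity

lemma one_le_wC (hn : NodeInv X n) (j : Fin d) : 1 ≤ wC X n j := by
  unfold wC
  split_ifs
  · exact le_rfl
  · linarith [hn.one_le_w j]

lemma gC_nonneg (hn : NodeInv X n) (i : Fin N) : 0 ≤ gC X n b i :=
  sum_nonneg fun j _ => mul_nonneg (by linarith [one_le_wC hn j]) (sq_nonneg _)

lemma compl_act_split (hkb : n.k ≤ b) :
    (act X.lam b)ᶜ = (act X.lam n.k)ᶜ ∪ newS X.lam n.k b := by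
  ext j
  simp only [mem_compl, mem_union, mem_newS, mem_act, not_lt]
  omega

lemma compl_act_disj : Disjoint (act X.lam n.k)ᶜ (newS X.lam n.k b) :=
  disjoint_left.2 fun j h1 h2 => (mem_compl.1 h1) (mem_act.2 (mem_newS.1 h2).1)

lemma gC_eq (hn : NodeInv X n) (hkb : n.k ≤ b) (i : Fin N) :
    gC X n b i = 7 / 5 * oldG X n i + ∑ j ∈ newS X.lam n.k b, X.v i j ^ 2 := by
  rw [gC, compl_act_split hkb, sum_union compl_act_disj, oldG, mul_sum]
  refine congrArg₂ (· + ·) (sum_congr rfl fun j hj => ?_) (sum_congr rfl fun j hj => ?_)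
  · rw [wC, if_neg (mem_compl.1 hj), mul_assoc]
  · have h := mem_act.2 (mem_newS.1 hj).1
    rw [wC, if_pos h, one_mul, hn.u_act i j h]

lemma sum_gC_le (hn : NodeInv X n) (hkb : n.k ≤ b) (hs : StepOut X n b π P)
    (ht : t < 2 ^ (b - n.k)) : ∑ i ∈ piece n π t, gC X n b i ≤ budC X n b := by
  rw [sum_congr rfl fun i _ => gC_eq hn hkb i, sum_add_distrib, ← mul_sum, budC]
  refine add_le_add ?_ ?_
  · exact (mul_le_mul_of_nonneg_left (hs.half t ht) (by norm_num)).trans (le_of_eq (by ring))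
  · unfold n3
    split_ifs with h
    · simp [h]
    · exact hs.new_content t ht

lemma uC_eq_or (i : Fin N) (j : Fin d) : uC X n b i j = n.u i j ∨ uC X n b i j = 0 := by
  unfold uC
  split_ifs <;> simp

lemma uC_act {i : Fin N} {j : Fin d} (hj : j ∈ act X.lam b) : uC X n b i j = n.u i j :=
  if_pos (Or.inl hj)

lemma rem_act {j : Fin d} (hj : j ∈ act X.lam b) : rem X n b π t j = 0 :=
  sum_eq_zero fun i _ => by rw [uC_act hj, sub_self, abs_zero]

lemma rem_nonneg (j : Fin d) : 0 ≤ rem X n b π t j := sum_nonneg fun i _ => abs_nonneg _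

/-- The removed amounts are paid by the content budget. -/
lemma rem_cost (hn : NodeInv X n) (hkb : n.k ≤ b) (hs : StepOut X n b π P)
    (ht : t < 2 ^ (b - n.k)) :
    ∑ j ∈ (act X.lam b)ᶜ, wC X n j * rem X n b π t j ^ 2 ≤ budC X n b / Mk := by
  set R := (piece n π t).filter (fun i => ¬ gC X n b i ≤ Mk * budC X n b) with hR
  have hsum : ∑ i ∈ R, gC X n b i ≤ budC X n b :=
    (sum_le_sum_of_subset_of_nonneg (filter_subset _ _) fun i _ _ => gC_nonneg hn i).trans
      (sum_gC_le hn hkb hs ht)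
  have hrem : ∀ j ∈ (act X.lam b)ᶜ, rem X n b π t j = ∑ i ∈ R, |n.u i j| := fun j hj => by
    rw [rem, hR, sum_filter]
    refine sum_congr rfl fun i _ => ?_
    have hj' := mem_compl.1 hj
    by_cases h : gC X n b i ≤ Mk * budC X n b
    · simp [uC, h]
    · simp [uC, h, hj']
  have hcard : (#R : ℝ) * budC X n b ≤ budC X n b / Mk := by
    rw [le_div_iff₀ Mk_pos]
    calc (#R : ℝ) * budC X n b * Mk = ∑ _i ∈ R, Mk * budC X n b := by
          rw [sum_const, nsmul_eq_mul]; ring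
      _ ≤ ∑ i ∈ R, gC X n b i := sum_le_sum fun i hi => (not_le.1 (mem_filter.1 hi).2).le
      _ ≤ _ := hsum
  calc ∑ j ∈ (act X.lam b)ᶜ, wC X n j * rem X n b π t j ^ 2
      ≤ ∑ j ∈ (act X.lam b)ᶜ, ∑ i ∈ R, (#R : ℝ) * (wC X n j * n.u i j ^ 2) := by
        refine sum_le_sum fun j hj => ?_
        rw [hrem j hj, ← mul_sum, ← mul_sum, mul_left_comm]
        refine mul_le_mul_of_nonneg_left ?_ (by linarith [one_le_wC hn j])
        refine sq_sum_le_card_mul_sum_sq.trans (le_of_eq ?_)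
        exact congrArg _ (sum_congr rfl fun i _ => sq_abs _)
    _ = (#R : ℝ) * ∑ i ∈ R, gC X n b i := by
        rw [sum_comm, mul_sum]
        exact sum_congr rfl fun i _ => by rw [gC, mul_sum]
    _ ≤ (#R : ℝ) * budC X n b := mul_le_mul_of_nonneg_left hsum (Nat.cast_nonneg _)
    _ ≤ _ := hcard

lemma dev_zero (hs : StepOut X n b π P) (j : Fin d) : dev n b P 0 j = 0 := by
  simp [dev, ramp, hs.first]

lemma dev_last (hs : StepOut X n b π P) (j : Fin d) : dev n b P (2 ^ (b - n.k)) j = 0 := by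
  simp [dev, ramp, hs.last]

lemma dev_old' (hn : NodeInv X n) (hs : StepOut X n b π P) (ht : t ≤ 2 ^ (b - n.k)) :
    ∑ j ∈ (act X.lam n.k)ᶜ, n.w j * dev n b P t j ^ 2 ≤ CP * n.Bud := by
  rcases Nat.eq_zero_or_pos t with h | h
  · subst h
    simp only [dev_zero hs]
    simp [mul_nonneg CP_pos.le hn.bud_nonneg]
  rcases eq_or_lt_of_le ht with h' | h'
  · subst h'
    simp only [dev_last hs]
    simp [mul_nonneg CP_pos.le hn.bud_nonneg]
  · simpa [dev, sq_abs] using hs.dev_old t h h'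

lemma dev_new' (hn : NodeInv X n) (hs : StepOut X n b π P) (ht : t ≤ 2 ^ (b - n.k)) :
    ∑ j ∈ newS X.lam n.k b, dev n b P t j ^ 2 ≤ CP * n3 X n b := by
  have h0 : 0 ≤ CP * n3 X n b := mul_nonneg CP_pos.le (n3_nonneg hn)
  by_cases he : newS X.lam n.k b = ∅
  · simp [he, h0]
  rcases Nat.eq_zero_or_pos t with h | h
  · subst h
    simp only [dev_zero hs]
    simp [h0]
  rcases eq_or_lt_of_le ht with h' | h'
  · subst h'
    simp only [dev_last hs]
    simp [h0]
  · rw [n3, if_neg he]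
    simpa [dev, sq_abs] using hs.dev_new t h h'

lemma abs_ramp_le (ht : t ≤ 2 ^ (b - n.k)) (j : Fin d) :
    |ramp n (2 ^ (b - n.k)) t j| ≤ max |n.O j| |n.Y j| ∧
      |ramp n (2 ^ (b - n.k)) t j| ≤ |n.O j| + |n.Y j| := by
  set M : ℕ := 2 ^ (b - n.k) with hM
  set r : ℝ := (t : ℝ) / (M : ℝ) with hr
  have hMpos : (0 : ℝ) < (M : ℝ) := by
    rw [hM]
    exact_mod_cast pow_pos (by norm_num : 0 < 2) _
  have h0 : 0 ≤ r := by positivity
  have h1 : r ≤ 1 := by
    rw [hr, div_le_one hMpos]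
    exact_mod_cast ht
  have h : |ramp n M t j| ≤ (1 - r) * |n.O j| + r * |n.Y j| := by
    rw [ramp, ← hr]
    refine (abs_add_le _ _).trans (le_of_eq ?_)
    rw [abs_mul, abs_mul, abs_of_nonneg h0, abs_of_nonneg (sub_nonneg.2 h1)]
  refine ⟨h.trans ?_, h.trans ?_⟩
  · have i1 := mul_le_mul_of_nonneg_left (le_max_left |n.O j| |n.Y j|) (sub_nonneg.2 h1)
    have i2 := mul_le_mul_of_nonneg_left (le_max_right |n.O j| |n.Y j|) h0
    linarith
  · have i1 : (1 - r) * |n.O j| ≤ 1 * |n.O j| := mul_le_mul_of_nonneg_right (by linarith) (abs_nonneg _)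
    have i2 : r * |n.Y j| ≤ 1 * |n.Y j| := mul_le_mul_of_nonneg_right h1 (abs_nonneg _)
    linarith

lemma childN_inv (hn : NodeInv X n) (hb : GoodLevel X n b) (hs : StepOut X n b π P)
    (ht : t < 2 ^ (b - n.k)) : NodeInv X (childN X n b π P t) where
  sum_eq j := by
    show P (t + 1) j - ∑ i ∈ piece n π t, (n.u i j - uC X n b i j) - P t j
      = ∑ i ∈ piece n π t, uC X n b i j
    rw [sum_sub_distrib]
    linarith [hs.succ t ht j]
  u_act i j hj := (uC_act hj).trans (hn.u_act i j (act_anti hb.1.le hj))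
  u_sq i j := by
    show uC X n b i j ^ 2 ≤ _
    rcases uC_eq_or (X := X) (n := n) (b := b) i j with h | h
    · rw [h]; exact hn.u_sq i j
    · rw [h]; simpa using sq_nonneg (X.v i j)
  one_le_w := one_le_wC hn
  bud_nonneg := budC_nonneg hn
  content := by
    refine le_trans (sum_le_sum fun i _ => ?_) (sum_gC_le hn hb.1.le hs ht)
    refine sum_le_sum fun j _ => mul_le_mul_of_nonneg_left ?_ (le_trans zero_le_one (one_le_wC hn j))
    show uC X n b i j ^ 2 ≤ _
    rcases uC_eq_or (X := X) (n := n) (b := b) i j with h | h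
    · rw [h]
    · rw [h]; simpa using sq_nonneg (n.u i j)
  small i _ := by
    show ∑ j ∈ (act X.lam b)ᶜ, wC X n j * uC X n b i j ^ 2 ≤ Mk * budC X n b
    by_cases h : gC X n b i ≤ Mk * budC X n b
    · refine le_trans (le_of_eq (sum_congr rfl fun j _ => ?_)) h
      simp [uC, h]
    · refine le_trans (le_of_eq (sum_eq_zero fun j hj => ?_))
        (mul_nonneg Mk_pos.le (budC_nonneg hn))
      simp [uC, h, mem_compl.1 hj]
  E_nonneg f := by
    show 0 ≤ childE n b f
    have := hn.E_nonneg f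
    have : (0 : ℝ) ≤ cE := mul_nonneg (by norm_num) sg_sq_pos.le
    have := phi_pos'
    unfold childE
    positivity
  hom f hf hc := hs.hom t ht f hf hc
  base := Or.inr <| by
    rcases hb.2 with h | h
    · exact clean_of_act_empty X h
    · exact h.1

end child

end Vale.Agent.P262.S2
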