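import Vale.Agent.P262.OneStep

/-!
P262 / S₂: the absolute constants.
-/

namespace Vale.Agent.P262.S2

/-- Threshold of the one-step lemma. -/
noncomputable def tau : ℝ := oneStep.choose

/-- Standard deviation of the Gaussian majorant. -/
noncomputable def sg : ℝ := 2 / tau

lemma tau_pos : 0 < tau := oneStep.choose_spec.1

lemma tau_le_one : tau ≤ 1 := oneStep.choose_spec.2.1

lemma two_le_sg : 2 ≤ sg := by
  rw [sg, le_div_iff₀ tau_pos]
  linarith [tau_le_one]

/-- Noise coefficient of the homogeneity tests. -/
noncomputable def cH : ℝ := 10 * sg

/-- Linear coefficient of the homogeneity bound. -/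
noncomputable def cY : ℝ := 15 * sg

/-- Growth of the excess. -/
noncomputable def cE : ℝ := 12100 * sg ^ 2

/-- Threshold on the excess at a good level. -/
noncomputable def Es : ℝ := 10 ^ 7 * sg ^ 2

/-- Threshold on the crowding of a clean level. -/
noncomputable def eS : ℝ := (10 ^ 12 * sg ^ 4)⁻¹

/-- Threshold on the steering energy of an endpoint. -/
noncomputable def gS : ℝ := 1 / 400

/-- Bound for the squared deviations of a step. -/
noncomputable def CP : ℝ := 102400 * sg ^ 2

/-- Bound for the new content of a piece. -/
noncomputable def CN : ℝ := 24 * sg ^ 2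

/-- Largest share of the old content of a node that a vector may carry. -/
noncomputable def Mk : ℝ := (1 / (2000 * sg)) ^ 2

end Vale.Agent.P262.S2
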