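import Vale.Agent.P262.S2.Node

/-!
P262 / S₂: elementary facts about levels, crowding and decay.
-/

namespace Vale.Agent.P262.S2

open Finset

variable {d : ℕ} {lam : Fin d → ℝ}

lemma rt_nonneg (x : ℝ) : 0 ≤ rt x := Real.sqrt_nonneg _

lemma rt_le_rt {x y : ℝ} (h : x ≤ y) : rt x ≤ rt y := Real.sqrt_le_sqrt (Real.sqrt_le_sqrt h)

lemma one_le_rt {x : ℝ} (h : 1 ≤ x) : 1 ≤ rt x :=
  Real.one_le_sqrt.2 (Real.one_le_sqrt.2 h)

lemma rt_le_self {x : ℝ} (h : 1 ≤ x) : rt x ≤ x := by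
  unfold rt
  have h1 : √x ≤ x := by
    rw [Real.sqrt_le_left (by linarith)]
    nlinarith
  calc √(√x) ≤ √x := Real.sqrt_le_sqrt h1
    _ ≤ x := h1

lemma rt_two_pow (i : ℕ) : rt ((2 : ℝ) ^ i) = rt 2 ^ i := by
  unfold rt
  induction i with
  | zero => simp
  | succ i ih =>
    rw [pow_succ, pow_succ, Real.sqrt_mul (by positivity), Real.sqrt_mul (Real.sqrt_nonneg _), ih]

lemma rt_two_ge : 7 / 6 ≤ rt (2 : ℝ) := by
  unfold rt
  refine Real.le_sqrt_of_sq_le (Real.le_sqrt_of_sq_le ?_)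
  norm_num

lemma phi_pos' : 0 < phi := by
  unfold phi
  have := rt_two_ge
  positivity

lemma phi_le' : phi ≤ 6 / 7 := by
  unfold phi
  rw [inv_le_comm₀ (by linarith [rt_two_ge]) (by norm_num)]
  norm_num
  linarith [rt_two_ge]

lemma phi_le_one' : phi ≤ 1 := phi_le'.trans (by norm_num)

lemma geom_phi_le (n : ℕ) : ∑ i ∈ range n, phi ^ i ≤ 7 := by
  have h : (∑ i ∈ range n, phi ^ i) * (1 - phi) = 1 - phi ^ n := geom_sum_mul_neg phi n
  have h1 : 0 ≤ phi ^ n := pow_nonneg phi_pos'.le n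
  have h2 : 0 ≤ ∑ i ∈ range n, phi ^ i := sum_nonneg fun i _ => pow_nonneg phi_pos'.le i
  nlinarith [phi_le']

lemma sum_phi_shift_le (b L : ℕ) : ∑ f ∈ Finset.Icc b L, phi ^ (f - b) ≤ 7 := by
  refine le_trans (le_of_eq ?_) (geom_phi_le (L + 1 - b))
  rw [← Finset.Ico_add_one_right_eq_Icc, sum_Ico_eq_sum_range]
  exact sum_congr rfl fun i _ => by rw [Nat.add_sub_cancel_left]

lemma DS_nonneg' (k f : ℕ) : 0 ≤ DS k f := sum_nonneg fun i _ => pow_nonneg phi_pos'.le _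

lemma xv_nonneg (h : ∀ j, 0 ≤ lam j) (k : ℕ) (j : Fin d) : 0 ≤ xv lam k j := by
  have := h j
  unfold xv
  positivity

lemma xv_anti (h : ∀ j, 0 ≤ lam j) {k k' : ℕ} (hk : k ≤ k') (j : Fin d) :
    xv lam k' j ≤ xv lam k j :=
  div_le_div_of_nonneg_left (h j) (by positivity) (pow_le_pow_right₀ one_le_two hk)

lemma xv_lev (j : Fin d) : xv lam (lev lam j) j < 1 :=
  Nat.find_spec (p := fun k => xv lam k j < 1) _

lemma one_le_xv {k : ℕ} {j : Fin d} (h : k < lev lam j) : 1 ≤ xv lam k j :=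
  not_lt.1 (Nat.find_min (p := fun k => xv lam k j < 1) _ h)

lemma lev_eq_zero {j : Fin d} (h : lam j < 1) : lev lam j = 0 := by
  rw [lev, Nat.find_eq_zero]
  simpa [xv] using h

lemma mem_act {k : ℕ} {j : Fin d} : j ∈ act lam k ↔ k < lev lam j := by simp [act]

lemma mem_cross {f : ℕ} {j : Fin d} : j ∈ cross lam f ↔ lev lam j = f := by simp [cross]

lemma act_anti {k k' : ℕ} (h : k ≤ k') : act lam k' ⊆ act lam k := fun j hj =>
  mem_act.2 (lt_of_le_of_lt h (mem_act.1 hj))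

lemma mem_newS {k b : ℕ} {j : Fin d} : j ∈ newS lam k b ↔ k < lev lam j ∧ lev lam j ≤ b := by
  simp [newS, act, not_lt]

/-- The last level. -/
noncomputable def lmax (lam : Fin d → ℝ) : ℕ := univ.sup (lev lam)

lemma act_lmax {k : ℕ} (h : lmax lam ≤ k) : act lam k = ∅ := by
  refine filter_eq_empty_iff.2 fun j _ => not_lt.2 ?_
  exact le_trans (le_sup (f := lev lam) (mem_univ j)) h

lemma qv_ge_one {k : ℕ} {j : Fin d} (h : j ∈ act lam k) : 1 ≤ qv lam k j :=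
  one_le_rt (one_le_xv (mem_act.1 h))

lemma eps_nonneg' (k : ℕ) : 0 ≤ eps lam k :=
  sum_nonneg fun j hj => inv_nonneg.2 (le_trans zero_le_one (qv_ge_one hj))

lemma inv_xv_le_inv_qv {k : ℕ} {j : Fin d} (h : j ∈ act lam k) :
    (xv lam k j)⁻¹ ≤ (qv lam k j)⁻¹ :=
  inv_anti₀ (lt_of_lt_of_le one_pos (qv_ge_one h)) (rt_le_self (one_le_xv (mem_act.1 h)))

lemma inv_qv_le_eps {k : ℕ} {j : Fin d} (h : j ∈ act lam k) : (qv lam k j)⁻¹ ≤ eps lam k :=
  single_le_sum (f := fun j => (qv lam k j)⁻¹)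
    (fun i hi => inv_nonneg.2 (le_trans zero_le_one (qv_ge_one hi))) h

lemma inv_qv_le_phi_pow {j : Fin d} {i : ℕ} (hi : i < lev lam j) :
    (qv lam i j)⁻¹ ≤ phi ^ (lev lam j - 1 - i) := by
  set l := lev lam j
  have h1 : 1 ≤ xv lam (l - 1) j := one_le_xv (by omega)
  have h2 : xv lam i j = xv lam (l - 1) j * 2 ^ (l - 1 - i) := by
    have e : (2 : ℝ) ^ (l - 1) = 2 ^ i * 2 ^ (l - 1 - i) := by
      rw [← pow_add]; congr 1; omega
    unfold xv
    rw [e, div_mul_eq_div_div, div_mul_cancel₀]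
    positivity
  have h3 : rt 2 ^ (l - 1 - i) ≤ qv lam i j := by
    rw [← rt_two_pow, qv, h2]
    exact rt_le_rt (le_mul_of_one_le_left (by positivity) h1)
  rw [phi, inv_pow]
  exact inv_anti₀ (by have := rt_two_ge; positivity) h3

/-- The total crowding is linear in the dimension. -/
lemma sum_eps_le (S : Finset ℕ) : ∑ f ∈ S, eps lam f ≤ 7 * d := by
  have h : ∀ j : Fin d, ∑ f ∈ S.filter (fun f => f < lev lam j), (qv lam f j)⁻¹ ≤ 7 := by
    intro j
    calc ∑ f ∈ S.filter (fun f => f < lev lam j), (qv lam f j)⁻¹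
        ≤ ∑ f ∈ range (lev lam j), (qv lam f j)⁻¹ := by
          refine sum_le_sum_of_subset_of_nonneg (fun f hf => mem_range.2 (mem_filter.1 hf).2) ?_
          intro f hf _
          exact inv_nonneg.2 (le_trans zero_le_one (qv_ge_one (mem_act.2 (mem_range.1 hf))))
      _ ≤ ∑ f ∈ range (lev lam j), phi ^ (lev lam j - 1 - f) :=
          sum_le_sum fun f hf => inv_qv_le_phi_pow (mem_range.1 hf)
      _ = ∑ f ∈ range (lev lam j), phi ^ f := sum_range_reflect (fun f => phi ^ f) _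
      _ ≤ 7 := geom_phi_le _
  calc ∑ f ∈ S, eps lam f
      = ∑ f ∈ S, ∑ j : Fin d, (if f < lev lam j then (qv lam f j)⁻¹ else 0) := by
        refine sum_congr rfl fun f _ => ?_
        rw [eps, act, sum_filter]
    _ = ∑ j : Fin d, ∑ f ∈ S.filter (fun f => f < lev lam j), (qv lam f j)⁻¹ := by
        rw [sum_comm]
        exact sum_congr rfl fun j _ => (sum_filter _ _).symm
    _ ≤ ∑ _j : Fin d, (7 : ℝ) := sum_le_sum fun j _ => h j
    _ = 7 * d := by simp [mul_comm]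

lemma sum_pow_two_le (F : Finset ℕ) {m : ℕ} (h : ∀ f ∈ F, f ≤ m) :
    ∑ f ∈ F, (2 : ℝ) ^ f ≤ 2 * 2 ^ m := by
  calc ∑ f ∈ F, (2 : ℝ) ^ f ≤ ∑ f ∈ range (m + 1), (2 : ℝ) ^ f :=
        sum_le_sum_of_subset_of_nonneg (fun f hf => mem_range.2 (by have := h f hf; omega))
          fun f _ _ => by positivity
    _ = 2 ^ (m + 1) - 1 := by rw [geom_sum_eq (by norm_num)]; norm_num
    _ ≤ _ := by rw [pow_succ]; linarith

variable {N : ℕ} (X : Inst d N)

lemma Inst.lam_nonneg (j : Fin d) : 0 ≤ X.lam j := by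
  have h := X.gram j j
  rw [if_pos rfl] at h
  rw [← h]
  exact sum_nonneg fun i _ => mul_self_nonneg _

lemma Inst.sum_sq (j : Fin d) : ∑ i, X.v i j ^ 2 = X.lam j := by
  have h := X.gram j j
  rw [if_pos rfl] at h
  rw [← h]
  exact sum_congr rfl fun i _ => sq _

lemma clean_of_act_empty {k : ℕ} (h : act X.lam k = ∅) : Clean X k := by
  unfold Clean eps
  rw [h, sum_empty]
  unfold eS
  have := two_le_sg
  positivity

end Vale.Agent.P262.S2
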