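import Mathlib

/-!
P262 / S₂: levels of the spectrum `lam` of `∑ vᵢ vᵢᵀ`.

At level `k` a typical node of the recursive partition has Gram diagonal `lam j / 2^k`; the
coordinate is active while this is at least `1`.
-/

namespace Vale.Agent.P262.S2

open Finset

variable {d : ℕ}

/-- Fourth root. -/
noncomputable def rt (x : ℝ) : ℝ := √(√x)

/-- Predicted diagonal at level `k`. -/
noncomputable def xv (lam : Fin d → ℝ) (k : ℕ) (j : Fin d) : ℝ := lam j / 2 ^ k

/-- The first level at which a coordinate is inactive. -/
noncomputable def lev (lam : Fin d → ℝ) (j : Fin d) : ℕ :=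
  Nat.find (show ∃ k, xv lam k j < 1 by
    obtain ⟨k, hk⟩ := pow_unbounded_of_one_lt (lam j) (one_lt_two : (1 : ℝ) < 2)
    exact ⟨k, by rw [xv, div_lt_one (by positivity)]; exact hk⟩)

/-- Active coordinates at level `k`. -/
noncomputable def act (lam : Fin d → ℝ) (k : ℕ) : Finset (Fin d) :=
  univ.filter fun j => k < lev lam j

/-- Coordinates which become inactive in `(k, b]`. -/
noncomputable def newS (lam : Fin d → ℝ) (k b : ℕ) : Finset (Fin d) :=
  act lam k \ act lam b

/-- Coordinates which become inactive exactly at level `f`. -/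
noncomputable def cross (lam : Fin d → ℝ) (f : ℕ) : Finset (Fin d) :=
  univ.filter fun j => lev lam j = f

/-- Fourth root of the predicted diagonal. -/
noncomputable def qv (lam : Fin d → ℝ) (k : ℕ) (j : Fin d) : ℝ := rt (xv lam k j)

/-- Weight of a coordinate in the entrywise homogeneity bound. -/
noncomputable def pv (lam : Fin d → ℝ) (k : ℕ) (j : Fin d) : ℝ :=
  √(xv lam k j / qv lam k j)

/-- The crowding of level `k`. -/
noncomputable def eps (lam : Fin d → ℝ) (k : ℕ) : ℝ := ∑ j ∈ act lam k, (qv lam k j)⁻¹

/-- Decay factor per level. -/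
noncomputable def phi : ℝ := (rt 2)⁻¹

/-- Geometric sum over the levels `0, …, k` seen from `f`. -/
noncomputable def DS (k f : ℕ) : ℝ := ∑ a ∈ range (k + 1), phi ^ (f - a)

end Vale.Agent.P262.S2
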