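import Vale.Agent.P262.S2.Recursion

/-!
P262 / S₂: the root of the recursion and the Euclidean Steinitz constant.

In an eigenbasis of the Gram operator of the family, the recursion gives an order with all prefix
sums of squared norm linear in the dimension.
-/

namespace Vale.Agent.P262.S2

open Finset
open scoped Classical RealInnerProductSpace

variable {d N : ℕ}

/-- Bound of the potential of the root, per dimension. -/
noncomputable def Croot : ℝ := 8 / Mk + K1 + K2 + K3 * 7 * (1 / eS + 4 * CH)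

lemma Croot_pos : 0 < Croot := by
  have := Mk_pos; have := K1_pos; have := K2_pos; have := K3_pos; have := eS_pos'; have := CH_pos
  unfold Croot
  positivity

section root

variable (X : Inst d N)

/-- Old content of a vector at the root. -/
noncomputable def g0 (i : Fin N) : ℝ := ∑ j ∈ (act X.lam 0)ᶜ, X.v i j ^ 2

/-- Number of coordinates which are inactive at the root. -/
noncomputable def m0 : ℝ := (#(act X.lam 0)ᶜ : ℝ)

/-- Vectors at the root. -/
noncomputable def u0 (i : Fin N) (j : Fin d) : ℝ :=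
  if j ∈ act X.lam 0 ∨ g0 X i ≤ Mk * m0 X then X.v i j else 0

/-- Removed amounts at the root. -/
noncomputable def rem0 (j : Fin d) : ℝ := ∑ i, |X.v i j - u0 X i j|

/-- The root state. -/
noncomputable def root : St d N where
  n :=
    { I := univ
      k := 0
      u := u0 X
      O := fun _ => 0
      Y := fun j => ∑ i, u0 X i j
      w := fun _ => 1
      Bud := m0 X
      E := fun _ => 0 }
  B := fun j => 2 * rem0 X j
  Dm := rem0 X
  aO := 0
  aY := 0

lemma u0_sq_le (i : Fin N) (j : Fin d) : u0 X i j ^ 2 ≤ X.v i j ^ 2 := by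
  unfold u0
  split_ifs
  · exact le_rfl
  · simpa using sq_nonneg (X.v i j)

lemma sum_g0_le : ∑ i, g0 X i ≤ m0 X := by
  unfold g0 m0
  rw [sum_comm, show (#(act X.lam 0)ᶜ : ℝ) = ∑ _j ∈ (act X.lam 0)ᶜ, (1 : ℝ) by simp]
  refine sum_le_sum fun j hj => ?_
  rw [X.sum_sq]
  have h0 : lev X.lam j = 0 := by
    have := mem_compl.1 hj
    simp [mem_act] at this
    omega
  have h1 := xv_lev (lam := X.lam) j
  rw [h0] at h1
  simpa [xv] using h1.le

lemma rem0_act {j : Fin d} (hj : j ∈ act X.lam 0) : rem0 X j = 0 :=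
  sum_eq_zero fun i _ => by rw [u0, if_pos (Or.inl hj), sub_self, abs_zero]

lemma rem0_nonneg (j : Fin d) : 0 ≤ rem0 X j := sum_nonneg fun _ _ => abs_nonneg _

lemma rem0_cost : ∑ j ∈ (act X.lam 0)ᶜ, rem0 X j ^ 2 ≤ m0 X / Mk := by
  set F := univ.filter fun i => ¬ g0 X i ≤ Mk * m0 X with hF
  have hMk := Mk_pos
  have hm : 0 ≤ m0 X := Nat.cast_nonneg _
  have hg : ∀ i, 0 ≤ g0 X i := fun i => sum_nonneg fun _ _ => sq_nonneg _
  have hsum : ∑ i ∈ F, g0 X i ≤ m0 X :=
    (sum_le_sum_of_subset_of_nonneg (subset_univ _) fun i _ _ => hg i).trans (sum_g0_le X)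
  have hcard : (#F : ℝ) * m0 X ≤ m0 X / Mk := by
    rw [le_div_iff₀ hMk]
    refine le_trans (le_of_eq ?_) (le_trans (card_nsmul_le_sum F (g0 X) (Mk * m0 X) fun i hi =>
      (not_le.1 (mem_filter.1 hi).2).le) hsum)
    rw [nsmul_eq_mul]
    ring
  calc ∑ j ∈ (act X.lam 0)ᶜ, rem0 X j ^ 2
      ≤ ∑ j ∈ (act X.lam 0)ᶜ, (#F : ℝ) * ∑ i ∈ F, X.v i j ^ 2 := by
        refine sum_le_sum fun j hj => ?_
        have e : rem0 X j = ∑ i ∈ F, |X.v i j| := by
          rw [rem0, hF, sum_filter]
          refine sum_congr rfl fun i _ => ?_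
          unfold u0
          by_cases h : g0 X i ≤ Mk * m0 X <;> simp [h, mem_compl.1 hj]
        rw [e]
        refine sq_sum_le_card_mul_sum_sq.trans ?_
        simp only [sq_abs]
        exact le_rfl
    _ = (#F : ℝ) * ∑ i ∈ F, g0 X i := by rw [← mul_sum, sum_comm]; rfl
    _ ≤ (#F : ℝ) * m0 X := mul_le_mul_of_nonneg_left hsum (Nat.cast_nonneg _)
    _ ≤ _ := hcard

lemma root_inv : NodeInv X (root X).n := by
  refine
    { sum_eq := fun j => sub_zero _
      u_act := fun i j hj => ?_
      u_sq := u0_sq_le X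
      one_le_w := fun _ => le_rfl
      bud_nonneg := Nat.cast_nonneg _
      content := ?_
      small := fun i _ => ?_
      E_nonneg := fun _ => le_rfl
      hom := fun f _ _ j hj l hl => ?_
      base := Or.inl fun j _ => ?_ }
  · show u0 X i j = X.v i j
    have hj' : j ∈ act X.lam 0 := hj
    rw [u0, if_pos (Or.inl hj')]
  · refine le_trans (sum_le_sum fun i _ => ?_) (sum_g0_le X)
    exact sum_le_sum fun j _ => (one_mul _).trans_le (u0_sq_le X i j)
  · show ∑ j ∈ (act X.lam 0)ᶜ, 1 * u0 X i j ^ 2 ≤ Mk * m0 X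
    by_cases h : g0 X i ≤ Mk * m0 X
    · exact le_trans (sum_le_sum fun j _ => (one_mul _).trans_le (u0_sq_le X i j)) h
    · refine le_trans (le_of_eq (sum_eq_zero fun j hj => ?_))
        (mul_nonneg Mk_pos.le (Nat.cast_nonneg _))
      simp [u0, h, mem_compl.1 hj]
  · show |2 ^ 0 / 2 ^ f * (∑ i, X.v i j * X.v i l) - if j = l then xv X.lam f j else 0| ≤ _
    have e : 2 ^ 0 / 2 ^ f * (∑ i, X.v i j * X.v i l) - (if j = l then xv X.lam f j else 0) = 0 := by
      rw [X.gram]
      split_ifs with h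
      · unfold xv; ring
      · ring
    rw [e, abs_zero]
    have hy : 1 ≤ yb (root X).n.k (root X).n.E f := by
      unfold yb
      have := DS_nonneg' (root X).n.k f
      have : 0 ≤ cY := by unfold cY; linarith [two_le_sg]
      have := Real.sqrt_nonneg (DS (root X).n.k f * (root X).n.E f)
      nlinarith
    refine mul_nonneg (by nlinarith) (mul_nonneg (Real.sqrt_nonneg _) (Real.sqrt_nonneg _))
  · show ∑ i, X.v i j ^ 2 = xv X.lam 0 j
    rw [X.sum_sq]
    simp [xv]

lemma root_ok (hsum : ∀ j, ∑ i, X.v i j = 0) (L : ℕ) : Ok X (Croot * d) L (root X) := by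
  have hm : m0 X ≤ d := by
    have h : #(act X.lam 0)ᶜ ≤ d := (card_le_univ _).trans_eq (Fintype.card_fin d)
    unfold m0
    exact_mod_cast h
  have hd : (0 : ℝ) ≤ d := Nat.cast_nonneg _
  have hzero : Allow X 0 0 (fun _ => 0) := fun T _ => by
    refine le_trans (le_of_eq (sum_eq_zero fun f _ => ?_))
      (add_nonneg le_rfl (sum_nonneg fun f _ => hv_nonneg X f))
    simp [Hv, Gv]
  have hY : ∀ j, |∑ i, u0 X i j| ≤ rem0 X j := fun j => by
    have e : ∑ i, u0 X i j = -∑ i, (X.v i j - u0 X i j) := by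
      rw [sum_sub_distrib, hsum j]; ring
    rw [e, abs_neg]
    exact abs_sum_le_sum_abs _ _
  have hpot : Pot X L (root X) ≤ Croot * d := by
    have h1 : oldCost X (root X) ≤ 8 / Mk * d := by
      have e : oldCost X (root X) = 8 * ∑ j ∈ (act X.lam 0)ᶜ, rem0 X j ^ 2 := by
        rw [mul_sum]
        refine sum_congr rfl fun j _ => ?_
        show (1 + (√1)⁻¹) * (2 * rem0 X j) ^ 2 = _
        rw [Real.sqrt_one]
        ring
      rw [e, div_mul_eq_mul_div, mul_div_assoc]
      exact mul_le_mul_of_nonneg_left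
        ((rem0_cost X).trans (div_le_div_of_nonneg_right hm Mk_pos.le)) (by norm_num)
    have h2 : K1 * (#(act X.lam (root X).n.k) : ℝ) ≤ K1 * d := by
      refine mul_le_mul_of_nonneg_left ?_ K1_pos.le
      have h : #(act X.lam (root X).n.k) ≤ d := (card_le_univ _).trans_eq (Fintype.card_fin d)
      exact_mod_cast h
    have h3 : K2 * (root X).n.Bud ≤ K2 * d := mul_le_mul_of_nonneg_left hm K2_pos.le
    have h4 : Ut X L (root X).n.k ≤ 7 * (1 / eS + 4 * CH) * d := by
      have hc : 0 ≤ 1 / eS + 4 * CH := by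
        have := eS_pos'; have := CH_pos; positivity
      calc Ut X L (root X).n.k
          ≤ ∑ f ∈ Ioc (root X).n.k L, (1 / eS + 4 * CH) * eps X.lam f := sum_le_sum fun f _ => by
            rw [add_mul]
            refine add_le_add ?_ le_rfl
            split_ifs with h
            · exact mul_nonneg (by have := eS_pos'; positivity) (eps_nonneg' f)
            · rw [div_mul_eq_mul_div, one_mul, one_le_div eS_pos']
              exact (not_le.1 h).le
        _ = (1 / eS + 4 * CH) * ∑ f ∈ Ioc (root X).n.k L, eps X.lam f := (mul_sum _ _ _).symm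
        _ ≤ (1 / eS + 4 * CH) * (7 * d) := mul_le_mul_of_nonneg_left (sum_eps_le _) hc
        _ = _ := by ring
    have h5 : PE L (root X).n.k (root X).n.E = 0 := by simp [PE, root]
    have h6 := mul_le_mul_of_nonneg_left h4 K3_pos.le
    unfold Pot
    rw [h5]
    show oldCost X (root X) + K1 * _ + K2 * _ + K3 * (_ + 0 + 0 + 0) ≤ _
    unfold Croot
    linarith
  refine
    { inv := root_inv X
      le_L := Nat.zero_le _
      boundO := fun j _ => ?_
      boundY := fun j _ => ?_
      Dm_nonneg := rem0_nonneg X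
      Dm_act := fun j hj => rem0_act X hj
      aO_nonneg := le_rfl
      aY_nonneg := le_rfl
      allowO := hzero
      allowY := hzero.congr X fun j hj => ?_
      pot_le := hpot
      decay := fun _ => ?_ }
  · show |(0 : ℝ)| + rem0 X j ≤ 2 * rem0 X j
    rw [abs_zero]
    linarith [rem0_nonneg X j]
  · show |∑ i, u0 X i j| + rem0 X j ≤ 2 * rem0 X j
    linarith [hY j]
  · show (0 : ℝ) = ∑ i, u0 X i j
    have := hY j
    rw [rem0_act X hj] at this
    exact (abs_nonpos_iff.1 this).symm
  · show m0 X ≤ Croot * d / K2 * (21 / 25) ^ (0 - lmax X.lam)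
    rw [Nat.zero_sub, pow_zero, mul_one, le_div_iff₀ K2_pos]
    refine le_trans (mul_le_mul_of_nonneg_right hm K2_pos.le) ?_
    rw [mul_comm]
    refine mul_le_mul_of_nonneg_right ?_ hd
    have := Mk_pos; have := K1_pos; have := K3_pos; have := eS_pos'; have := CH_pos
    have : 0 ≤ 8 / Mk + K1 + K3 * 7 * (1 / eS + 4 * CH) := by positivity
    unfold Croot
    linarith

/-- All prefixes of a suitable order have squared norm linear in the dimension. -/
theorem inst_order (hStep : StepProp) (hsum : ∀ j, ∑ i, X.v i j = 0) :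
    ∃ l : List (Fin N), l.Nodup ∧ l.toFinset = univ ∧
      ∀ k, ∑ j, ((l.take k).map (fun i => X.v i j)).sum ^ 2 ≤ 2 * (Croot * d) + 2 := by
  set a := (N : ℝ) * (Croot * d / K2) with ha
  have ha0 : 0 ≤ a := by
    have := Croot_pos; have := K2_pos
    positivity
  obtain ⟨m, hm⟩ := exists_pow_lt_of_lt_one (show 0 < 1 / (a + 1) by positivity)
    (show (21 / 25 : ℝ) < 1 by norm_num)
  have hsmall : (N : ℝ) * (Croot * d / K2 * (21 / 25) ^ (lmax X.lam + m - lmax X.lam)) ≤ 1 := by
    rw [Nat.add_sub_cancel_left, ← mul_assoc, ← ha]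
    refine (mul_le_mul_of_nonneg_left hm.le ha0).trans ?_
    rw [mul_one_div, div_le_one (by linarith)]
    linarith
  obtain ⟨l, hnd, hset, hl⟩ := recursion hStep X (Nat.le_add_right _ m) hsmall (lmax X.lam + m)
    (root X) (root_ok X hsum _) (Nat.sub_le _ _)
  refine ⟨l, hnd, hset, fun k => le_trans (sum_le_sum fun j _ => ?_) (hl k)⟩
  rw [← sq_abs]
  refine pow_le_pow_left₀ (abs_nonneg _) ?_ 2
  show _ ≤ |(0 : ℝ) + ((l.take k).map (fun i => u0 X i j)).sum| + rem0 X j
  have hnd' : (l.take k).Nodup := hnd.sublist (List.take_sublist _ _)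
  rw [zero_add, ← List.sum_toFinset _ hnd', ← List.sum_toFinset _ hnd']
  set F := (l.take k).toFinset
  have e : ∑ i ∈ F, X.v i j = ∑ i ∈ F, u0 X i j + ∑ i ∈ F, (X.v i j - u0 X i j) := by
    rw [sum_sub_distrib]; ring
  rw [e]
  refine (abs_add_le _ _).trans (add_le_add le_rfl ?_)
  exact (abs_sum_le_sum_abs _ _).trans
    (sum_le_sum_of_subset_of_nonneg (subset_univ _) fun _ _ _ => abs_nonneg _)

end root

/-- The Euclidean Steinitz bound, given the step lemma. -/
theorem steinitz_of_step (hStep : StepProp) :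
    ∃ C : ℝ, ∀ (d N : ℕ) (v : Fin N → EuclideanSpace ℝ (Fin d)),
      (∀ i, ‖v i‖ ≤ 1) → ∑ i, v i = 0 →
        ∃ π : Equiv.Perm (Fin N), ∀ k ≤ N,
          ‖∑ i : Fin N with i.val < k, v (π i)‖ ≤ C * √(d : ℝ) := by
  refine ⟨√(2 * Croot + 2), fun d N v hv hsum => ?_⟩
  set T : EuclideanSpace ℝ (Fin d) →ₗ[ℝ] EuclideanSpace ℝ (Fin d) :=
    ∑ i, (innerₛₗ ℝ (v i)).smulRight (v i) with hTdef
  have hT : ∀ x y, ⟪T x, y⟫ = ∑ i, ⟪v i, x⟫ * ⟪v i, y⟫ := fun x y => by
    simp [hTdef, sum_inner, real_inner_smul_left]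
  have hsym : T.IsSymmetric := fun x y => by
    rw [hT, real_inner_comm (T y) x, hT]
    exact sum_congr rfl fun i _ => mul_comm _ _
  have hn : Module.finrank ℝ (EuclideanSpace ℝ (Fin d)) = d := finrank_euclideanSpace_fin
  set b := hsym.eigenvectorBasis hn with hb
  set X : Inst d N :=
    { v := fun i j => ⟪b j, v i⟫
      lam := hsym.eigenvalues hn
      gram := fun j l => by
        have h := hT (b j) (b l)
        rw [hsym.apply_eigenvectorBasis hn j] at h
        simp only [real_inner_comm (v _)] at h ⊢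
        rw [← h]
        simp [hb, real_inner_smul_left, OrthonormalBasis.inner_eq_ite]
      norm_le := fun i => by
        rw [b.sum_sq_inner_right]
        exact pow_le_one₀ (norm_nonneg _) (hv i) } with hX
  have hXsum : ∀ j, ∑ i, X.v i j = 0 := fun j => by
    show ∑ i, ⟪b j, v i⟫ = 0
    rw [← inner_sum, hsum, inner_zero_right]
  obtain ⟨l, hnd, hset, hl⟩ := inst_order X hStep hXsum
  have hlen : l.length = N := by
    rw [← List.toFinset_card_of_nodup hnd, hset, card_univ, Fintype.card_fin]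
  have hinj : Function.Injective fun i : Fin N => l.get (Fin.cast hlen.symm i) := fun i i' h =>
    Fin.cast_injective _ (hnd.get_inj_iff.1 h)
  refine ⟨Equiv.ofBijective _ (Finite.injective_iff_bijective.1 hinj), fun k _ => ?_⟩
  set π := Equiv.ofBijective _ (Finite.injective_iff_bijective.1 hinj) with hπ
  set z := ∑ i : Fin N with i.val < k, v (π i) with hz
  have hofFn : List.ofFn (fun i : Fin N => π i) = l := by
    refine List.ext_get (by simp [hlen]) fun n h1 h2 => ?_
    simp [hπ]
  have hcoord : ∀ j, ⟪b j, z⟫ = ((l.take k).map (fun i => X.v i j)).sum := fun j => by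
    rw [List.map_take, ← hofFn, List.map_ofFn, List.sum_take_ofFn, hz, inner_sum]
    rfl
  have hz2 : ‖z‖ ^ 2 ≤ (2 * Croot + 2) * d := by
    rcases Nat.eq_zero_or_pos d with hd | hd
    · subst hd
      rw [Subsingleton.elim z 0]
      simp
    · rw [← b.sum_sq_inner_right z]
      simp only [hcoord]
      refine (hl k).trans ?_
      have : (1 : ℝ) ≤ d := by exact_mod_cast hd
      linarith
  calc ‖z‖ = √(‖z‖ ^ 2) := (Real.sqrt_sq (norm_nonneg _)).symm
    _ ≤ √((2 * Croot + 2) * d) := Real.sqrt_le_sqrt hz2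
    _ = _ := Real.sqrt_mul (by linarith [Croot_pos]) _

end Vale.Agent.P262.S2
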