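import Vale.Agent.P262.S2.Levels
import Vale.Agent.P262.S2.Const

/-!
P262 / S₂: nodes of the recursive partition and the statement of one step.

A node is a set `I` of vectors at level `k` with endpoint prefix values `O`, `Y`.  The vectors
`u i` agree with `v i` on active coordinates; on old (inactive) coordinates some entries were
removed (set to zero) and paid for separately.
-/

namespace Vale.Agent.P262.S2

open Finset

variable {d N : ℕ}

/-- An instance: vectors in the unit ball, in an eigenbasis of their Gram operator. -/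
structure Inst (d N : ℕ) where
  v : Fin N → Fin d → ℝ
  lam : Fin d → ℝ
  gram : ∀ j l, ∑ i, v i j * v i l = if j = l then lam j else 0
  norm_le : ∀ i, ∑ j, v i j ^ 2 ≤ 1

/-- A level is clean if it is not crowded. -/
def Clean (X : Inst d N) (f : ℕ) : Prop := eps X.lam f ≤ eS

/-- A node of the partition. -/
structure Node (d N : ℕ) where
  I : Finset (Fin N)
  k : ℕ
  u : Fin N → Fin d → ℝ
  O : Fin d → ℝ
  Y : Fin d → ℝ
  w : Fin d → ℝ
  Bud : ℝ
  E : ℕ → ℝ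

/-- Factor in the homogeneity bound. -/
noncomputable def yb (k : ℕ) (E : ℕ → ℝ) (f : ℕ) : ℝ := 1 + cY * DS k f + √(DS k f * E f)

/-- Homogeneity of a set `B` at level `k` seen at level `f`. -/
def HomAt (X : Inst d N) (B : Finset (Fin N)) (k f : ℕ) (y : ℝ) : Prop :=
  ∀ j ∈ act X.lam f, ∀ l ∈ act X.lam f,
    |2 ^ k / 2 ^ f * (∑ i ∈ B, X.v i j * X.v i l) - if j = l then xv X.lam f j else 0|
      ≤ (y ^ 2 - 1) * (pv X.lam f j * pv X.lam f l)

/-- Weighted old content of the vector `i`. -/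
noncomputable def oldG (X : Inst d N) (n : Node d N) (i : Fin N) : ℝ :=
  ∑ j ∈ (act X.lam n.k)ᶜ, n.w j * n.u i j ^ 2

/-- Invariants of a node. -/
structure NodeInv (X : Inst d N) (n : Node d N) : Prop where
  sum_eq : ∀ j, n.Y j - n.O j = ∑ i ∈ n.I, n.u i j
  u_act : ∀ i, ∀ j ∈ act X.lam n.k, n.u i j = X.v i j
  u_sq : ∀ i j, n.u i j ^ 2 ≤ X.v i j ^ 2
  one_le_w : ∀ j, 1 ≤ n.w j
  bud_nonneg : 0 ≤ n.Bud
  content : ∑ i ∈ n.I, oldG X n i ≤ n.Bud
  small : ∀ i ∈ n.I, oldG X n i ≤ Mk * n.Bud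
  E_nonneg : ∀ f, 0 ≤ n.E f
  hom : ∀ f, n.k ≤ f → Clean X f → HomAt X n.I n.k f (yb n.k n.E f)
  base : (∀ j ∈ act X.lam n.k, ∑ i ∈ n.I, X.v i j ^ 2 = xv X.lam n.k j) ∨ Clean X n.k

/-- Steering energy of a point at level `f`. -/
noncomputable def Gv (X : Inst d N) (f : ℕ) (P : Fin d → ℝ) : ℝ :=
  ∑ j ∈ act X.lam f, P j ^ 2 / xv X.lam f j

/-- A level `b` to which the node can be refined in one step. -/
def GoodLevel (X : Inst d N) (n : Node d N) (b : ℕ) : Prop :=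
  n.k < b ∧ (act X.lam b = ∅ ∨
    Clean X b ∧ n.E b ≤ Es ∧ Gv X b n.O ≤ gS ∧ Gv X b n.Y ≤ gS)

/-- The excess of the pieces of a step. -/
noncomputable def childE (n : Node d N) (b : ℕ) (f : ℕ) : ℝ :=
  n.E f + cE * ((b - n.k - 1 : ℕ) : ℝ) * phi ^ (f - b)

/-- Linear interpolation between the endpoints. -/
noncomputable def ramp (n : Node d N) (M t : ℕ) (j : Fin d) : ℝ :=
  (1 - (t : ℝ) / M) * n.O j + (t : ℝ) / M * n.Y j

/-- The piece with index `t`. -/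
def piece (n : Node d N) (π : Fin N → ℕ) (t : ℕ) : Finset (Fin N) :=
  n.I.filter fun i => π i = t

/-- What one step provides: an ordered partition into `2^(b-k)` pieces. -/
structure StepOut (X : Inst d N) (n : Node d N) (b : ℕ) (π : Fin N → ℕ)
    (P : ℕ → Fin d → ℝ) : Prop where
  range : ∀ i ∈ n.I, π i < 2 ^ (b - n.k)
  first : P 0 = n.O
  last : P (2 ^ (b - n.k)) = n.Y
  succ : ∀ t < 2 ^ (b - n.k), ∀ j, P (t + 1) j - P t j = ∑ i ∈ piece n π t, n.u i j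
  dev_act : ∀ t, 0 < t → t < 2 ^ (b - n.k) → ∀ T,
    ∑ j ∈ act X.lam b \ act X.lam T, P t j ^ 2
      ≤ CP * ((#(act X.lam b \ act X.lam T) : ℝ) + ((b - n.k - 1 : ℕ) : ℝ))
  dev_new : ∀ t, 0 < t → t < 2 ^ (b - n.k) →
    ∑ j ∈ newS X.lam n.k b, (P t j - ramp n (2 ^ (b - n.k)) t j) ^ 2
      ≤ CP * ((#(newS X.lam n.k b) : ℝ) + ((b - n.k - 1 : ℕ) : ℝ) + n.E n.k)
  dev_old : ∀ t, 0 < t → t < 2 ^ (b - n.k) →
    ∑ j ∈ (act X.lam n.k)ᶜ, n.w j * (P t j - ramp n (2 ^ (b - n.k)) t j) ^ 2 ≤ CP * n.Bud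
  hom : ∀ t < 2 ^ (b - n.k), ∀ f, b ≤ f → Clean X f →
    HomAt X (piece n π t) b f (yb b (childE n b) f)
  half : ∀ t < 2 ^ (b - n.k), ∑ i ∈ piece n π t, oldG X n i ≤ 3 / 5 * n.Bud
  new_content : ∀ t < 2 ^ (b - n.k),
    ∑ i ∈ piece n π t, ∑ j ∈ newS X.lam n.k b, X.v i j ^ 2
      ≤ CN * ((#(newS X.lam n.k b) : ℝ) + ((b - n.k - 1 : ℕ) : ℝ) + n.E n.k)

/-- The statement of the step lemma (proved in `Step.lean`). -/
def StepProp : Prop :=
  ∀ (d N : ℕ) (X : Inst d N) (n : Node d N), NodeInv X n → ∀ b, GoodLevel X n b →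
    ∃ π P, StepOut X n b π P

end Vale.Agent.P262.S2
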