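import Vale.Agent.P262.S2.Child

/-!
P262 / S₂: the potential does not increase in a step, and the order built by the recursion keeps
all prefixes within the initial potential.
-/

namespace Vale.Agent.P262.S2

open Finset
open scoped Classical

variable {d N : ℕ}

lemma coef_K2 : C1 + 21 / 25 * (K2 + C2) ≤ K2 := by
  have := C1_pos; have := C2_pos
  unfold K2
  linarith

lemma coef_Es : 7 * cE / Es ≤ 1 / 100 := by
  rw [div_le_iff₀ Es_pos]
  unfold cE Es
  have := sg_sq_pos
  linarith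

lemma sq_sum_three (a b c : ℝ) : (a + b + c) ^ 2 ≤ 3 * (a ^ 2 + b ^ 2 + c ^ 2) := by
  nlinarith [sq_nonneg (a - b), sq_nonneg (b - c), sq_nonneg (a - c)]

lemma sq_sum_five (a b c e g : ℝ) :
    (a + b + c + e + g) ^ 2 ≤ 5 * (a ^ 2 + b ^ 2 + c ^ 2 + e ^ 2 + g ^ 2) := by
  nlinarith [sq_nonneg (a - b), sq_nonneg (a - c), sq_nonneg (a - e), sq_nonneg (a - g),
    sq_nonneg (b - c), sq_nonneg (b - e), sq_nonneg (b - g), sq_nonneg (c - e), sq_nonneg (c - g),
    sq_nonneg (e - g)]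

/-- Steering part of a charge. -/
noncomputable def Gp (X : Inst d N) (f : ℕ) (Q : Fin d → ℝ) : ℝ :=
  if Clean X f then Gv X f Q / gS else 0

lemma Gp_nonneg (X : Inst d N) (f : ℕ) (Q : Fin d → ℝ) : 0 ≤ Gp X f Q := by
  unfold Gp
  split_ifs
  · exact div_nonneg (Gv_nonneg X f Q) gS_pos.le
  · exact le_rfl

lemma charge_ge (X : Inst d N) (k b : ℕ) (Q : Fin d → ℝ) :
    ∑ f ∈ Ioo k b, Gp X f Q + kap0 * ∑ j ∈ newS X.lam k b, Q j ^ 2
      ≤ ∑ f ∈ Ioc k b, Hv X f Q := by
  have h : ∀ f, Hv X f Q = Gp X f Q + kap0 * ∑ j ∈ cross X.lam f, Q j ^ 2 := fun f => by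
    simp only [Hv, Gp]
  simp only [h]
  rw [sum_add_distrib, ← mul_sum, sum_cross X k b fun j => Q j ^ 2]
  refine add_le_add ?_ le_rfl
  exact sum_le_sum_of_subset_of_nonneg Ioo_subset_Ioc_self fun f _ _ => Gp_nonneg X f Q

section step

variable {X : Inst d N} {s : St d N} {b : ℕ} {π : Fin N → ℕ} {P : ℕ → Fin d → ℝ} {t : ℕ}
  {P0 : ℝ} {L : ℕ}

lemma old_growth (hn : NodeInv X s.n) (hs : StepOut X s.n b π P) (hkb : s.n.k ≤ b)
    (ht : t < 2 ^ (b - s.n.k)) :
    oldCost X (childS X s b π P t) ≤ oldCost X s + C1 * s.n.Bud + C2 * budC X s.n b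
      + 20 * CP * n3 X s.n b
      + 10 * ∑ j ∈ newS X.lam s.n.k b, (s.n.O j ^ 2 + s.n.Y j ^ 2) := by
  set r := rem X s.n b π t with hr
  set e₁ := dev s.n b P t with he₁
  set e₂ := dev s.n b P (t + 1) with he₂
  show ∑ j ∈ (act X.lam b)ᶜ, (1 + (√(wC X s.n j))⁻¹) * (childS X s b π P t).B j ^ 2 ≤ _
  rw [compl_act_split hkb, sum_union compl_act_disj]
  have hold : ∑ j ∈ (act X.lam s.n.k)ᶜ, (1 + (√(wC X s.n j))⁻¹) * (childS X s b π P t).B j ^ 2
      ≤ oldCost X s + 90 * ∑ j ∈ (act X.lam s.n.k)ᶜ, s.n.w j * e₁ j ^ 2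
        + 90 * ∑ j ∈ (act X.lam s.n.k)ᶜ, s.n.w j * e₂ j ^ 2
        + 360 * ∑ j ∈ (act X.lam s.n.k)ᶜ, wC X s.n j * r j ^ 2 := by
    rw [oldCost, mul_sum, mul_sum, mul_sum, ← sum_add_distrib, ← sum_add_distrib, ← sum_add_distrib]
    refine sum_le_sum fun j hj => ?_
    have hj' := mem_compl.1 hj
    set w := s.n.w j with hw
    have hw1 : 1 ≤ w := hn.one_le_w j
    have hsq1 : 1 ≤ √w := Real.one_le_sqrt.2 hw1
    have hB : (childS X s b π P t).B j = s.B j + (e₁ j + e₂ j + 2 * r j) := by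
      show (if j ∈ act X.lam s.n.k then _ else s.B j) + e₁ j + e₂ j + 2 * r j = _
      rw [if_neg hj']
      ring
    have hwC : wC X s.n j = 7 / 5 * w := by rw [wC, if_neg hj']
    have ha' : (√(wC X s.n j))⁻¹ ≤ 17 / 20 * (√w)⁻¹ := by
      rw [hwC, Real.sqrt_mul (by norm_num), mul_inv]
      refine mul_le_mul_of_nonneg_right ?_ (by positivity)
      rw [inv_le_comm₀ (by positivity) (by norm_num)]
      exact Real.le_sqrt_of_sq_le (by norm_num)
    rw [hB]
    refine (sq_growth (by positivity) (inv_le_one_of_one_le₀ hsq1) ha').trans ?_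
    have h1 : 30 / (√w)⁻¹ ≤ 30 * w := by
      rw [div_inv_eq_mul]
      refine mul_le_mul_of_nonneg_left ?_ (by norm_num)
      rw [Real.sqrt_le_left (by linarith)]
      nlinarith
    have h2 := sq_sum_three (e₁ j) (e₂ j) (2 * r j)
    have h3 : 30 / (√w)⁻¹ * (e₁ j + e₂ j + 2 * r j) ^ 2
        ≤ 30 * w * (3 * (e₁ j ^ 2 + e₂ j ^ 2 + (2 * r j) ^ 2)) :=
      mul_le_mul h1 h2 (sq_nonneg _) (by linarith)
    have h4 : w * r j ^ 2 ≤ wC X s.n j * r j ^ 2 := by
      rw [hwC]; exact mul_le_mul_of_nonneg_right (by linarith) (sq_nonneg _)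
    nlinarith
  have hnew : ∑ j ∈ newS X.lam s.n.k b, (1 + (√(wC X s.n j))⁻¹) * (childS X s b π P t).B j ^ 2
      ≤ 10 * ∑ j ∈ newS X.lam s.n.k b, (s.n.O j ^ 2 + s.n.Y j ^ 2)
        + 10 * ∑ j ∈ newS X.lam s.n.k b, e₁ j ^ 2 + 10 * ∑ j ∈ newS X.lam s.n.k b, e₂ j ^ 2
        + 40 * ∑ j ∈ newS X.lam s.n.k b, wC X s.n j * r j ^ 2 := by
    rw [mul_sum, mul_sum, mul_sum, mul_sum, ← sum_add_distrib, ← sum_add_distrib, ← sum_add_distrib]
    refine sum_le_sum fun j hj => ?_
    have hj' : j ∈ act X.lam s.n.k := mem_act.2 (mem_newS.1 hj).1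
    have hB : (childS X s b π P t).B j = |s.n.O j| + |s.n.Y j| + e₁ j + e₂ j + 2 * r j := by
      show (if j ∈ act X.lam s.n.k then _ else s.B j) + e₁ j + e₂ j + 2 * r j = _
      rw [if_pos hj']
    have hwC : wC X s.n j = 1 := by rw [wC, if_pos hj']
    rw [hB, hwC, Real.sqrt_one]
    have := sq_sum_five |s.n.O j| |s.n.Y j| (e₁ j) (e₂ j) (2 * r j)
    rw [sq_abs, sq_abs] at this
    linarith
  have o1 : ∑ j ∈ (act X.lam s.n.k)ᶜ, s.n.w j * e₁ j ^ 2 ≤ CP * s.n.Bud := dev_old' hn hs ht.le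
  have o2 : ∑ j ∈ (act X.lam s.n.k)ᶜ, s.n.w j * e₂ j ^ 2 ≤ CP * s.n.Bud :=
    dev_old' hn hs (t := t + 1) (Nat.succ_le_of_lt ht)
  have n1 : ∑ j ∈ newS X.lam s.n.k b, e₁ j ^ 2 ≤ CP * n3 X s.n b := dev_new' hn hs ht.le
  have n2 : ∑ j ∈ newS X.lam s.n.k b, e₂ j ^ 2 ≤ CP * n3 X s.n b :=
    dev_new' hn hs (t := t + 1) (Nat.succ_le_of_lt ht)
  have hrc := rem_cost hn hkb hs ht
  rw [compl_act_split hkb, sum_union compl_act_disj, ← hr] at hrc
  have ho0 : 0 ≤ ∑ j ∈ (act X.lam s.n.k)ᶜ, wC X s.n j * r j ^ 2 :=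
    sum_nonneg fun j _ => mul_nonneg (by linarith [one_le_wC hn j]) (sq_nonneg _)
  have hn0 : 0 ≤ ∑ j ∈ newS X.lam s.n.k b, wC X s.n j * r j ^ 2 :=
    sum_nonneg fun j _ => mul_nonneg (by linarith [one_le_wC hn j]) (sq_nonneg _)
  have e1 : C2 * budC X s.n b = 400 * (budC X s.n b / Mk) := by unfold C2; ring
  have e2 : C1 * s.n.Bud = 180 * (CP * s.n.Bud) := by unfold C1; ring
  linarith

lemma skipped_le (hn : NodeInv X s.n) (hmin : ∀ f, f < b → ¬ GoodLevel X s.n f) :
    ((b - s.n.k - 1 : ℕ) : ℝ) ≤ ∑ f ∈ Ioo s.n.k b, ((if Clean X f then (0 : ℝ) else 1)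
      + s.n.E f / Es + Gp X f s.n.O + Gp X f s.n.Y) := by
  rw [← Nat.card_Ioo, ← mul_one (#(Ioo s.n.k b) : ℝ), ← nsmul_eq_mul, ← sum_const]
  refine sum_le_sum fun f hf => ?_
  obtain ⟨hf1, hf2⟩ := mem_Ioo.1 hf
  have hg := hmin f hf2
  have hE : 0 ≤ s.n.E f / Es := div_nonneg (hn.E_nonneg f) Es_pos.le
  have h1 := Gp_nonneg X f s.n.O
  have h2 := Gp_nonneg X f s.n.Y
  by_cases hc : Clean X f
  · rw [if_pos hc]
    by_cases hEs : s.n.E f ≤ Es
    · by_cases hO : Gv X f s.n.O ≤ gS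
      · by_cases hY : Gv X f s.n.Y ≤ gS
        · exact absurd ⟨hf1, Or.inr ⟨hc, hEs, hO, hY⟩⟩ hg
        · have : 1 ≤ Gp X f s.n.Y := by
            rw [Gp, if_pos hc, one_le_div gS_pos]
            exact (not_le.1 hY).le
          linarith
      · have : 1 ≤ Gp X f s.n.O := by
          rw [Gp, if_pos hc, one_le_div gS_pos]
          exact (not_le.1 hO).le
        linarith
    · have : 1 ≤ s.n.E f / Es := by
        rw [one_le_div Es_pos]
        exact (not_le.1 hEs).le
      linarith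
  · rw [if_neg hc]
    linarith

lemma PE_drop (hn : NodeInv X s.n) (hkb : s.n.k < b) (hbL : b ≤ L) :
    s.n.E s.n.k / Es + ∑ f ∈ Ioo s.n.k b, s.n.E f / Es
        - ((b - s.n.k - 1 : ℕ) : ℝ) / 100
      ≤ PE L s.n.k s.n.E - PE L b (childE s.n b) := by
  unfold PE
  have e1 : ∑ f ∈ Finset.Icc s.n.k L, s.n.E f
      = (s.n.E s.n.k + ∑ f ∈ Ioo s.n.k b, s.n.E f) + ∑ f ∈ Finset.Icc b L, s.n.E f := by
    rw [add_sum_Ioo_eq_sum_Ico hkb, ← sum_union]
    · refine sum_congr ?_ fun _ _ => rfl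
      ext f
      simp only [mem_union, mem_Ico, Finset.mem_Icc]
      omega
    · exact disjoint_left.2 fun f h1 h2 => by
        have := (mem_Ico.1 h1).2
        have := (Finset.mem_Icc.1 h2).1
        omega
  set S : ℝ := ((b - s.n.k - 1 : ℕ) : ℝ) with hS
  have e2 : ∑ f ∈ Finset.Icc b L, childE s.n b f
      ≤ ∑ f ∈ Finset.Icc b L, s.n.E f + 7 * cE * S := by
    simp only [childE, sum_add_distrib, ← mul_sum]
    refine add_le_add le_rfl ?_
    have hc : 0 ≤ cE * S := mul_nonneg (mul_nonneg (by norm_num) sg_sq_pos.le) (Nat.cast_nonneg _)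
    exact (mul_le_mul_of_nonneg_left (sum_phi_shift_le b L) hc).trans (le_of_eq (by ring))
  have hE := Es_pos
  have h3 := div_le_div_of_nonneg_right e2 hE.le
  rw [e1, add_div, add_div, sum_div]
  rw [add_div] at h3
  have h4 : 7 * cE * S / Es ≤ S / 100 := by
    rw [mul_div_right_comm]
    exact (mul_le_mul_of_nonneg_right coef_Es (Nat.cast_nonneg _)).trans (le_of_eq (by ring))
  linarith

lemma Ut_drop (hkb : s.n.k ≤ b) (hbL : b ≤ L) :
    Ut X L s.n.k - Ut X L b = ∑ f ∈ Ioc s.n.k b,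
      ((if Clean X f then (0 : ℝ) else 1) + 4 * CH * eps X.lam f) := by
  unfold Ut
  rw [← Ioc_union_Ioc_eq_Ioc hkb hbL, sum_union (Ioc_disjoint_Ioc_of_le le_rfl)]
  ring

/-- The potential of a child is at most the potential of the node. -/
lemma pot_step (hok : Ok X P0 L s) (hs : StepOut X s.n b π P) (hkb : s.n.k < b) (hbL : b ≤ L)
    (hmin : ∀ f, f < b → ¬ GoodLevel X s.n f) (ht : t < 2 ^ (b - s.n.k)) :
    Pot X L (childS X s b π P t) ≤ Pot X L s := by
  have hn := hok.inv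
  set k := s.n.k with hk
  set S : ℝ := ((b - k - 1 : ℕ) : ℝ) with hS
  have hS0 : 0 ≤ S := Nat.cast_nonneg _
  set OY := ∑ j ∈ newS X.lam k b, (s.n.O j ^ 2 + s.n.Y j ^ 2) with hOY
  set U₁ := ∑ f ∈ Ioo k b, (if Clean X f then (0 : ℝ) else 1) with hU₁
  set EP := ∑ f ∈ Ioo k b, s.n.E f / Es with hEP
  have hold := old_growth hn hs hkb.le ht
  have hskip := skipped_le hn hmin
  rw [sum_add_distrib, sum_add_distrib, sum_add_distrib] at hskip
  have hPE := PE_drop hn hkb hbL
  have hU := Ut_drop (X := X) hkb.le hbL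
  rw [sum_add_distrib, ← mul_sum] at hU
  have hUu : U₁ ≤ ∑ f ∈ Ioc k b, (if Clean X f then (0 : ℝ) else 1) :=
    sum_le_sum_of_subset_of_nonneg Ioo_subset_Ioc_self fun f _ _ => by split_ifs <;> norm_num
  have cO := charge_ge X k b s.n.O
  have cY := charge_ge X k b s.n.Y
  have hbO := hok.allowO b hkb.le
  have hbY := hok.allowY b hkb.le
  rw [← hk] at hbO hbY
  have dO : ∑ f ∈ Ioc k b, Hv X f s.n.O - ∑ f ∈ Ioc k b, hv X f - th * S
      ≤ s.aO - (childS X s b π P t).aO := by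
    show _ ≤ s.aO - if t = 0 then _ else _
    rw [← hk]
    have : 0 ≤ th * S := mul_nonneg (by norm_num [th]) hS0
    split_ifs <;> linarith
  have dY : ∑ f ∈ Ioc k b, Hv X f s.n.Y - ∑ f ∈ Ioc k b, hv X f - th * S
      ≤ s.aY - (childS X s b π P t).aY := by
    show _ ≤ s.aY - if t + 1 = 2 ^ (b - s.n.k) then _ else _
    rw [← hk]
    have : 0 ≤ th * S := mul_nonneg (by norm_num [th]) hS0
    split_ifs <;> linarith
  rw [sum_hv] at dO dY
  have hOY2 : OY = ∑ j ∈ newS X.lam k b, s.n.O j ^ 2 + ∑ j ∈ newS X.lam k b, s.n.Y j ^ 2 :=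
    sum_add_distrib
  set Δ := (Ut X L k - Ut X L b) + (PE L k s.n.E - PE L b (childE s.n b))
    + (s.aO - (childS X s b π P t).aO) + (s.aY - (childS X s b π P t).aY) with hΔ
  have heps : 0 ≤ ∑ f ∈ Ioc k b, eps X.lam f := sum_nonneg fun f _ => eps_nonneg' f
  have hCH := CH_pos
  have hdrop : 9 / 10 * S + s.n.E k / Es + kap0 * OY - 2 * CH * (#(newS X.lam k b) : ℝ) ≤ Δ := by
    rw [hΔ, hOY2, mul_add]
    have := mul_nonneg hCH.le heps
    have hth : th * S = S / 100 := by unfold th; ring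
    linarith
  have hN3 : n3 X s.n b ≤ (#(newS X.lam k b) : ℝ) + S + s.n.E k := by
    unfold n3
    split_ifs
    · have := hn.E_nonneg k
      positivity
    · exact le_rfl
  have hact : (#(act X.lam k) : ℝ) = (#(act X.lam b) : ℝ) + (#(newS X.lam k b) : ℝ) := by
    have h := card_sdiff_add_card_eq_card (act_anti (lam := X.lam) hkb.le)
    rw [newS, ← h]
    push_cast
    ring
  have hMc := Mc_pos
  have hK3 := K3_pos
  have hkap := kap0_pos
  have hEs := Es_pos
  have key : Mc * n3 X s.n b + 10 * OY ≤ K1 * (#(newS X.lam k b) : ℝ) + K3 * Δ := by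
    have i0 := mul_le_mul_of_nonneg_left hdrop hK3.le
    have i1 := mul_le_mul_of_nonneg_left hN3 hMc.le
    have i2 : Mc * S ≤ K3 * (9 / 10 * S) := by
      rw [← mul_assoc]
      refine mul_le_mul_of_nonneg_right ?_ hS0
      have : 0 ≤ Mc * Es + 10 / kap0 := by positivity
      unfold K3
      linarith
    have i3 : Mc * s.n.E k ≤ K3 * (s.n.E k / Es) := by
      rw [mul_div_assoc', le_div_iff₀ hEs, mul_right_comm]
      refine mul_le_mul_of_nonneg_right ?_ (hn.E_nonneg k)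
      have : 0 ≤ 2 * Mc + 10 / kap0 := by positivity
      unfold K3
      linarith
    have i4 : 10 * OY ≤ K3 * (kap0 * OY) := by
      rw [← mul_assoc]
      refine mul_le_mul_of_nonneg_right ?_ (sum_nonneg fun j _ => by positivity)
      have h5 : 10 / kap0 ≤ K3 := by
        have : 0 ≤ 2 * Mc + Mc * Es := by positivity
        unfold K3
        linarith
      exact (div_le_iff₀ hkap).1 h5
    have e1 : K1 * (#(newS X.lam k b) : ℝ)
        = Mc * (#(newS X.lam k b) : ℝ) + 2 * K3 * CH * (#(newS X.lam k b) : ℝ) := by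
      unfold K1; ring
    linarith
  have hbud : C1 * s.n.Bud + (K2 + C2) * budC X s.n b + 20 * CP * n3 X s.n b
      ≤ K2 * s.n.Bud + Mc * n3 X s.n b := by
    have h1 := mul_le_mul_of_nonneg_right coef_K2 hn.bud_nonneg
    have e1 : (K2 + C2) * budC X s.n b
        = 21 / 25 * (K2 + C2) * s.n.Bud + (K2 + C2) * CN * n3 X s.n b := by
      unfold budC; ring
    have e2 : Mc * n3 X s.n b = (K2 + C2) * CN * n3 X s.n b + 20 * CP * n3 X s.n b := by
      unfold Mc; ring
    linarith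
  unfold Pot
  show oldCost X (childS X s b π P t) + K1 * (#(act X.lam b) : ℝ) + K2 * budC X s.n b
      + K3 * (Ut X L b + PE L b (childE s.n b) + (childS X s b π P t).aO + (childS X s b π P t).aY)
    ≤ _
  rw [← hk, hact]
  have e3 : K3 * Δ = K3 * (Ut X L k + PE L k s.n.E + s.aO + s.aY)
      - K3 * (Ut X L b + PE L b (childE s.n b) + (childS X s b π P t).aO
          + (childS X s b π P t).aY) := by
    rw [hΔ]; ring
  linarith

lemma Ut_nonneg (k : ℕ) : 0 ≤ Ut X L k := sum_nonneg fun f _ =>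
  add_nonneg (by split_ifs <;> norm_num) (mul_nonneg (mul_nonneg (by norm_num) CH_pos.le) (eps_nonneg' f))

lemma PE_nonneg (hn : NodeInv X s.n) : 0 ≤ PE L s.n.k s.n.E :=
  div_nonneg (sum_nonneg fun f _ => hn.E_nonneg f) Es_pos.le

lemma oldCost_nonneg : 0 ≤ oldCost X s := sum_nonneg fun j _ => by positivity

lemma parts_le (hn : NodeInv X s.n) (hO : 0 ≤ s.aO) (hY : 0 ≤ s.aY) :
    oldCost X s ≤ Pot X L s ∧ K2 * s.n.Bud ≤ Pot X L s := by
  have h1 : 0 ≤ K3 * (Ut X L s.n.k + PE L s.n.k s.n.E + s.aO + s.aY) :=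
    mul_nonneg K3_pos.le (by linarith [Ut_nonneg (X := X) (L := L) s.n.k, PE_nonneg (L := L) hn])
  have h2 : 0 ≤ K1 * (#(act X.lam s.n.k) : ℝ) := mul_nonneg K1_pos.le (Nat.cast_nonneg _)
  have h3 : 0 ≤ K2 * s.n.Bud := mul_nonneg K2_pos.le hn.bud_nonneg
  have h4 := oldCost_nonneg (X := X) (s := s)
  unfold Pot
  constructor <;> linarith

lemma childS_ok (hok : Ok X P0 L s) (hs : StepOut X s.n b π P) (hb : GoodLevel X s.n b)
    (hmin : ∀ f, f < b → ¬ GoodLevel X s.n f) (hbL : b ≤ L)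
    (hblmax : b ≤ max (s.n.k + 1) (lmax X.lam)) (ht : t < 2 ^ (b - s.n.k)) :
    Ok X P0 L (childS X s b π P t) := by
  have hn := hok.inv
  have hkb := hb.1
  have hS0 : 0 ≤ th * ((b - s.n.k - 1 : ℕ) : ℝ) := mul_nonneg (by norm_num [th]) (Nat.cast_nonneg _)
  obtain ⟨hO0, hOA⟩ := hok.allowO.shift X hkb.le
  obtain ⟨hY0, hYA⟩ := hok.allowY.shift X hkb.le
  have hpot := (pot_step hok hs hkb hbL hmin ht).trans hok.pot_le
  have hinv : NodeInv X (childS X s b π P t).n := childN_inv hn hb hs ht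
  have haO : 0 ≤ (childS X s b π P t).aO := by
    show 0 ≤ if t = 0 then _ else _
    split_ifs <;> assumption
  have haY : 0 ≤ (childS X s b π P t).aY := by
    show 0 ≤ if t + 1 = 2 ^ (b - s.n.k) then _ else _
    split_ifs <;> assumption
  have hYact : ∀ j ∈ act X.lam b, P (t + 1) j = (childS X s b π P t).n.Y j := fun j hj => by
    show P (t + 1) j = P (t + 1) j - ∑ i ∈ piece s.n π t, (s.n.u i j - uC X s.n b i j)
    rw [sum_eq_zero fun i _ => by rw [uC_act hj, sub_self], sub_zero]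
  have hbound : ∀ t', t' ≤ 2 ^ (b - s.n.k) → ∀ j, |P t' j| + s.Dm j
      ≤ (if j ∈ act X.lam s.n.k then |s.n.O j| + |s.n.Y j| else s.B j) + dev s.n b P t' j := by
    intro t' ht' j
    obtain ⟨r1, r2⟩ := abs_ramp_le (n := s.n) (b := b) ht' j
    have h : |P t' j| ≤ |ramp s.n (2 ^ (b - s.n.k)) t' j| + dev s.n b P t' j := by
      have := abs_add_le (ramp s.n (2 ^ (b - s.n.k)) t' j) (P t' j - ramp s.n (2 ^ (b - s.n.k)) t' j)
      rwa [add_sub_cancel] at this
    split_ifs with hj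
    · rw [hok.Dm_act j hj]; linarith
    · have b1 := hok.boundO j (mem_compl.2 hj)
      have b2 := hok.boundY j (mem_compl.2 hj)
      rcases max_cases |s.n.O j| |s.n.Y j| with ⟨e, -⟩ | ⟨e, -⟩ <;> rw [e] at r1 <;> linarith
  refine
    { inv := hinv
      le_L := hbL
      boundO := fun j _ => ?_
      boundY := fun j _ => ?_
      Dm_nonneg := fun j => add_nonneg (hok.Dm_nonneg j) (rem_nonneg j)
      Dm_act := fun j hj => ?_
      aO_nonneg := haO
      aY_nonneg := haY
      allowO := ?_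
      allowY := ?_
      pot_le := hpot
      decay := fun hl => ?_ }
  · show |P t j| + (s.Dm j + rem X s.n b π t j) ≤ _ + dev s.n b P t j + dev s.n b P (t + 1) j
      + 2 * rem X s.n b π t j
    have := hbound t ht.le j
    have h2 : 0 ≤ dev s.n b P (t + 1) j := abs_nonneg _
    have := rem_nonneg (X := X) (n := s.n) (b := b) (π := π) (t := t) j
    linarith
  · show |P (t + 1) j - ∑ i ∈ piece s.n π t, (s.n.u i j - uC X s.n b i j)|
      + (s.Dm j + rem X s.n b π t j) ≤ _ + dev s.n b P t j + dev s.n b P (t + 1) j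
      + 2 * rem X s.n b π t j
    have := hbound (t + 1) (Nat.succ_le_of_lt ht) j
    have h1 := abs_sub (P (t + 1) j) (∑ i ∈ piece s.n π t, (s.n.u i j - uC X s.n b i j))
    have h2 : |∑ i ∈ piece s.n π t, (s.n.u i j - uC X s.n b i j)| ≤ rem X s.n b π t j :=
      abs_sum_le_sum_abs _ _
    have h3 : 0 ≤ dev s.n b P t j := abs_nonneg _
    linarith
  · show s.Dm j + rem X s.n b π t j = 0
    have hj' : j ∈ act X.lam b := hj
    rw [hok.Dm_act j (act_anti hkb.le hj'), rem_act hj', add_zero]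
  · show Allow X b (if t = 0 then _ else _) (P t)
    split_ifs with h
    · rw [h, hs.first]; exact hOA
    · exact allow_new X (hs.dev_act t (Nat.pos_of_ne_zero h) ht)
  · show Allow X b (if t + 1 = 2 ^ (b - s.n.k) then _ else _) (childS X s b π P t).n.Y
    refine Allow.congr X (P := P (t + 1)) ?_ hYact
    split_ifs with h
    · rw [h, hs.last]; exact hYA
    · exact allow_new X (hs.dev_act (t + 1) (Nat.succ_pos t)
        (lt_of_le_of_ne (Nat.succ_le_of_lt ht) h))
  · have hl' : lmax X.lam ≤ b := hl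
    show budC X s.n b ≤ P0 / K2 * (21 / 25) ^ (b - lmax X.lam)
    rcases le_or_gt (lmax X.lam) s.n.k with hk | hk
    · have hb1 : b = s.n.k + 1 := by omega
      have hne : newS X.lam s.n.k b = ∅ := by rw [newS, act_lmax hk, empty_sdiff]
      have he : budC X s.n b = 21 / 25 * s.n.Bud := by rw [budC, n3, if_pos hne, mul_zero, add_zero]
      rw [he, hb1, show s.n.k + 1 - lmax X.lam = (s.n.k - lmax X.lam) + 1 by omega, pow_succ]
      exact (mul_le_mul_of_nonneg_left (hok.decay hk) (by norm_num)).trans (le_of_eq (by ring))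
    · rw [show b - lmax X.lam = 0 by omega, pow_zero, mul_one, le_div_iff₀ K2_pos, mul_comm]
      exact (parts_le hinv haO haY).2.trans hpot

end step

/-- There is an order of the node with all prefixes within `R`. -/
def Good (X : Inst d N) (R : ℝ) (s : St d N) : Prop :=
  ∃ l : List (Fin N), l.Nodup ∧ l.toFinset = s.n.I ∧
    ∀ k, ∑ j, (|s.n.O j + ((l.take k).map (fun i => s.n.u i j)).sum| + s.Dm j) ^ 2 ≤ R

lemma base_good {X : Inst d N} {P0 : ℝ} {L : ℕ} {s : St d N} (hok : Ok X P0 L s) (hk : s.n.k = L)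
    (hL : lmax X.lam ≤ L) (hsmall : (N : ℝ) * (P0 / K2 * (21 / 25) ^ (L - lmax X.lam)) ≤ 1) :
    Good X (2 * P0 + 2) s := by
  have hn := hok.inv
  have hact : act X.lam s.n.k = ∅ := act_lmax (by omega)
  refine ⟨s.n.I.toList, s.n.I.nodup_toList, s.n.I.toList_toFinset, fun k => ?_⟩
  set σ : Fin d → ℝ := fun j => ∑ i ∈ s.n.I, |s.n.u i j| with hσ
  have hmem : ∀ j : Fin d, j ∈ (act X.lam s.n.k)ᶜ := fun j => by simp [hact]
  have h1 : ∀ j, (|s.n.O j + ((s.n.I.toList.take k).map (fun i => s.n.u i j)).sum| + s.Dm j) ^ 2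
      ≤ 2 * ((1 + (√(s.n.w j))⁻¹) * s.B j ^ 2) + 2 * σ j ^ 2 := fun j => by
    have hs : |((s.n.I.toList.take k).map (fun i => s.n.u i j)).sum| ≤ σ j := by
      have hnd : (s.n.I.toList.take k).Nodup := s.n.I.nodup_toList.sublist (List.take_sublist _ _)
      rw [← List.sum_toFinset _ hnd]
      refine (abs_sum_le_sum_abs _ _).trans
        (sum_le_sum_of_subset_of_nonneg (fun i hi => ?_) fun _ _ _ => abs_nonneg _)
      exact Finset.mem_toList.1 (List.mem_of_mem_take (List.mem_toFinset.1 hi))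
    have hB := hok.boundO j (hmem j)
    have h0 : 0 ≤ |s.n.O j + ((s.n.I.toList.take k).map (fun i => s.n.u i j)).sum| + s.Dm j :=
      add_nonneg (abs_nonneg _) (hok.Dm_nonneg j)
    have h2 : |s.n.O j + ((s.n.I.toList.take k).map (fun i => s.n.u i j)).sum| + s.Dm j
        ≤ s.B j + σ j := by
      linarith [abs_add_le (s.n.O j) ((s.n.I.toList.take k).map (fun i => s.n.u i j)).sum]
    have h3 := pow_le_pow_left₀ h0 h2 2
    have h4 : 0 ≤ (√(s.n.w j))⁻¹ * s.B j ^ 2 := by positivity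
    nlinarith [sq_nonneg (s.B j - σ j)]
  refine (sum_le_sum fun j _ => h1 j).trans ?_
  rw [sum_add_distrib, ← mul_sum, ← mul_sum]
  have hA : ∑ j, (1 + (√(s.n.w j))⁻¹) * s.B j ^ 2 ≤ P0 := by
    refine le_trans (le_of_eq ?_) ((parts_le hn hok.aO_nonneg hok.aY_nonneg).1.trans hok.pot_le)
    rw [oldCost, hact, compl_empty]
  have hσs : ∑ j, σ j ^ 2 ≤ 1 := by
    have hNc : (#s.n.I : ℝ) ≤ N := by
      have : #s.n.I ≤ N := (card_le_univ _).trans_eq (Fintype.card_fin N)
      exact_mod_cast this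
    have hb : s.n.Bud ≤ P0 / K2 * (21 / 25) ^ (L - lmax X.lam) := by
      have := hok.decay (by omega)
      rwa [hk] at this
    calc ∑ j, σ j ^ 2 ≤ ∑ j, (N : ℝ) * ∑ i ∈ s.n.I, s.n.u i j ^ 2 := by
          refine sum_le_sum fun j _ => ?_
          refine sq_sum_le_card_mul_sum_sq.trans ?_
          simp only [sq_abs]
          exact mul_le_mul_of_nonneg_right hNc (sum_nonneg fun i _ => sq_nonneg _)
      _ = (N : ℝ) * ∑ i ∈ s.n.I, ∑ j, s.n.u i j ^ 2 := by rw [← mul_sum, sum_comm]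
      _ ≤ (N : ℝ) * ∑ i ∈ s.n.I, oldG X s.n i := by
          refine mul_le_mul_of_nonneg_left (sum_le_sum fun i _ => ?_) N.cast_nonneg
          rw [oldG, hact, compl_empty]
          exact sum_le_sum fun j _ => le_mul_of_one_le_left (sq_nonneg _) (hn.one_le_w j)
      _ ≤ (N : ℝ) * s.n.Bud := mul_le_mul_of_nonneg_left hn.content N.cast_nonneg
      _ ≤ (N : ℝ) * (P0 / K2 * (21 / 25) ^ (L - lmax X.lam)) :=
          mul_le_mul_of_nonneg_left hb N.cast_nonneg
      _ ≤ 1 := hsmall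
  linarith

lemma glue_good {X : Inst d N} {R : ℝ} {s : St d N} {b : ℕ} {π : Fin N → ℕ}
    {P : ℕ → Fin d → ℝ} (hs : StepOut X s.n b π P) (hDm : ∀ j, 0 ≤ s.Dm j)
    (h0 : ∑ j, (|s.n.O j| + s.Dm j) ^ 2 ≤ R)
    (hc : ∀ t < 2 ^ (b - s.n.k), Good X R (childS X s b π P t)) : Good X R s := by
  have key : ∀ T, T ≤ 2 ^ (b - s.n.k) → ∃ l : List (Fin N), l.Nodup ∧
      l.toFinset = s.n.I.filter (fun i => π i < T) ∧
      (∀ j, (l.map (fun i => s.n.u i j)).sum = P T j - s.n.O j) ∧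
      ∀ k, ∑ j, (|s.n.O j + ((l.take k).map (fun i => s.n.u i j)).sum| + s.Dm j) ^ 2 ≤ R := by
    intro T
    induction T with
    | zero =>
      intro _
      refine ⟨[], List.nodup_nil, ?_, fun j => ?_, fun k => ?_⟩
      · simp
      · simp [hs.first]
      · simpa using h0
    | succ T ih =>
      intro hT
      obtain ⟨l, hnd, hset, hsum, hb⟩ := ih (by omega)
      obtain ⟨l', hnd', hset', hb'⟩ := hc T (by omega)
      have hset'' : l'.toFinset = piece s.n π T := hset'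
      have hdisj : ∀ x ∈ l, ∀ y ∈ l', x ≠ y := fun x hx y hy hxy => by
        have h1 : x ∈ l.toFinset := List.mem_toFinset.2 hx
        have h2 : y ∈ l'.toFinset := List.mem_toFinset.2 hy
        rw [hset] at h1
        rw [hset''] at h2
        have h3 := (mem_filter.1 h1).2
        have h4 : π y = T := (mem_filter.1 h2).2
        rw [hxy, h4] at h3
        exact lt_irrefl T h3
      refine ⟨l ++ l', List.nodup_append.2 ⟨hnd, hnd', hdisj⟩, ?_, fun j => ?_, fun k => ?_⟩
      · rw [List.toFinset_append, hset, hset'']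
        ext i
        simp only [mem_union, mem_filter, piece]
        by_cases h : i ∈ s.n.I <;> simp [h] <;> omega
      · rw [List.map_append, List.sum_append, hsum j]
        have : (l'.map (fun i => s.n.u i j)).sum = P (T + 1) j - P T j := by
          rw [← List.sum_toFinset _ hnd', hset'', hs.succ T (by omega) j]
        linarith
      · rcases le_or_gt k l.length with hk | hk
        · rw [List.take_append_of_le_length hk]
          exact hb k
        · rw [List.take_append, List.take_of_length_le hk.le]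
          refine le_trans (sum_le_sum fun j _ => ?_) (hb' (k - l.length))
          refine pow_le_pow_left₀ (add_nonneg (abs_nonneg _) (hDm j)) ?_ 2
          show |s.n.O j + ((l ++ l'.take (k - l.length)).map (fun i => s.n.u i j)).sum| + s.Dm j
            ≤ |P T j + ((l'.take (k - l.length)).map (fun i => uC X s.n b i j)).sum|
              + (s.Dm j + rem X s.n b π T j)
          rw [List.map_append, List.sum_append, hsum j]
          have hnd'' : (l'.take (k - l.length)).Nodup := hnd'.sublist (List.take_sublist _ _)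
          rw [← List.sum_toFinset _ hnd'', ← List.sum_toFinset _ hnd'']
          have hsub : (l'.take (k - l.length)).toFinset ⊆ piece s.n π T := fun i hi => by
            rw [← hset'']
            exact List.mem_toFinset.2 (List.mem_of_mem_take (List.mem_toFinset.1 hi))
          set F := (l'.take (k - l.length)).toFinset
          have e : s.n.O j + (P T j - s.n.O j + ∑ i ∈ F, s.n.u i j)
              = (P T j + ∑ i ∈ F, uC X s.n b i j) + ∑ i ∈ F, (s.n.u i j - uC X s.n b i j) := by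
            rw [sum_sub_distrib]; ring
          rw [e]
          have h1 := abs_add_le (P T j + ∑ i ∈ F, uC X s.n b i j)
            (∑ i ∈ F, (s.n.u i j - uC X s.n b i j))
          have h2 : |∑ i ∈ F, (s.n.u i j - uC X s.n b i j)| ≤ rem X s.n b π T j :=
            (abs_sum_le_sum_abs _ _).trans
              (sum_le_sum_of_subset_of_nonneg hsub fun _ _ _ => abs_nonneg _)
          linarith
  obtain ⟨l, hnd, hset, -, hb⟩ := key _ le_rfl
  refine ⟨l, hnd, ?_, hb⟩
  rw [hset]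
  exact filter_true_of_mem fun i hi => hs.range i hi

/-- The recursion. -/
theorem recursion (hStep : StepProp) (X : Inst d N) {P0 : ℝ} {L : ℕ} (hL : lmax X.lam ≤ L)
    (hsmall : (N : ℝ) * (P0 / K2 * (21 / 25) ^ (L - lmax X.lam)) ≤ 1) :
    ∀ (m : ℕ) (s : St d N), Ok X P0 L s → L - s.n.k ≤ m → Good X (2 * P0 + 2) s := by
  intro m
  induction m with
  | zero =>
    intro s hok hm
    exact base_good hok (by have := hok.le_L; omega) hL hsmall
  | succ m ih =>
    intro s hok hm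
    by_cases hk : s.n.k = L
    · exact base_good hok hk hL hsmall
    have hkL : s.n.k < L := lt_of_le_of_ne hok.le_L hk
    have hex : ∃ b, GoodLevel X s.n b :=
      ⟨max (s.n.k + 1) (lmax X.lam), lt_of_lt_of_le (Nat.lt_succ_self _) (le_max_left _ _),
        Or.inl (act_lmax (le_max_right _ _))⟩
    set b := Nat.find hex with hbdef
    have hb : GoodLevel X s.n b := Nat.find_spec hex
    have hmin : ∀ f, f < b → ¬ GoodLevel X s.n f := fun f hf => Nat.find_min hex hf
    have hblmax : b ≤ max (s.n.k + 1) (lmax X.lam) :=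
      Nat.find_min' hex ⟨lt_of_lt_of_le (Nat.lt_succ_self _) (le_max_left _ _),
        Or.inl (act_lmax (le_max_right _ _))⟩
    have hbL : b ≤ L := hblmax.trans (max_le hkL hL)
    obtain ⟨π, P, hs⟩ := hStep d N X s.n hok.inv b hb
    have hc : ∀ t < 2 ^ (b - s.n.k), Good X (2 * P0 + 2) (childS X s b π P t) := fun t ht =>
      ih _ (childS_ok hok hs hb hmin hbL hblmax ht) (by
        show L - b ≤ m
        have := hb.1
        omega)
    refine glue_good hs hok.Dm_nonneg ?_ hc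
    obtain ⟨l, -, -, hl⟩ := hc 0 (pow_pos (by norm_num) _)
    refine le_trans (sum_le_sum fun j _ => ?_) (hl 0)
    refine pow_le_pow_left₀ (add_nonneg (abs_nonneg _) (hok.Dm_nonneg j)) ?_ 2
    show _ ≤ |P 0 j + _| + (s.Dm j + rem X s.n b π 0 j)
    simp only [List.take_zero, List.map_nil, List.sum_nil, add_zero, hs.first]
    linarith [rem_nonneg (X := X) (n := s.n) (b := b) (π := π) (t := 0) j]

end Vale.Agent.P262.S2
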