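import Vale.Agent.P262.S2.Node

/-!
P262 / S₂, step, part 1: elementary facts on levels and homogeneity, and the class of
admissible partitions used inside one step.
-/

namespace Vale.Agent.P262.S2

open Finset

variable {d N : ℕ}

/-! ### Levels -/

lemma mem_act_iff {lam : Fin d → ℝ} {k : ℕ} {j : Fin d} : j ∈ act lam k ↔ k < lev lam j := by
  simp [act]

lemma one_le_xv_of_act {lam : Fin d → ℝ} {k : ℕ} {j : Fin d} (h : j ∈ act lam k) :
    1 ≤ xv lam k j := by
  simpa using Nat.find_min _ (mem_act_iff.1 h)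

lemma xv_lev_lt {lam : Fin d → ℝ} (j : Fin d) : xv lam (lev lam j) j < 1 :=
  Nat.find_spec (p := fun k => xv lam k j < 1) _

lemma one_le_qv_of_act {lam : Fin d → ℝ} {k : ℕ} {j : Fin d} (h : j ∈ act lam k) :
    1 ≤ qv lam k j := by
  simp only [qv, rt]
  exact Real.one_le_sqrt.2 (Real.one_le_sqrt.2 (one_le_xv_of_act h))

lemma qv_sq_sq {lam : Fin d → ℝ} {k : ℕ} {j : Fin d} (h : j ∈ act lam k) :
    (qv lam k j ^ 2) ^ 2 = xv lam k j := by
  rw [qv, rt, Real.sq_sqrt (Real.sqrt_nonneg _),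
    Real.sq_sqrt (zero_le_one.trans (one_le_xv_of_act h))]

lemma pv_sq {lam : Fin d → ℝ} {k : ℕ} {j : Fin d} (h : j ∈ act lam k) :
    pv lam k j ^ 2 = xv lam k j / qv lam k j := by
  have := one_le_xv_of_act h
  have := one_le_qv_of_act h
  rw [pv, Real.sq_sqrt (div_nonneg (by linarith) (by linarith))]

lemma pv_pos {lam : Fin d → ℝ} {k : ℕ} {j : Fin d} (h : j ∈ act lam k) : 0 < pv lam k j := by
  have := one_le_xv_of_act h
  have := one_le_qv_of_act h
  exact Real.sqrt_pos.2 (div_pos (by linarith) (by linarith))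

lemma pv_sq_le {lam : Fin d → ℝ} {k : ℕ} {j : Fin d} (h : j ∈ act lam k) :
    pv lam k j ^ 2 ≤ xv lam k j := by
  rw [pv_sq h]
  exact div_le_self (zero_le_one.trans (one_le_xv_of_act h)) (one_le_qv_of_act h)

lemma rt_two_pow_four : rt 2 ^ 4 = 2 := by
  have h : rt 2 ^ 4 = (rt 2 ^ 2) ^ 2 := by ring
  rw [h, rt, Real.sq_sqrt (Real.sqrt_nonneg _), Real.sq_sqrt (by norm_num)]

lemma phi_pos : 0 < phi := by
  rw [phi, rt]; positivity

lemma phi_pow_four : phi ^ 4 = 1 / 2 := by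
  rw [phi, inv_pow, rt_two_pow_four, one_div]

lemma phi_le : phi ≤ 17 / 20 := by
  by_contra h
  push Not at h
  have h4 : (17 / 20 : ℝ) ^ 4 < phi ^ 4 := pow_lt_pow_left₀ h (by norm_num) (by norm_num)
  rw [phi_pow_four] at h4
  norm_num at h4

lemma phi_le_one : phi ≤ 1 := phi_le.trans (by norm_num)

lemma sum_phi_le (n : ℕ) : ∑ i ∈ range n, phi ^ i ≤ 7 := by
  have h := geom_sum_mul_neg phi n
  have h1 := pow_nonneg phi_pos.le n
  have h2 := phi_le
  have h3 : 0 ≤ ∑ i ∈ range n, phi ^ i := sum_nonneg fun i _ => pow_nonneg phi_pos.le i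
  nlinarith

lemma sum_phi_sq_le (n : ℕ) : ∑ i ∈ range n, (phi ^ 2) ^ i ≤ 4 := by
  have h := geom_sum_mul_neg (phi ^ 2) n
  have h1 := pow_nonneg (sq_nonneg phi) n
  have h2 : phi ^ 2 ≤ 3 / 4 :=
    (pow_le_pow_left₀ phi_pos.le phi_le 2).trans (by norm_num)
  have h3 : 0 ≤ ∑ i ∈ range n, (phi ^ 2) ^ i := sum_nonneg fun i _ => pow_nonneg (sq_nonneg _) i
  nlinarith

lemma DS_nonneg (k f : ℕ) : 0 ≤ DS k f := sum_nonneg fun _ _ => pow_nonneg phi_pos.le _

lemma DS_le {k f : ℕ} (h : k ≤ f) : DS k f ≤ 7 := by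
  refine le_trans ?_ (sum_phi_le (f + 1))
  rw [DS, ← sum_range_reflect (fun i => phi ^ i) (f + 1)]
  refine sum_le_sum_of_subset_of_nonneg (fun a ha => ?_) fun i _ _ => pow_nonneg phi_pos.le _
  simp only [mem_range] at ha ⊢
  omega

lemma DS_add (k W f : ℕ) :
    DS (k + W) f = DS k f + ∑ i ∈ range W, phi ^ (f - (k + (i + 1))) := by
  unfold DS
  rw [show k + W + 1 = k + 1 + W by ring, sum_range_add]
  congr 1
  exact sum_congr rfl fun i _ => by ring_nf

lemma one_le_yb {k f : ℕ} {E : ℕ → ℝ} : 1 ≤ yb k E f := by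
  have := DS_nonneg k f
  have := two_le_sg
  have : 0 ≤ cY := by unfold cY; linarith
  unfold yb
  have := Real.sqrt_nonneg (DS k f * E f)
  nlinarith [mul_nonneg ‹0 ≤ cY› (DS_nonneg k f)]

/-- Consequence of homogeneity on the diagonal. -/
lemma HomAt.diag_le {X : Inst d N} {B : Finset (Fin N)} {k f : ℕ} {y : ℝ} (h : HomAt X B k f y)
    {j : Fin d} (hj : j ∈ act X.lam f) (hy : 1 ≤ y) :
    2 ^ k / 2 ^ f * ∑ i ∈ B, X.v i j ^ 2 ≤ y ^ 2 * xv X.lam f j := by
  have h1 := (abs_le.1 (h j hj j hj)).2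
  simp only [if_true, ← sq] at h1
  have h2 := pv_sq_le hj
  have h3 : 0 ≤ y ^ 2 - 1 := by nlinarith
  nlinarith [mul_le_mul_of_nonneg_left h2 h3]

/-! ### The class of admissible partitions -/

section Cls

variable (X : Inst d N) (n : Node d N) (b : ℕ)

/-- Block `p` at depth `r'` of a partition `π` of depth `r`. -/
def blk (π : Fin N → ℕ) (r r' p : ℕ) : Finset (Fin N) :=
  n.I.filter fun i => π i / 2 ^ (r - r') = p

/-- Noise allowed at depth `i` seen at level `f`. -/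
noncomputable def tD (i f : ℕ) : ℝ := cH * √(i : ℝ) * phi ^ (f - (n.k + i))

/-- Noise allowed on the outer blocks at depth `i` seen at level `b`. -/
noncomputable def tX (i : ℕ) : ℝ := cH * phi ^ (b - (n.k + i))

/-- Homogeneity factor of blocks of depth `r'`. -/
noncomputable def yD (r' f : ℕ) : ℝ :=
  yb n.k n.E f + 3 / 2 * ∑ i ∈ range r', tD n (i + 1) f

/-- Homogeneity factor of outer blocks of depth `r'` at level `b`. -/
noncomputable def yX (r' : ℕ) : ℝ :=
  yb n.k n.E b + 3 / 2 * ∑ i ∈ range r', tX n b (i + 1)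

/-- Weights of the new coordinates at depth `r'`. -/
noncomputable def cw (r' : ℕ) (j : Fin d) : ℝ :=
  (1 / 2) ^ (lev X.lam j - (n.k + r')) * (2 - (1 / 2) ^ (lev X.lam j - (n.k + r')))

/-- Scaled new content of a block at depth `r'`. -/
noncomputable def Ynew (r' : ℕ) (B : Finset (Fin N)) : ℝ :=
  ∑ j ∈ newS X.lam n.k b, cw X n r' j * ∑ i ∈ B, X.v i j ^ 2

/-- Exponent of the potential for new contents. -/
noncomputable def lamE : ℝ := (4 * sg ^ 2)⁻¹

/-- Threshold of the potential for new contents. -/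
noncomputable def TT : ℝ :=
  Real.exp (lamE * (3 * (#(newS X.lam n.k b) : ℝ) + n.E n.k + 2))

/-- The potential for new contents. -/
noncomputable def SS (π : Fin N → ℕ) (r : ℕ) : ℝ :=
  ∑ r' ∈ range r, ∑ p ∈ range (2 ^ (r' + 1)),
    ((100 : ℝ) ^ (r' + 1))⁻¹ * Real.exp (lamE * Ynew X n b (r' + 1) (blk n π r (r' + 1) p))

/-- Admissible partitions of depth `r`. -/
structure Cls (π : Fin N → ℕ) (r : ℕ) : Prop where
  range : ∀ i ∈ n.I, π i < 2 ^ r
  hom : ∀ r' < r, ∀ p, p < 2 ^ (r' + 1) → ∀ f, b ≤ f → Clean X f →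
    HomAt X (blk n π r (r' + 1) p) (n.k + (r' + 1)) f (yD n (r' + 1) f)
  outer : ∀ r' < r, ∀ p, (p = 0 ∨ p = 2 ^ (r' + 1) - 1) → Clean X b →
    HomAt X (blk n π r (r' + 1) p) (n.k + (r' + 1)) b (yX n b (r' + 1))
  half : 0 < r → ∀ p < 2, ∑ i ∈ blk n π r 1 p, oldG X n i ≤ 3 / 5 * n.Bud
  pot : SS X n b π r ≤ TT X n b

/-- The partition after signing: positive vectors first. -/
noncomputable def signed (π : Fin N → ℕ) (r : ℕ) (ε : Fin N → ℝ) (i : Fin N) : ℕ :=
  if ε i = 1 then π i else 2 ^ r + π i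

/-- Centred signed prefix sum up to the piece `q`. -/
noncomputable def Epre (π : Fin N → ℕ) (ε z : Fin N → ℝ) (q : ℕ) (j : Fin d) : ℝ :=
  ∑ i ∈ n.I.filter (fun i => π i < q), (ε i - z i) * n.u i j

/-- Scale of the deviations on coordinates active at `b`. -/
noncomputable def RA (T : ℕ) : ℝ :=
  40 * sg * √((#(act X.lam b \ act X.lam T) : ℝ) + ((b - n.k - 1 : ℕ) : ℝ))

/-- Scale of the deviations on new coordinates. -/
noncomputable def RN : ℝ :=
  40 * sg * √((#(newS X.lam n.k b) : ℝ) + ((b - n.k - 1 : ℕ) : ℝ) + n.E n.k)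

/-- Scale of the deviations on old coordinates. -/
noncomputable def RO : ℝ := 40 * sg * √n.Bud

/-- A family of vectors indexed by `q` is small in all three seminorms. -/
def Small (P : Fin d → ℝ) (β : ℝ) : Prop :=
  (∀ T, √(∑ j ∈ act X.lam b \ act X.lam T, P j ^ 2) ≤ β * RA X n b T) ∧
  √(∑ j ∈ newS X.lam n.k b, P j ^ 2) ≤ β * RN X n b ∧
  √(∑ j ∈ (act X.lam n.k)ᶜ, n.w j * P j ^ 2) ≤ β * RO n

end Cls

end Vale.Agent.P262.S2
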