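import Mathlib
import Vale.Agent.P262.S2.StepBase

/-!
P262 / S₂, step, bounds: variances of entries, union bounds and the new-content potential.
-/

namespace Vale.Agent.P262.S2

open Finset

variable {d N : ℕ}

section Defs

variable (X : Inst d N)

/-- Squared ratio standard deviation / threshold of a homogeneity test. -/
noncomputable def s2D (k i f : ℕ) (j l : Fin d) : ℝ :=
  phi ^ (2 * (f - (k + i))) / (200 * i * (qv X.lam f j * qv X.lam f l))

/-- Squared ratio standard deviation / threshold of an outer homogeneity test. -/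
noncomputable def s2X (k i b : ℕ) (j l : Fin d) : ℝ :=
  phi ^ (2 * (b - (k + i))) / (200 * (qv X.lam b j * qv X.lam b l))

end Defs

section Var

variable (X : Inst d N)

/-- The common core of the variance bounds. -/
lemma entry_var_core {B B' : Finset (Fin N)} (hB : B' ⊆ B) {a f : ℕ} {y : ℝ}
    (h : HomAt X B a f y) (hy : 1 ≤ y) {j l : Fin d} (hj : j ∈ act X.lam f)
    (hl : l ∈ act X.lam f) :
    (2 : ℝ) ^ a / 2 ^ f * ∑ i ∈ B', (X.v i j * X.v i l) ^ 2
      ≤ y ^ 2 * (qv X.lam f j ^ 2 * qv X.lam f l ^ 2) := by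
  have hone : ∀ (i : Fin N) (m : Fin d), X.v i m ^ 2 ≤ 1 := fun i m =>
    le_trans (single_le_sum (f := fun m => X.v i m ^ 2) (fun m _ => sq_nonneg _) (mem_univ m))
      (X.norm_le i)
  have hc : (0 : ℝ) ≤ 2 ^ a / 2 ^ f := by positivity
  have hS0 : 0 ≤ ∑ i ∈ B', (X.v i j * X.v i l) ^ 2 := sum_nonneg fun i _ => sq_nonneg _
  have hb : ∀ m : Fin d, ∑ i ∈ B', X.v i m ^ 2 ≤ ∑ i ∈ B, X.v i m ^ 2 := fun m =>
    sum_le_sum_of_subset_of_nonneg hB fun i _ _ => sq_nonneg _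
  have h1 : (2 : ℝ) ^ a / 2 ^ f * ∑ i ∈ B', (X.v i j * X.v i l) ^ 2 ≤ y ^ 2 * xv X.lam f j := by
    refine le_trans (mul_le_mul_of_nonneg_left (le_trans (sum_le_sum fun i _ => ?_) (hb j)) hc)
      (h.diag_le hj hy)
    rw [mul_pow]
    exact mul_le_of_le_one_right (sq_nonneg _) (hone i l)
  have h2 : (2 : ℝ) ^ a / 2 ^ f * ∑ i ∈ B', (X.v i j * X.v i l) ^ 2 ≤ y ^ 2 * xv X.lam f l := by
    refine le_trans (mul_le_mul_of_nonneg_left (le_trans (sum_le_sum fun i _ => ?_) (hb l)) hc)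
      (h.diag_le hl hy)
    rw [mul_pow]
    exact mul_le_of_le_one_left (sq_nonneg _) (hone i j)
  refine le_of_pow_le_pow_left₀ two_ne_zero (by positivity) ?_
  calc _ = ((2 : ℝ) ^ a / 2 ^ f * ∑ i ∈ B', (X.v i j * X.v i l) ^ 2)
        * ((2 : ℝ) ^ a / 2 ^ f * ∑ i ∈ B', (X.v i j * X.v i l) ^ 2) := sq _
    _ ≤ (y ^ 2 * xv X.lam f j) * (y ^ 2 * xv X.lam f l) :=
        mul_le_mul h1 h2 (mul_nonneg hc hS0)
          (mul_nonneg (sq_nonneg _) (zero_le_one.trans (one_le_xv_of_act hj)))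
    _ = _ := by rw [← qv_sq_sq hj, ← qv_sq_sq hl]; ring

lemma two_pow_div_eq {a f : ℕ} (hf : a + 1 ≤ f) :
    (2 : ℝ) ^ a / 2 ^ f = phi ^ (4 * (f - (a + 1))) / 2 := by
  obtain ⟨D, rfl⟩ : ∃ D, f = a + 1 + D := ⟨f - (a + 1), by omega⟩
  rw [Nat.add_sub_cancel_left, pow_mul, phi_pow_four, div_pow, one_pow, pow_add, pow_add, pow_one]
  field_simp

/-- (1) variance of an entry: `B'` a subset of a block `B` homogeneous at depth `i`. -/
theorem entry_var (n : Node d N) {B B' : Finset (Fin N)} (hB : B' ⊆ B) {i f : ℕ} {y : ℝ}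
    (hf : n.k + (i + 1) ≤ f) (h : HomAt X B (n.k + i) f y) (hy : 1 ≤ y) {j l : Fin d}
    (hj : j ∈ act X.lam f) (hl : l ∈ act X.lam f) :
    sg ^ 2 * ((2 : ℝ) ^ (n.k + i) / 2 ^ f) ^ 2 * ∑ a ∈ B', (X.v a j * X.v a l) ^ 2
      ≤ s2D X n.k (i + 1) f j l
          * (tD n (i + 1) f * y * (pv X.lam f j * pv X.lam f l)) ^ 2 := by
  have hqj := one_le_qv_of_act hj
  have hql := one_le_qv_of_act hl
  have hc : (0 : ℝ) ≤ 2 ^ (n.k + i) / 2 ^ f := by positivity
  have hcore := entry_var_core X hB h hy hj hl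
  have hcd := two_pow_div_eq (a := n.k + i) (f := f) (by omega)
  rw [show n.k + i + 1 = n.k + (i + 1) by omega] at hcd
  calc sg ^ 2 * ((2 : ℝ) ^ (n.k + i) / 2 ^ f) ^ 2 * ∑ a ∈ B', (X.v a j * X.v a l) ^ 2
      = sg ^ 2 * ((2 : ℝ) ^ (n.k + i) / 2 ^ f)
          * ((2 : ℝ) ^ (n.k + i) / 2 ^ f * ∑ a ∈ B', (X.v a j * X.v a l) ^ 2) := by ring
    _ ≤ sg ^ 2 * ((2 : ℝ) ^ (n.k + i) / 2 ^ f)
          * (y ^ 2 * (qv X.lam f j ^ 2 * qv X.lam f l ^ 2)) :=
        mul_le_mul_of_nonneg_left hcore (mul_nonneg (sq_nonneg _) hc)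
    _ = _ := by
        rw [s2D, tD, cH, hcd]
        simp only [mul_pow]
        rw [Real.sq_sqrt (Nat.cast_nonneg _), pv_sq hj, pv_sq hl, ← qv_sq_sq hj, ← qv_sq_sq hl]
        have hi : ((i + 1 : ℕ) : ℝ) ≠ 0 := by positivity
        have h1 : qv X.lam f j ≠ 0 := by positivity
        have h2 : qv X.lam f l ≠ 0 := by positivity
        field_simp
        ring

/-- (1) variance of an entry of an outer block. -/
theorem entry_var_outer (n : Node d N) {B B' : Finset (Fin N)} (hB : B' ⊆ B) {i b : ℕ} {y : ℝ}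
    (hf : n.k + (i + 1) ≤ b) (h : HomAt X B (n.k + i) b y) (hy : 1 ≤ y) {j l : Fin d}
    (hj : j ∈ act X.lam b) (hl : l ∈ act X.lam b) :
    sg ^ 2 * ((2 : ℝ) ^ (n.k + i) / 2 ^ b) ^ 2 * ∑ a ∈ B', (X.v a j * X.v a l) ^ 2
      ≤ s2X X n.k (i + 1) b j l
          * (tX n b (i + 1) * y * (pv X.lam b j * pv X.lam b l)) ^ 2 := by
  have hqj := one_le_qv_of_act hj
  have hql := one_le_qv_of_act hl
  have hc : (0 : ℝ) ≤ 2 ^ (n.k + i) / 2 ^ b := by positivity
  have hcore := entry_var_core X hB h hy hj hl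
  have hcd := two_pow_div_eq (a := n.k + i) (f := b) (by omega)
  rw [show n.k + i + 1 = n.k + (i + 1) by omega] at hcd
  calc sg ^ 2 * ((2 : ℝ) ^ (n.k + i) / 2 ^ b) ^ 2 * ∑ a ∈ B', (X.v a j * X.v a l) ^ 2
      = sg ^ 2 * ((2 : ℝ) ^ (n.k + i) / 2 ^ b)
          * ((2 : ℝ) ^ (n.k + i) / 2 ^ b * ∑ a ∈ B', (X.v a j * X.v a l) ^ 2) := by ring
    _ ≤ sg ^ 2 * ((2 : ℝ) ^ (n.k + i) / 2 ^ b)
          * (y ^ 2 * (qv X.lam b j ^ 2 * qv X.lam b l ^ 2)) :=
        mul_le_mul_of_nonneg_left hcore (mul_nonneg (sq_nonneg _) hc)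
    _ = _ := by
        rw [s2X, tX, cH, hcd]
        simp only [mul_pow]
        rw [pv_sq hj, pv_sq hl, ← qv_sq_sq hj, ← qv_sq_sq hl]
        have h1 : qv X.lam b j ≠ 0 := by positivity
        have h2 : qv X.lam b l ≠ 0 := by positivity
        field_simp
        ring

end Var

section Union

variable (X : Inst d N)

lemma exp_hundred : (200 : ℝ) ≤ Real.exp 100 := by
  have h := Real.add_one_le_exp (50 : ℝ)
  rw [show (100 : ℝ) = 50 + 50 by norm_num, Real.exp_add]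
  nlinarith

lemma eS_le_one : eS ≤ 1 := by
  unfold eS
  refine inv_le_one_of_one_le₀ ?_
  have h := pow_le_pow_left₀ (by norm_num : (0 : ℝ) ≤ 2) two_le_sg 4
  linarith

lemma eps_nonneg (lam : Fin d → ℝ) (f : ℕ) : 0 ≤ eps lam f := by
  refine sum_nonneg fun j hj => inv_nonneg.2 ?_
  linarith [one_le_qv_of_act hj]

/-- One Gaussian tail term. -/
lemma tail_term_le {u q₁ q₂ c : ℝ} (hu0 : 0 < u) (hu1 : u ≤ 1) (h1 : 1 ≤ q₁) (h2 : 1 ≤ q₂)
    (hc : 1 ≤ c) :
    2 * (u / (200 * c * (q₁ * q₂))) * Real.exp (-(1 / (2 * (u / (200 * c * (q₁ * q₂))))))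
      ≤ 1 / 100 * u * Real.exp (-(100 * c)) * (q₁⁻¹ * q₂⁻¹) := by
  have hq : 1 ≤ q₁ * q₂ := one_le_mul_of_one_le_of_one_le h1 h2
  have he : 100 * c ≤ 1 / (2 * (u / (200 * c * (q₁ * q₂)))) := by
    rw [le_div_iff₀ (by positivity), ← mul_div_assoc, ← mul_div_assoc, div_le_iff₀ (by positivity)]
    nlinarith
  have hq1 : 0 < q₁ := by linarith
  have hq2 : 0 < q₂ := by linarith
  have hA : 2 * (u / (200 * c * (q₁ * q₂))) ≤ 1 / 100 * u * (q₁⁻¹ * q₂⁻¹) := by
    rw [show 2 * (u / (200 * c * (q₁ * q₂))) = 1 / 100 * u * (q₁⁻¹ * q₂⁻¹) * c⁻¹ by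
      field_simp; ring]
    exact mul_le_of_le_one_right (by positivity) (inv_le_one_of_one_le₀ hc)
  calc _ ≤ 1 / 100 * u * (q₁⁻¹ * q₂⁻¹) * Real.exp (-(100 * c)) :=
        mul_le_mul hA (Real.exp_le_exp.2 (neg_le_neg he)) (Real.exp_pos _).le (by positivity)
    _ = _ := by ring

lemma tail_pair_sum_le {f : ℕ} (hf : Clean X f) {u c : ℝ} (hu0 : 0 < u) (hu1 : u ≤ 1)
    (hc : 1 ≤ c) :
    ∑ j ∈ act X.lam f, ∑ l ∈ act X.lam f,
      2 * (u / (200 * c * (qv X.lam f j * qv X.lam f l)))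
        * Real.exp (-(1 / (2 * (u / (200 * c * (qv X.lam f j * qv X.lam f l))))))
      ≤ 1 / 100 * u * Real.exp (-(100 * c)) := by
  refine le_trans (sum_le_sum fun j hj => sum_le_sum fun l hl =>
    tail_term_le hu0 hu1 (one_le_qv_of_act hj) (one_le_qv_of_act hl) hc) ?_
  simp only [← mul_sum]
  rw [← sum_mul, show ∑ j ∈ act X.lam f, (qv X.lam f j)⁻¹ = eps X.lam f from rfl]
  refine mul_le_of_le_one_right (by positivity) ?_
  have h1 : eps X.lam f ≤ 1 := le_trans hf eS_le_one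
  exact mul_le_one₀ h1 (eps_nonneg _ _) h1

lemma phi_two_pow (D : ℕ) : phi ^ (2 * D) = (phi ^ 2) ^ D := pow_mul _ _ _

/-- (2) union bound over the tests. -/
theorem entry_sum_le {k b W : ℕ} (hW : k + W ≤ b) (L : ℕ) :
    ∑ i ∈ range W, ∑ _p ∈ range (2 ^ (i + 1)),
      ∑ f ∈ (haveI := Classical.decPred (Clean X); (Ico b L).filter (Clean X)),
        ∑ j ∈ act X.lam f, ∑ l ∈ act X.lam f,
          2 * s2D X k (i + 1) f j l * Real.exp (-(1 / (2 * s2D X k (i + 1) f j l)))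
      ≤ 1 / 100 := by
  classical
  have hr : 2 * Real.exp (-100) ≤ 1 / 100 := by
    rw [Real.exp_neg, ← div_eq_mul_inv, div_le_div_iff₀ (Real.exp_pos _) (by norm_num)]
    linarith [exp_hundred]
  have key : ∀ i ∈ range W, ∀ p ∈ range (2 ^ (i + 1)),
      ∑ f ∈ (haveI := Classical.decPred (Clean X); (Ico b L).filter (Clean X)),
        ∑ j ∈ act X.lam f, ∑ l ∈ act X.lam f,
          2 * s2D X k (i + 1) f j l * Real.exp (-(1 / (2 * s2D X k (i + 1) f j l)))
      ≤ 4 / 100 * Real.exp (-(100 * ((i + 1 : ℕ) : ℝ))) := by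
    intro i hi p _
    have hi' := mem_range.1 hi
    have hc : (1 : ℝ) ≤ ((i + 1 : ℕ) : ℝ) := by exact_mod_cast Nat.succ_pos i
    refine le_trans (sum_le_sum fun f hf => tail_pair_sum_le X (mem_filter.1 hf).2
      (pow_pos phi_pos _) (pow_le_one₀ phi_pos.le phi_le_one) hc) ?_
    rw [← sum_mul, ← mul_sum]
    refine mul_le_mul_of_nonneg_right ?_ (Real.exp_pos _).le
    have hsum : ∑ f ∈ (haveI := Classical.decPred (Clean X); (Ico b L).filter (Clean X)),
        phi ^ (2 * (f - (k + (i + 1)))) ≤ 4 := by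
      refine le_trans (sum_le_sum_of_subset_of_nonneg (t := Ico b L) (filter_subset _ _)
        fun f _ _ => pow_nonneg phi_pos.le _) ?_
      rw [sum_Ico_eq_sum_range]
      refine le_trans (sum_le_sum fun t _ => ?_) (sum_phi_sq_le (L - b))
      rw [phi_two_pow]
      exact pow_le_pow_of_le_one (sq_nonneg _) (pow_le_one₀ phi_pos.le phi_le_one) (by omega)
    linarith
  refine le_trans (sum_le_sum fun i hi => sum_le_sum fun p hp => key i hi p hp) ?_
  have hterm : ∀ i ∈ range W, ∑ _p ∈ range (2 ^ (i + 1)),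
      4 / 100 * Real.exp (-(100 * ((i + 1 : ℕ) : ℝ))) ≤ 4 / 10000 * (1 / 100 : ℝ) ^ i := by
    intro i _
    rw [sum_const, card_range, nsmul_eq_mul, show -(100 * ((i + 1 : ℕ) : ℝ))
      = ((i + 1 : ℕ) : ℝ) * (-100) by ring, Real.exp_nat_mul]
    push_cast
    rw [show (2 : ℝ) ^ (i + 1) * (4 / 100 * Real.exp (-100) ^ (i + 1))
      = 4 / 100 * (2 * Real.exp (-100)) ^ (i + 1) by rw [mul_pow]; ring]
    calc 4 / 100 * (2 * Real.exp (-100)) ^ (i + 1) ≤ 4 / 100 * (1 / 100 : ℝ) ^ (i + 1) :=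
          mul_le_mul_of_nonneg_left (pow_le_pow_left₀ (by positivity) hr _) (by norm_num)
      _ = _ := by rw [pow_succ]; ring
  refine le_trans (sum_le_sum hterm) ?_
  rw [← mul_sum]
  have hg := geom_sum_mul_neg (1 / 100 : ℝ) W
  have h0 : (0 : ℝ) ≤ (1 / 100) ^ W := by positivity
  linarith

/-- (2) union bound over the outer tests. -/
theorem entry_sum_outer_le {k b W : ℕ} (hW : k + W ≤ b) (hb : Clean X b) :
    ∑ i ∈ range W, ∑ _p ∈ range 2, ∑ j ∈ act X.lam b, ∑ l ∈ act X.lam b,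
      2 * s2X X k (i + 1) b j l * Real.exp (-(1 / (2 * s2X X k (i + 1) b j l)))
      ≤ 1 / 100 := by
  have key : ∀ i ∈ range W, ∑ _p ∈ range 2, ∑ j ∈ act X.lam b, ∑ l ∈ act X.lam b,
      2 * s2X X k (i + 1) b j l * Real.exp (-(1 / (2 * s2X X k (i + 1) b j l)))
      ≤ 2 / 100 * Real.exp (-100) * (phi ^ 2) ^ (W - 1 - i) := by
    intro i hi
    have hi' := mem_range.1 hi
    have h := tail_pair_sum_le X hb (u := phi ^ (2 * (b - (k + (i + 1))))) (c := 1)
      (pow_pos phi_pos _) (pow_le_one₀ phi_pos.le phi_le_one) le_rfl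
    simp only [mul_one] at h
    rw [sum_const, card_range, nsmul_eq_mul]
    have hmono : phi ^ (2 * (b - (k + (i + 1)))) ≤ (phi ^ 2) ^ (W - 1 - i) := by
      rw [phi_two_pow]
      exact pow_le_pow_of_le_one (sq_nonneg _) (pow_le_one₀ phi_pos.le phi_le_one) (by omega)
    push_cast
    simp only [s2X]
    have := mul_le_mul_of_nonneg_left hmono (by positivity : (0 : ℝ) ≤ 2 / 100 * Real.exp (-100))
    linarith
  refine le_trans (sum_le_sum key) ?_
  rw [← mul_sum, sum_range_reflect (fun i => (phi ^ 2) ^ i) W]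
  have h4 := sum_phi_sq_le W
  have he : Real.exp (-100) ≤ 1 / 200 := by
    rw [Real.exp_neg, one_div]
    exact inv_anti₀ (by norm_num) exp_hundred
  calc 2 / 100 * Real.exp (-100) * ∑ i ∈ range W, (phi ^ 2) ^ i ≤ 2 / 100 * (1 / 200) * 4 :=
        mul_le_mul (by linarith) h4 (sum_nonneg fun i _ => pow_nonneg (sq_nonneg _) _)
          (by norm_num)
    _ ≤ _ := by norm_num

/-- (2) union bound over the norm tests. -/
theorem tail_sum_le (b S : ℕ) :
    ∑ T ∈ (act X.lam b).image (lev X.lam),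
      Real.exp ((#(act X.lam b \ act X.lam T) : ℝ) / 2
        - 100 * ((#(act X.lam b \ act X.lam T) : ℝ) + S))
      ≤ 2 * Real.exp (-(99 * ((S : ℝ) + 1))) := by
  set c : ℕ → ℕ := fun T => #(act X.lam b \ act X.lam T) with hc
  set r : ℝ := Real.exp (-99) with hr
  have hpos : ∀ T ∈ (act X.lam b).image (lev X.lam), 1 ≤ c T := by
    intro T hT
    obtain ⟨j, hj, rfl⟩ := mem_image.1 hT
    refine card_pos.2 ⟨j, mem_sdiff.2 ⟨hj, fun h => ?_⟩⟩
    exact lt_irrefl _ (mem_act_iff.1 h)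
  have hlt : ∀ T, ∀ T' ∈ (act X.lam b).image (lev X.lam), T < T' → c T < c T' := by
    intro T T' hT' hlt
    obtain ⟨j, hj, rfl⟩ := mem_image.1 hT'
    refine card_lt_card (ssubset_iff_of_subset ?_ |>.2 ⟨j, ?_, ?_⟩)
    · intro a ha
      simp only [mem_sdiff, mem_act_iff] at ha ⊢
      omega
    · simp only [mem_sdiff, mem_act_iff] at hj ⊢
      omega
    · simp only [mem_sdiff, mem_act_iff]
      omega
  have hinj : Set.InjOn c ((act X.lam b).image (lev X.lam)) := by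
    intro T hT T' hT' heq
    rcases lt_trichotomy T T' with h | h | h
    · exact absurd heq (hlt T T' (by simpa using hT') h).ne
    · exact h
    · exact absurd heq (hlt T' T (by simpa using hT) h).ne'
  have hterm : ∀ T ∈ (act X.lam b).image (lev X.lam),
      Real.exp ((c T : ℝ) / 2 - 100 * ((c T : ℝ) + S))
        ≤ Real.exp (-(99 * ((S : ℝ) + 1))) * r ^ (c T - 1) := by
    intro T hT
    rw [hr, ← Real.exp_nat_mul, ← Real.exp_add, Real.exp_le_exp, Nat.cast_sub (hpos T hT)]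
    have : (0 : ℝ) ≤ (c T : ℝ) := Nat.cast_nonneg _
    have : (0 : ℝ) ≤ (S : ℝ) := Nat.cast_nonneg _
    push_cast
    linarith
  refine le_trans (sum_le_sum hterm) ?_
  rw [← mul_sum, mul_comm (2 : ℝ)]
  refine mul_le_mul_of_nonneg_left ?_ (Real.exp_pos _).le
  have hr0 : 0 ≤ r := (Real.exp_pos _).le
  have hr1 : r ≤ 1 / 2 := by
    rw [hr, Real.exp_neg, one_div]
    refine inv_anti₀ (by norm_num) ?_
    linarith [Real.add_one_le_exp (99 : ℝ)]
  calc ∑ T ∈ (act X.lam b).image (lev X.lam), r ^ (c T - 1)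
      = ∑ m ∈ ((act X.lam b).image (lev X.lam)).image (fun T => c T - 1), r ^ m := by
        refine (sum_image ?_).symm
        intro T hT T' hT' h
        have := hpos T (by simpa using hT)
        have := hpos T' (by simpa using hT')
        exact hinj hT hT' (by simp only at h; omega)
    _ ≤ ∑ m ∈ range (d + 1), r ^ m := by
        refine sum_le_sum_of_subset_of_nonneg (fun m hm => ?_) fun m _ _ => pow_nonneg hr0 m
        obtain ⟨T, -, rfl⟩ := mem_image.1 hm
        have : c T ≤ d := (card_le_univ _).trans_eq (Fintype.card_fin d)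
        exact mem_range.2 (by omega)
    _ ≤ 2 := by
        have := geom_sum_mul_neg r (d + 1)
        have := pow_nonneg hr0 (d + 1)
        nlinarith [sum_nonneg fun m (_ : m ∈ range (d + 1)) => pow_nonneg hr0 m]

end Union

section Content

variable (X : Inst d N) (n : Node d N) (b : ℕ)

theorem cw_nonneg (r : ℕ) (j : Fin d) : 0 ≤ cw X n r j := by
  unfold cw
  have h := pow_le_one₀ (n := lev X.lam j - (n.k + r)) (by norm_num : (0 : ℝ) ≤ 1 / 2) (by norm_num)
  exact mul_nonneg (by positivity) (by linarith)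

theorem cw_le_two (r : ℕ) (j : Fin d) : cw X n r j ≤ 2 := by
  unfold cw
  have h := pow_le_one₀ (n := lev X.lam j - (n.k + r)) (by norm_num : (0 : ℝ) ≤ 1 / 2) (by norm_num)
  nlinarith [sq_nonneg ((1 / 2 : ℝ) ^ (lev X.lam j - (n.k + r)) - 1)]

theorem cw_step (r : ℕ) (j : Fin d) :
    cw X n (r + 1) j * (1 + 23 / 200 * cw X n (r + 1) j) ≤ 2 * cw X n r j := by
  unfold cw
  rcases Nat.eq_zero_or_pos (lev X.lam j - (n.k + r)) with h | h
  · rw [h, show lev X.lam j - (n.k + (r + 1)) = 0 by omega]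
    norm_num
  · obtain ⟨m, hm⟩ : ∃ m, lev X.lam j - (n.k + r) = m + 1 :=
      ⟨lev X.lam j - (n.k + r) - 1, by omega⟩
    rw [hm, show lev X.lam j - (n.k + (r + 1)) = m by omega, pow_succ]
    have h0 : 0 ≤ (1 / 2 : ℝ) ^ m := by positivity
    have h1 : (1 / 2 : ℝ) ^ m ≤ 1 := pow_le_one₀ (by norm_num) (by norm_num)
    generalize (1 / 2 : ℝ) ^ m = a at h0 h1
    have h2 : 0 ≤ a * a := mul_self_nonneg a
    nlinarith [mul_le_mul_of_nonneg_left (show (2 - a) ^ 2 ≤ 4 by nlinarith) h2]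

theorem sq_weight_le (r : ℕ) (i : Fin N) :
    (∑ j ∈ newS X.lam n.k b, cw X n r j * X.v i j ^ 2) ^ 2
      ≤ ∑ j ∈ newS X.lam n.k b, cw X n r j ^ 2 * X.v i j ^ 2 := by
  have h := sum_mul_sq_le_sq_mul_sq (newS X.lam n.k b) (fun j => cw X n r j * X.v i j)
    (fun j => X.v i j)
  have h1 : ∑ j ∈ newS X.lam n.k b, X.v i j ^ 2 ≤ 1 :=
    le_trans (sum_le_sum_of_subset_of_nonneg (subset_univ _) fun j _ _ => sq_nonneg _)
      (X.norm_le i)
  calc _ = (∑ j ∈ newS X.lam n.k b, cw X n r j * X.v i j * X.v i j) ^ 2 := by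
        congr 1; exact sum_congr rfl fun j _ => by ring
    _ ≤ _ := h
    _ ≤ _ := by
        simp only [mul_pow]
        exact mul_le_of_le_one_right (sum_nonneg fun j _ => by positivity) h1

lemma cw_zero_mul_le {j : Fin d} (hj : j ∈ act X.lam n.k) :
    cw X n 0 j * xv X.lam n.k j ≤ 2 := by
  have hlev := mem_act_iff.1 hj
  have hx := one_le_xv_of_act hj
  obtain ⟨m, hm⟩ : ∃ m, lev X.lam j = n.k + m := ⟨lev X.lam j - n.k, by omega⟩
  have heq : (1 / 2 : ℝ) ^ m * xv X.lam n.k j = xv X.lam (lev X.lam j) j := by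
    rw [hm, xv, xv, pow_add, div_pow, one_pow]
    field_simp
  have hlt := xv_lev_lt (lam := X.lam) j
  unfold cw
  rw [add_zero, hm, Nat.add_sub_cancel_left]
  have h0 : 0 ≤ (1 / 2 : ℝ) ^ m := by positivity
  calc (1 / 2 : ℝ) ^ m * (2 - (1 / 2) ^ m) * xv X.lam n.k j
      ≤ (1 / 2 : ℝ) ^ m * 2 * xv X.lam n.k j :=
        mul_le_mul_of_nonneg_right (mul_le_mul_of_nonneg_left (by linarith) h0) (by linarith)
    _ = 2 * ((1 / 2 : ℝ) ^ m * xv X.lam n.k j) := by ring
    _ ≤ 2 := by rw [heq]; linarith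

theorem Ynew_zero_le (hn : NodeInv X n) :
    Ynew X n b 0 n.I ≤ 3 * (#(newS X.lam n.k b) : ℝ) + n.E n.k + 1 := by
  set s := newS X.lam n.k b with hs
  have hsub : s ⊆ act X.lam n.k := sdiff_subset
  have hE := hn.E_nonneg n.k
  unfold Ynew
  rcases hn.base with hbase | hclean
  · have : ∀ j ∈ s, cw X n 0 j * ∑ i ∈ n.I, X.v i j ^ 2 ≤ 3 := fun j hj => by
      rw [hbase j (hsub hj)]
      linarith [cw_zero_mul_le X n (hsub hj)]
    have h := sum_le_card_nsmul _ _ _ this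
    rw [nsmul_eq_mul] at h
    linarith
  · set y := yb n.k n.E n.k with hy
    have hy1 : 1 ≤ y := one_le_yb
    have hhom := hn.hom n.k le_rfl hclean
    have hterm : ∀ j ∈ s, cw X n 0 j * ∑ i ∈ n.I, X.v i j ^ 2
        ≤ 2 + 2 * y ^ 2 * (qv X.lam n.k j)⁻¹ := by
      intro j hj
      have hj' := hsub hj
      have h1 := (abs_le.1 (hhom j hj' j hj')).2
      simp only [if_true, ← sq] at h1
      rw [div_self (by positivity), one_mul, pv_sq hj'] at h1
      have hq : 0 ≤ (qv X.lam n.k j)⁻¹ := inv_nonneg.2 (by linarith [one_le_qv_of_act hj'])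
      have hc := cw_zero_mul_le X n hj'
      have hc0 := cw_nonneg X n 0 j
      calc cw X n 0 j * ∑ i ∈ n.I, X.v i j ^ 2
          ≤ cw X n 0 j * (xv X.lam n.k j + y ^ 2 * (xv X.lam n.k j / qv X.lam n.k j)) := by
            refine mul_le_mul_of_nonneg_left ?_ hc0
            have : 0 ≤ xv X.lam n.k j / qv X.lam n.k j :=
              div_nonneg (zero_le_one.trans (one_le_xv_of_act hj'))
                (zero_le_one.trans (one_le_qv_of_act hj'))
            linarith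
        _ = (cw X n 0 j * xv X.lam n.k j) * (1 + y ^ 2 * (qv X.lam n.k j)⁻¹) := by ring
        _ ≤ 2 * (1 + y ^ 2 * (qv X.lam n.k j)⁻¹) :=
            mul_le_mul_of_nonneg_right hc (by positivity)
        _ = _ := by ring
    refine le_trans (sum_le_sum hterm) ?_
    rw [sum_add_distrib, sum_const, nsmul_eq_mul, ← mul_sum]
    have hq : ∑ j ∈ s, (qv X.lam n.k j)⁻¹ ≤ eS :=
      le_trans (sum_le_sum_of_subset_of_nonneg hsub fun j hj _ =>
        inv_nonneg.2 (by linarith [one_le_qv_of_act hj])) hclean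
    have hsg := two_le_sg
    have hDS := DS_le (le_refl n.k)
    have hDS0 := DS_nonneg n.k n.k
    have hy2 : y ^ 2 ≤ 22472 * sg ^ 2 + 14 * n.E n.k := by
      have hr : √(DS n.k n.k * n.E n.k) ^ 2 = DS n.k n.k * n.E n.k :=
        Real.sq_sqrt (mul_nonneg hDS0 hE)
      have h2 : 1 + cY * DS n.k n.k ≤ 106 * sg := by
        have : cY * DS n.k n.k ≤ 15 * sg * 7 := by
          unfold cY
          exact mul_le_mul_of_nonneg_left hDS (by linarith)
        linarith
      have h3 : 0 ≤ 1 + cY * DS n.k n.k := by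
        have : 0 ≤ cY * DS n.k n.k := mul_nonneg (by unfold cY; linarith) hDS0
        linarith
      have h4 := pow_le_pow_left₀ h3 h2 2
      have h5 : y = (1 + cY * DS n.k n.k) + √(DS n.k n.k * n.E n.k) := rfl
      rw [h5]
      nlinarith [sq_nonneg ((1 + cY * DS n.k n.k) - √(DS n.k n.k * n.E n.k)),
        mul_le_mul_of_nonneg_right hDS hE]
    have hys : y ^ 2 * eS ≤ 1 / 2 + n.E n.k / 2 := by
      rw [eS, mul_inv_le_iff₀ (by positivity)]
      have h4 : 4 ≤ sg ^ 2 := by nlinarith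
      nlinarith [mul_le_mul_of_nonneg_left h4 (sq_nonneg sg),
        mul_le_mul_of_nonneg_left (show (16 : ℝ) ≤ sg ^ 4 by nlinarith) hE]
    have := mul_le_mul_of_nonneg_left hq (show (0 : ℝ) ≤ 2 * y ^ 2 by positivity)
    have := Nat.cast_nonneg (α := ℝ) (#s)
    linarith

theorem content_of_pot {π : Fin N → ℕ} (hn : NodeInv X n) (hkb : n.k < b)
    (h : Cls X n b π (b - n.k)) {p : ℕ} (hp : p < 2 ^ (b - n.k)) :
    ∑ i ∈ blk n π (b - n.k) (b - n.k) p, ∑ j ∈ newS X.lam n.k b, X.v i j ^ 2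
      ≤ CN * ((#(newS X.lam n.k b) : ℝ) + ((b - n.k - 1 : ℕ) : ℝ) + n.E n.k) := by
  set s := newS X.lam n.k b with hs
  set W := b - n.k with hW
  have hE := hn.E_nonneg n.k
  have hsg := two_le_sg
  have hsg2 : 4 ≤ sg ^ 2 := by nlinarith
  rcases eq_empty_or_nonempty s with he | hne
  · rw [he]
    simp only [sum_empty, sum_const_zero]
    unfold CN
    positivity
  obtain ⟨S, hS⟩ : ∃ S, W = S + 1 := ⟨W - 1, by omega⟩
  have hcard : (1 : ℝ) ≤ (#s : ℝ) := by exact_mod_cast hne.card_pos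
  have hY : ∑ i ∈ blk n π W W p, ∑ j ∈ s, X.v i j ^ 2 = Ynew X n b W (blk n π W W p) := by
    unfold Ynew
    rw [sum_comm]
    refine sum_congr rfl fun j hj => ?_
    have hlev : lev X.lam j ≤ b := by
      have := (mem_sdiff.1 hj).2
      rw [mem_act_iff] at this
      omega
    have : cw X n W j = 1 := by
      unfold cw
      rw [show lev X.lam j - (n.k + W) = 0 by omega]
      norm_num
    rw [this, one_mul]
  rw [hY]
  have hpot := h.pot
  have hterm : ((100 : ℝ) ^ W)⁻¹ * Real.exp (lamE * Ynew X n b W (blk n π W W p))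
      ≤ SS X n b π W := by
    unfold SS
    refine le_trans ?_ (single_le_sum (f := fun r' => ∑ p ∈ range (2 ^ (r' + 1)),
      ((100 : ℝ) ^ (r' + 1))⁻¹ * Real.exp (lamE * Ynew X n b (r' + 1) (blk n π W (r' + 1) p)))
      (fun r' _ => sum_nonneg fun q _ => by positivity) (mem_range.2 (show S < W by omega)))
    refine le_trans ?_ (single_le_sum (f := fun q =>
      ((100 : ℝ) ^ (S + 1))⁻¹ * Real.exp (lamE * Ynew X n b (S + 1) (blk n π W (S + 1) q)))
      (fun q _ => by positivity) (mem_range.2 (show p < 2 ^ (S + 1) by rw [← hS]; exact hp)))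
    rw [hS]
  have h100 : (100 : ℝ) ≤ Real.exp 5 := by
    have h1 := Real.exp_one_gt_d9
    rw [show (5 : ℝ) = ((5 : ℕ) : ℝ) * 1 by norm_num, Real.exp_nat_mul]
    refine le_trans ?_ (pow_le_pow_left₀ (by norm_num) h1.le 5)
    norm_num
  have h1 := hterm.trans hpot
  rw [inv_mul_le_iff₀ (by positivity), TT] at h1
  have h2 := h1.trans (mul_le_mul_of_nonneg_right
    (pow_le_pow_left₀ (by norm_num) h100 W) (Real.exp_pos _).le)
  rw [← Real.exp_nat_mul, ← Real.exp_add, Real.exp_le_exp] at h2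
  have hWc : (W : ℝ) = ((W - 1 : ℕ) : ℝ) + 1 := by
    rw [hS]; push_cast; simp
  rw [lamE, inv_mul_le_iff₀ (by positivity), mul_add, ← mul_assoc _ (4 * sg ^ 2)⁻¹,
    mul_inv_cancel₀ (by positivity), one_mul] at h2
  unfold CN
  nlinarith [mul_le_mul_of_nonneg_left hcard (sq_nonneg sg), mul_le_mul_of_nonneg_right hsg2 hE,
    mul_nonneg (sq_nonneg sg) (Nat.cast_nonneg (α := ℝ) (W - 1)),
    mul_le_mul_of_nonneg_right hsg2 (Nat.cast_nonneg (α := ℝ) (#s))]

end Content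

end Vale.Agent.P262.S2
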