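import Vale.Agent.P262.S2.StepComb
import Vale.Agent.P262.S2.StepBounds

/-!
P262 / S₂, step: an admissible partition of full depth with small deviations gives the outcome
of a step.
-/

namespace Vale.Agent.P262.S2

open Finset

variable {d N : ℕ} {X : Inst d N}

lemma sq_le_CP_mul {S r : ℝ} (hr : 0 ≤ r) (h : √S ≤ 43 / 10 * (40 * sg * √r)) : S ≤ CP * r := by
  have hsg := two_le_sg
  have h0 : 0 ≤ 43 / 10 * (40 * sg * √r) := by positivity
  have h1 := (Real.sqrt_le_left h0).1 h
  have h2 : (43 / 10 * (40 * sg * √r)) ^ 2 = 29584 * sg ^ 2 * r := by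
    rw [mul_pow, mul_pow, Real.sq_sqrt hr]; ring
  have h3 : 29584 * sg ^ 2 * r ≤ CP * r := by
    refine mul_le_mul_of_nonneg_right ?_ hr
    unfold CP
    nlinarith
  linarith

lemma hom_mono_factor {B : Finset (Fin N)} {k f : ℕ} {y y' : ℝ} (h : HomAt X B k f y)
    (hy : 1 ≤ y) (hyy : y ≤ y') : HomAt X B k f y' := fun j hj l hl => by
  refine (h j hj l hl).trans (mul_le_mul_of_nonneg_right ?_ ?_)
  · nlinarith
  · exact (mul_pos (pv_pos hj) (pv_pos hl)).le

lemma sum_phi_depth_le {k b f : ℕ} (hbf : b ≤ f) :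
    ∑ i ∈ range (b - k), phi ^ (f - (k + (i + 1))) ≤ 7 * phi ^ (f - b) := by
  have e : ∀ i ∈ range (b - k),
      phi ^ (f - (k + (i + 1))) = phi ^ (f - b) * phi ^ (b - k - 1 - i) := fun i hi => by
    have := mem_range.1 hi
    rw [← pow_add]
    congr 1
    omega
  rw [sum_congr rfl e, ← mul_sum, sum_range_reflect (fun i => phi ^ i) (b - k), mul_comm (7 : ℝ)]
  exact mul_le_mul_of_nonneg_left (sum_phi_le _) (pow_nonneg phi_pos.le _)

lemma one_le_yD (n : Node d N) (W f : ℕ) : 1 ≤ yD n W f := by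
  have hsg := two_le_sg
  have h : 0 ≤ ∑ i ∈ range W, tD n (i + 1) f := sum_nonneg fun i _ => by
    have := phi_pos
    unfold tD cH
    positivity
  have := one_le_yb (k := n.k) (f := f) (E := n.E)
  unfold yD
  linarith

/-- The noise of a whole step is absorbed by the excess of the child. -/
lemma yD_le_child {n : Node d N} (hn : NodeInv X n) {b : ℕ} (hkb : n.k < b) {f : ℕ}
    (hbf : b ≤ f) : yD n (b - n.k) f ≤ yb b (childE n b) f := by
  have hsg := two_le_sg
  set W := b - n.k with hW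
  set A := DS n.k f with hA
  set G₀ := ∑ i ∈ range W, phi ^ (f - (n.k + (i + 1))) with hG₀
  set S : ℝ := ((W - 1 : ℕ) : ℝ) with hS
  have hS0 : 0 ≤ S := Nat.cast_nonneg _
  have hA0 : 0 ≤ A := DS_nonneg _ _
  have hE0 : 0 ≤ n.E f := hn.E_nonneg f
  have hG0 : 0 ≤ G₀ := sum_nonneg fun i _ => pow_nonneg phi_pos.le _
  have hDS : DS b f = A + G₀ := by
    conv_lhs => rw [show b = n.k + W by omega]
    exact DS_add _ _ _
  have hWS : √(W : ℝ) ≤ 1 + √S := by
    have hc : (W : ℝ) = S + 1 := by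
      rw [hS]
      have : ((W - 1 : ℕ) : ℝ) + 1 = ((W - 1 + 1 : ℕ) : ℝ) := by push_cast; rfl
      rw [this]
      congr 1
      omega
    rw [hc, Real.sqrt_le_left (by positivity)]
    nlinarith [Real.sq_sqrt hS0, Real.sqrt_nonneg S]
  have hnoise : 3 / 2 * ∑ i ∈ range W, tD n (i + 1) f ≤ cY * (1 + √S) * G₀ := by
    rw [mul_sum, hG₀, mul_sum]
    refine sum_le_sum fun i hi => ?_
    have hi' := mem_range.1 hi
    have hp : 0 ≤ phi ^ (f - (n.k + (i + 1))) := pow_nonneg phi_pos.le _
    have hr : √((i + 1 : ℕ) : ℝ) ≤ 1 + √S :=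
      (Real.sqrt_le_sqrt (by exact_mod_cast Nat.succ_le_of_lt hi')).trans hWS
    have h := mul_le_mul_of_nonneg_right
      (mul_le_mul_of_nonneg_left hr (show (0 : ℝ) ≤ 15 * sg by linarith)) hp
    unfold tD cH cY
    linarith
  have hg : (cY * √S * G₀) ^ 2 ≤ G₀ * (cE * S * phi ^ (f - b)) := by
    have h7 : G₀ ≤ 7 * phi ^ (f - b) := sum_phi_depth_le hbf
    rw [mul_pow, mul_pow, Real.sq_sqrt hS0]
    have h1 : cY ^ 2 * G₀ ≤ cE * phi ^ (f - b) := by
      refine (mul_le_mul_of_nonneg_left h7 (sq_nonneg cY)).trans ?_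
      rw [← mul_assoc]
      refine mul_le_mul_of_nonneg_right ?_ (pow_nonneg phi_pos.le _)
      unfold cY cE
      nlinarith
    nlinarith [mul_le_mul_of_nonneg_left h1 (mul_nonneg hS0 hG0)]
  have hmain : √(A * n.E f) + cY * √S * G₀ ≤ √(DS b f * childE n b f) := by
    set g := cE * S * phi ^ (f - b) with hgdef
    have hg0 : 0 ≤ g := by
      have : 0 ≤ cE := by unfold cE; positivity
      have := phi_pos
      positivity
    set c := cY * √S * G₀ with hcdef
    have hc0 : 0 ≤ c := by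
      have : 0 ≤ cY := by unfold cY; linarith
      positivity
    have hsA := Real.sq_sqrt (mul_nonneg hA0 hE0)
    refine Real.le_sqrt_of_sq_le ?_
    have hcross : 2 * (√(A * n.E f) * c) ≤ A * g + n.E f * G₀ := by
      refine le_of_pow_le_pow_left₀ two_ne_zero (by positivity) ?_
      have h1 := mul_le_mul_of_nonneg_left hg (mul_nonneg hA0 hE0)
      rw [mul_pow, mul_pow, hsA]
      nlinarith [sq_nonneg (A * g - n.E f * G₀)]
    have e : childE n b f = n.E f + g := rfl
    rw [hDS, e]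
    nlinarith
  unfold yD yb
  rw [← hA, hDS]
  rw [hDS] at hmain
  linarith

/-- A partition of full depth with small deviations gives a step. -/
theorem stepOut_of (X : Inst d N) {n : Node d N} (hn : NodeInv X n) {b : ℕ}
    (hb : GoodLevel X n b) {π : Fin N → ℕ} (h : Cls X n b π (b - n.k))
    (hs : ∀ t, 0 < t → t < 2 ^ (b - n.k) →
      Small X n b (Dv X n b π (2 ^ (b - n.k)) t) (43 / 10)) :
    StepOut X n b π (Pfun n π) := by
  classical
  have hkb := hb.1
  set W := b - n.k with hW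
  obtain ⟨W', hW'⟩ : ∃ W', W = W' + 1 := ⟨W - 1, by omega⟩
  have hE := hn.E_nonneg n.k
  refine
    { range := h.range
      first := Pfun_zero π
      last := Pfun_top X hn h.range
      succ := fun t _ j => Pfun_succ π t j
      dev_act := fun t ht0 ht T => ?_
      dev_new := fun t ht0 ht => ?_
      dev_old := fun t ht0 ht => ?_
      hom := fun t ht f hf hc => ?_
      half := fun t ht => ?_
      new_content := fun t ht => ?_ }
  · have e : ∀ j ∈ act X.lam b \ act X.lam T, Pfun n π t j ^ 2 = Dv X n b π (2 ^ W) t j ^ 2 :=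
      fun j hj => by rw [Dv, tgt, if_pos (mem_sdiff.1 hj).1, sub_zero]
    rw [sum_congr rfl e]
    exact sq_le_CP_mul (by positivity) ((hs t ht0 ht).1 T)
  · have e : ∀ j ∈ newS X.lam n.k b, (Pfun n π t j - ramp n (2 ^ W) t j) ^ 2
        = Dv X n b π (2 ^ W) t j ^ 2 :=
      fun j hj => by rw [Dv, tgt, if_neg (mem_sdiff.1 hj).2]
    rw [sum_congr rfl e]
    exact sq_le_CP_mul (by positivity) (hs t ht0 ht).2.1
  · have e : ∀ j ∈ (act X.lam n.k)ᶜ, n.w j * (Pfun n π t j - ramp n (2 ^ W) t j) ^ 2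
        = n.w j * Dv X n b π (2 ^ W) t j ^ 2 := fun j hj => by
      have hj' : j ∉ act X.lam b := fun hjb => by
        have h1 := mem_compl.1 hj
        rw [mem_act_iff] at h1 hjb
        omega
      rw [Dv, tgt, if_neg hj']
    rw [sum_congr rfl e]
    exact sq_le_CP_mul hn.bud_nonneg (hs t ht0 ht).2.2
  · have h1 := h.hom W' (by omega) t (by rw [← hW']; exact ht) f hf hc
    rw [← hW', blk_full, show n.k + W = b by omega] at h1
    exact hom_mono_factor h1 (one_le_yD n W f) (yD_le_child hn hkb hf)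
  · have hp : t / 2 ^ (W - 1) < 2 := by
      rw [Nat.div_lt_iff_lt_mul (by positivity), hW', Nat.add_sub_cancel, ← pow_succ', ← hW']
      exact ht
    refine le_trans (sum_le_sum_of_subset_of_nonneg (fun i hi => ?_) fun i _ _ => ?_)
      (h.half (by omega) _ hp)
    · simp only [piece, blk, mem_filter] at hi ⊢
      exact ⟨hi.1, by rw [hi.2]⟩
    · exact sum_nonneg fun j _ => mul_nonneg (by linarith [hn.one_le_w j]) (sq_nonneg _)
  · have h1 := content_of_pot X n b hn hkb h ht
    rwa [blk_full] at h1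

end Vale.Agent.P262.S2
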