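import Vale.Agent.P262.S2.StepBase

/-!
P262 / S₂, step, part 2: the drift which absorbs the two endpoints on the outer pieces.
-/

namespace Vale.Agent.P262.S2

open Finset

variable {d N : ℕ}

lemma eS_pos : 0 < eS := by
  have := two_le_sg
  unfold eS; positivity

lemma qv_le_xv {lam : Fin d → ℝ} {k : ℕ} {j : Fin d} (h : j ∈ act lam k) :
    qv lam k j ≤ xv lam k j := by
  have h1 := one_le_qv_of_act h
  rw [← qv_sq_sq h]
  calc qv lam k j = qv lam k j ^ 1 := (pow_one _).symm
    _ ≤ qv lam k j ^ 4 := pow_le_pow_right₀ h1 (by norm_num)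
    _ = (qv lam k j ^ 2) ^ 2 := by ring

lemma yX_le {X : Inst d N} {n : Node d N} (hn : NodeInv X n) {b r : ℕ} (hr : n.k + r ≤ b)
    (hE : n.E b ≤ Es) : yX n b r ≤ 10 ^ 4 * sg := by
  have h2 := two_le_sg
  have hk : n.k ≤ b := by omega
  have h1 : DS n.k b ≤ 7 := DS_le hk
  have hs : √(DS n.k b * n.E b) ≤ 8400 * sg := by
    rw [Real.sqrt_le_left (by linarith)]
    have : DS n.k b * n.E b ≤ 7 * Es := mul_le_mul h1 hE (hn.E_nonneg b) (by norm_num)
    unfold Es at this
    nlinarith
  have hsum : ∑ i ∈ range r, tX n b (i + 1) ≤ cH * 7 := by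
    unfold tX
    rw [← mul_sum]
    refine mul_le_mul_of_nonneg_left ?_ (by unfold cH; linarith)
    refine le_trans ?_ (DS_le (k := n.k + r) (f := b) hr)
    rw [DS_add]
    linarith [DS_nonneg n.k b]
  unfold yX yb
  unfold cY
  unfold cH at hsum
  nlinarith

/-- A homogeneous set can absorb a point of small energy. -/
lemma exists_absorb (X : Inst d N) {B : Finset (Fin N)} {b : ℕ} {y : ℝ} (h : HomAt X B b b y)
    (hy1 : 1 ≤ y) (hy : y ^ 2 * eS ≤ 1 / 4) (hc : Clean X b) {t : Fin d → ℝ}
    (hG : Gv X b t ≤ gS) :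
    ∃ z : Fin N → ℝ, (∀ i, i ∉ B → z i = 0) ∧ (∀ i, |z i| ≤ 1 / 4) ∧
      ∑ i, z i ^ 2 ≤ 2 * gS ∧ ∀ j ∈ act X.lam b, ∑ i ∈ B, z i * X.v i j = t j := by
  classical
  set A := act X.lam b with hA
  set L : (A → ℝ) →ₗ[ℝ] (A → ℝ) :=
    { toFun := fun s j => ∑ i ∈ B, (∑ l : A, X.v i l * s l) * X.v i j
      map_add' := fun s s' => by
        ext j; simp only [Pi.add_apply, mul_add, sum_add_distrib, add_mul]
      map_smul' := fun c s => by
        ext j
        simp only [Pi.smul_apply, smul_eq_mul, RingHom.id_apply, mul_sum, sum_mul]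
        exact sum_congr rfl fun i _ => sum_congr rfl fun l _ => by ring } with hL
  have hx : ∀ j : A, 1 ≤ xv X.lam b j := fun j => one_le_xv_of_act j.2
  have hquad : ∀ s : A → ℝ, ∑ j : A, xv X.lam b j * s j ^ 2
      ≤ 2 * ∑ i ∈ B, (∑ l : A, X.v i l * s l) ^ 2 := by
    intro s
    set Q := ∑ j : A, xv X.lam b j * s j ^ 2 with hQ
    have e1 : ∑ i ∈ B, (∑ l : A, X.v i l * s l) ^ 2
        = ∑ j : A, ∑ l : A, s j * s l * ∑ i ∈ B, X.v i j * X.v i l := by
      simp_rw [sq, sum_mul_sum, mul_sum]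
      rw [sum_comm]
      refine sum_congr rfl fun j _ => ?_
      rw [sum_comm]
      exact sum_congr rfl fun l _ => sum_congr rfl fun i _ => by ring
    have e2 : ∑ j : A, ∑ l : A, (s j * s l * (if (j : Fin d) = l then xv X.lam b j else 0)
          - (y ^ 2 - 1) * (|s j| * pv X.lam b j * (|s l| * pv X.lam b l)))
        ≤ ∑ i ∈ B, (∑ l : A, X.v i l * s l) ^ 2 := by
      rw [e1]
      refine sum_le_sum fun j _ => sum_le_sum fun l _ => ?_
      have h1 := h j j.2 l l.2
      rw [div_self (by positivity), one_mul] at h1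
      set e := ∑ i ∈ B, X.v i j * X.v i l
      set δ := (if (j : Fin d) = l then xv X.lam b j else 0)
      have h2 : |s j * s l * (e - δ)| ≤ |s j| * |s l| * ((y ^ 2 - 1) * (pv X.lam b j * pv X.lam b l)) := by
        rw [abs_mul, abs_mul]
        exact mul_le_mul_of_nonneg_left h1 (by positivity)
      have h3 := (abs_le.1 h2).1
      linarith
    have e3 : ∑ j : A, ∑ l : A, s j * s l * (if (j : Fin d) = l then xv X.lam b j else 0) = Q := by
      refine sum_congr rfl fun j _ => ?_
      rw [sum_eq_single j (fun l _ hl => by simp [Subtype.coe_inj, Ne.symm hl]) (by simp)]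
      simp; ring
    have e4 : (∑ j : A, |s j| * pv X.lam b j) ^ 2 ≤ Q * eS := by
      have hcs := sum_mul_sq_le_sq_mul_sq (univ : Finset A)
        (fun j => |s j| * √(xv X.lam b j)) (fun j => pv X.lam b j / √(xv X.lam b j))
      have hs : ∀ j : A, (0 : ℝ) < √(xv X.lam b j) := fun j => Real.sqrt_pos.2 (by linarith [hx j])
      have l1 : ∀ j : A, |s j| * √(xv X.lam b j) * (pv X.lam b j / √(xv X.lam b j))
          = |s j| * pv X.lam b j := fun j => by field_simp [(hs j).ne']
      have l2 : ∀ j : A, (|s j| * √(xv X.lam b j)) ^ 2 = xv X.lam b j * s j ^ 2 := fun j => by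
        rw [mul_pow, sq_abs, Real.sq_sqrt (by linarith [hx j])]; ring
      have l3 : ∀ j : A, (pv X.lam b j / √(xv X.lam b j)) ^ 2 = (qv X.lam b j)⁻¹ := fun j => by
        have := hx j
        have := one_le_qv_of_act j.2
        rw [div_pow, pv_sq j.2, Real.sq_sqrt (by linarith)]
        field_simp
      simp only [l1, l2, l3] at hcs
      refine hcs.trans (mul_le_mul_of_nonneg_left ?_ (sum_nonneg fun j _ => ?_))
      · exact (sum_coe_sort A (fun j => (qv X.lam b j)⁻¹)).le.trans hc
      · have := hx j; positivity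
    have e5 : ∑ j : A, ∑ l : A, (y ^ 2 - 1) * (|s j| * pv X.lam b j * (|s l| * pv X.lam b l))
        = (y ^ 2 - 1) * (∑ j : A, |s j| * pv X.lam b j) ^ 2 := by
      rw [sq (∑ j : A, |s j| * pv X.lam b j), sum_mul_sum]
      simp_rw [mul_sum]
    simp_rw [sum_sub_distrib] at e2
    rw [e3, e5] at e2
    have hQ0 : 0 ≤ Q := sum_nonneg fun j _ => by have := hx j; positivity
    have hy0 : 0 ≤ y ^ 2 - 1 := by nlinarith
    have := eS_pos
    nlinarith [mul_le_mul_of_nonneg_left e4 hy0, mul_le_mul_of_nonneg_left hy hQ0]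
  have hpair : ∀ s : A → ℝ, ∑ j : A, s j * L s j = ∑ i ∈ B, (∑ l : A, X.v i l * s l) ^ 2 := by
    intro s
    simp only [hL, LinearMap.coe_mk, AddHom.coe_mk, mul_sum]
    rw [sum_comm]
    refine sum_congr rfl fun i _ => ?_
    rw [sq]
    conv_rhs => rw [mul_sum]
    exact sum_congr rfl fun j _ => by ring
  have hinj : Function.Injective L := by
    rw [injective_iff_map_eq_zero]
    intro s hs
    ext j
    have h1 := hquad s
    rw [← hpair, hs] at h1
    simp at h1
    have h2 : xv X.lam b j * s j ^ 2 ≤ 0 :=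
      le_trans (single_le_sum (f := fun i : A => xv X.lam b i * s i ^ 2)
        (fun i _ => by have := hx i; positivity) (mem_univ j)) h1
    have := hx j
    simp only [Pi.zero_apply]
    nlinarith
  obtain ⟨s, hs⟩ := LinearMap.surjective_of_injective hinj fun j : A => t j
  set z : Fin N → ℝ := fun i => if i ∈ B then ∑ l : A, X.v i l * s l else 0 with hz
  set Z := ∑ i ∈ B, (∑ l : A, X.v i l * s l) ^ 2 with hZ
  have hQ := hquad s
  have hZ0 : 0 ≤ Z := sum_nonneg fun i _ => sq_nonneg _
  have hG0 : 0 ≤ Gv X b t := sum_nonneg fun j hj => by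
    have := one_le_xv_of_act hj; positivity
  have hcs : Z ^ 2 ≤ Gv X b t * ∑ j : A, xv X.lam b j * s j ^ 2 := by
    have hcs := sum_mul_sq_le_sq_mul_sq (univ : Finset A)
      (fun j => t j / √(xv X.lam b j)) (fun j => s j * √(xv X.lam b j))
    have l1 : ∀ j : A, t j / √(xv X.lam b j) * (s j * √(xv X.lam b j)) = s j * t j := fun j => by
      have : (0 : ℝ) < √(xv X.lam b j) := Real.sqrt_pos.2 (by linarith [hx j])
      field_simp
    have l2 : ∀ j : A, (t j / √(xv X.lam b j)) ^ 2 = t j ^ 2 / xv X.lam b j := fun j => by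
      rw [div_pow, Real.sq_sqrt (by linarith [hx j])]
    have l3 : ∀ j : A, (s j * √(xv X.lam b j)) ^ 2 = xv X.lam b j * s j ^ 2 := fun j => by
      rw [mul_pow, Real.sq_sqrt (by linarith [hx j])]; ring
    simp only [l1, l2, l3] at hcs
    have h1 : ∑ j : A, s j * t j = Z := by rw [hZ, ← hpair, hs]
    rw [h1] at hcs
    exact hcs.trans_eq (by rw [Gv, ← sum_coe_sort A (fun j => t j ^ 2 / xv X.lam b j)])
  have hZle : Z ≤ 2 * gS := by
    by_contra hcon
    push Not at hcon
    have : 0 ≤ gS := by unfold gS; norm_num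
    nlinarith [mul_le_mul_of_nonneg_left hQ hG0, mul_le_mul_of_nonneg_right hG hZ0]
  refine ⟨z, fun i hi => by simp [hz, hi], fun i => ?_, ?_, fun j hj => ?_⟩
  · by_cases hi : i ∈ B
    · simp only [hz, hi, if_true]
      have hcs := sum_mul_sq_le_sq_mul_sq (univ : Finset A)
        (fun l => X.v i l / √(xv X.lam b l)) (fun l => s l * √(xv X.lam b l))
      have l1 : ∀ l : A, X.v i l / √(xv X.lam b l) * (s l * √(xv X.lam b l)) = X.v i l * s l :=
        fun l => by
          have : (0 : ℝ) < √(xv X.lam b l) := Real.sqrt_pos.2 (by linarith [hx l])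
          field_simp
      have l3 : ∀ l : A, (s l * √(xv X.lam b l)) ^ 2 = xv X.lam b l * s l ^ 2 := fun l => by
        rw [mul_pow, Real.sq_sqrt (by linarith [hx l])]; ring
      simp only [l1, l3] at hcs
      have hv : ∑ l : A, (X.v i l / √(xv X.lam b l)) ^ 2 ≤ eS := by
        refine le_trans ?_ hc
        rw [eps, ← sum_coe_sort A]
        refine sum_le_sum fun l _ => ?_
        have h1 := hx l
        have h2 := one_le_qv_of_act l.2
        have h3 : X.v i l ^ 2 ≤ 1 :=
          (single_le_sum (fun j _ => sq_nonneg (X.v i j)) (mem_univ (l : Fin d))).trans (X.norm_le i)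
        rw [div_pow, Real.sq_sqrt (by linarith), ← one_div]
        calc X.v i l ^ 2 / xv X.lam b l ≤ 1 / xv X.lam b l := by gcongr
          _ ≤ 1 / qv X.lam b l := by gcongr; exact qv_le_xv l.2
      have hs0 : 0 ≤ ∑ l : A, xv X.lam b l * s l ^ 2 :=
        sum_nonneg fun l _ => by have := hx l; positivity
      have he : eS ≤ 1 / 4 := by
        nlinarith [mul_le_mul_of_nonneg_right (one_le_pow₀ hy1 : (1 : ℝ) ≤ y ^ 2) eS_pos.le]
      have hb : (∑ l : A, X.v i l * s l) ^ 2 ≤ (1 / 4) ^ 2 := by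
        refine hcs.trans ((mul_le_mul hv hQ hs0 eS_pos.le).trans ?_)
        have := eS_pos
        unfold gS at hZle
        nlinarith
      exact abs_le_of_sq_le_sq hb (by norm_num)
    · simp [hz, hi]
  · refine le_trans (le_of_eq ?_) hZle
    rw [hZ, ← sum_filter_add_sum_filter_not univ (fun i => i ∈ B), filter_univ_mem]
    have : ∑ i with i ∉ B, z i ^ 2 = 0 := sum_eq_zero fun i hi => by simp [hz, (mem_filter.1 hi).2]
    rw [this, add_zero]
    exact sum_congr rfl fun i hi => by simp [hz, hi]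
  · have := congrFun hs ⟨j, hj⟩
    simp only [hL, LinearMap.coe_mk, AddHom.coe_mk] at this
    rw [← this]
    exact sum_congr rfl fun i hi => by simp [hz, hi]

end Vale.Agent.P262.S2
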