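import Vale.Agent.P262.S2.StepSign
import Vale.Agent.P262.S2.StepOutOf
import Vale.Agent.P262.S2.StepSteer

/-!
P262 / S₂, step, part 10: repeated signing; proof of `StepProp`.
-/

namespace Vale.Agent.P262.S2

open Finset

variable {d N : ℕ}

section

variable (X : Inst d N) {n : Node d N} {b : ℕ}

lemma act_subset (hkb : n.k ≤ b) : act X.lam b ⊆ act X.lam n.k := fun j hj => by
  rw [mem_act_iff] at hj ⊢; omega

/-- Admissible partitions exist at every depth up to `b - n.k`. -/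
lemma exists_cls (hn : NodeInv X n) (hkb : n.k < b) :
    ∀ r, r ≤ b - n.k → ∃ π, Cls X n b π r := by
  intro r
  induction r with
  | zero =>
    intro _
    refine ⟨fun _ => 0, fun i _ => by simp, fun r' h => absurd h (Nat.not_lt_zero _),
      fun r' h => absurd h (Nat.not_lt_zero _), fun h => absurd h (Nat.lt_irrefl 0), ?_⟩
    simp only [SS, range_zero, sum_empty, TT]
    exact (Real.exp_pos _).le
  | succ r ih =>
    intro hr
    obtain ⟨π, h⟩ := ih (by omega)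
    obtain ⟨ε, -, h', -⟩ := sign X hn hkb h (by omega) (le_refl (r + 1)) hr (z := fun _ => 0)
      (fun i => by norm_num) (by norm_num)
    exact ⟨_, h'⟩

/-- The off-`b` part of a partial drift. -/
noncomputable def leak (n : Node d N) (b : ℕ) (B : Finset (Fin N)) (z : Fin N → ℝ) (j : Fin d) : ℝ :=
  if j ∈ act X.lam b then 0 else ∑ i ∈ B, z i * n.u i j

/-- The two drifts. -/
structure Drift (n : Node d N) (b : ℕ) (π : Fin N → ℕ) (z₀ z₁ : Fin N → ℝ) : Prop where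
  supp₀ : ∀ i, i ∉ piece n π 0 → z₀ i = 0
  supp₁ : ∀ i, i ∉ piece n π (2 ^ (b - n.k) - 1) → z₁ i = 0
  abs₀ : ∀ i, |z₀ i| ≤ 1 / 4
  abs₁ : ∀ i, |z₁ i| ≤ 1 / 4
  sq₀ : ∑ i, z₀ i ^ 2 ≤ 2 * gS
  sq₁ : ∑ i, z₁ i ^ 2 ≤ 2 * gS
  eq₀ : ∀ j ∈ act X.lam b, ∑ i ∈ piece n π 0, z₀ i * n.u i j = -n.O j
  eq₁ : ∀ j ∈ act X.lam b, ∑ i ∈ piece n π (2 ^ (b - n.k) - 1), z₁ i * n.u i j = -n.Y j

lemma exists_drift (hn : NodeInv X n) (hb : GoodLevel X n b) {π : Fin N → ℕ}
    (h : Cls X n b π (b - n.k)) : ∃ z₀ z₁, Drift X n b π z₀ z₁ := by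
  obtain ⟨hkb, hcase⟩ := hb
  by_cases hA : act X.lam b = ∅
  · exact ⟨fun _ => 0, fun _ => 0, fun _ _ => rfl, fun _ _ => rfl, fun _ => by norm_num,
      fun _ => by norm_num, by norm_num [gS], by norm_num [gS], by simp [hA], by simp [hA]⟩
  obtain ⟨hc, hE, hO, hY⟩ := hcase.resolve_left hA
  set W := b - n.k with hW
  obtain ⟨W', hW'⟩ : ∃ W', W = W' + 1 := ⟨W - 1, by omega⟩
  have hy1 : 1 ≤ yX n b W := by
    have h1 := one_le_yb (k := n.k) (E := n.E) (f := b)
    have h2 := two_le_sg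
    have : 0 ≤ ∑ i ∈ range W, tX n b (i + 1) := sum_nonneg fun i _ =>
      mul_nonneg (by unfold cH; linarith) (pow_nonneg phi_pos.le _)
    unfold yX; linarith
  have hy : yX n b W ^ 2 * eS ≤ 1 / 4 := by
    have h2 := two_le_sg
    have hyle := yX_le (X := X) hn (r := W) (by omega) hE
    calc yX n b W ^ 2 * eS ≤ (10 ^ 4 * sg) ^ 2 * eS :=
          mul_le_mul_of_nonneg_right (pow_le_pow_left₀ (by linarith) hyle 2) eS_pos.le
      _ = (10 ^ 4 * sg ^ 2)⁻¹ := by unfold eS; field_simp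
      _ ≤ 1 / 4 := by
          rw [one_div]; exact inv_anti₀ (by norm_num) (by nlinarith)
  have hp : ∀ p, (p = 0 ∨ p = 2 ^ W - 1) → HomAt X (piece n π p) b b (yX n b W) := by
    intro p hp
    have := h.outer W' (by omega) p (by rw [← hW']; exact hp) hc
    rw [← hW', blk_full, show n.k + W = b by omega] at this
    exact this
  have hneg : ∀ P : Fin d → ℝ, Gv X b P ≤ gS → Gv X b (fun j => -P j) ≤ gS := fun P hP => by
    simpa [Gv] using hP
  obtain ⟨z₀, s₀, a₀, q₀, e₀⟩ :=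
    exists_absorb X (hp 0 (Or.inl rfl)) hy1 hy hc (hneg _ hO)
  obtain ⟨z₁, s₁, a₁, q₁, e₁⟩ :=
    exists_absorb X (hp _ (Or.inr rfl)) hy1 hy hc (hneg _ hY)
  have hu : ∀ (B : Finset (Fin N)) (z : Fin N → ℝ), ∀ j ∈ act X.lam b,
      ∑ i ∈ B, z i * n.u i j = ∑ i ∈ B, z i * X.v i j := fun B z j hj =>
    sum_congr rfl fun i _ => by rw [hn.u_act i j (act_subset X hkb.le hj)]
  exact ⟨z₀, z₁, s₀, s₁, a₀, a₁, q₀, q₁, fun j hj => (hu _ _ j hj).trans (e₀ j hj),
    fun j hj => (hu _ _ j hj).trans (e₁ j hj)⟩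

lemma sum_mul_sq_sum_le {α : Type*} (s : Finset (Fin d)) (B : Finset α) {w : Fin d → ℝ}
    (hw : ∀ j ∈ s, 0 ≤ w j) (z : α → ℝ) (u : α → Fin d → ℝ) :
    ∑ j ∈ s, w j * (∑ i ∈ B, z i * u i j) ^ 2
      ≤ (∑ i ∈ B, z i ^ 2) * ∑ i ∈ B, ∑ j ∈ s, w j * u i j ^ 2 := by
  rw [mul_sum]
  calc _ ≤ ∑ j ∈ s, w j * ((∑ i ∈ B, z i ^ 2) * ∑ i ∈ B, u i j ^ 2) := sum_le_sum fun j hj =>
        mul_le_mul_of_nonneg_left (sum_mul_sq_le_sq_mul_sq B z (fun i => u i j)) (hw j hj)
    _ = _ := by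
      rw [← mul_sum, sum_comm (s := B), mul_sum]
      exact sum_congr rfl fun j _ => by simp only [mul_sum]; exact sum_congr rfl fun i _ => by ring

/-- A drift leaks little. -/
lemma leak_small (hn : NodeInv X n) (hkb : n.k < b) {π : Fin N → ℕ}
    (h : Cls X n b π (b - n.k)) {p : ℕ} (hp : p < 2 ^ (b - n.k)) {z : Fin N → ℝ}
    (hz : ∑ i, z i ^ 2 ≤ 2 * gS) : Small X n b (leak X n b (piece n π p) z) (1 / 10) := by
  have h2 := two_le_sg
  set B := piece n π p with hB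
  have hzB : ∑ i ∈ B, z i ^ 2 ≤ 1 / 200 :=
    (sum_le_sum_of_subset_of_nonneg (subset_univ _) fun i _ _ => sq_nonneg _).trans
      (hz.trans (by norm_num [gS]))
  refine ⟨fun T => ?_, ?_, ?_⟩
  · rw [sum_eq_zero fun j hj => by simp [leak, (mem_sdiff.1 hj).1], Real.sqrt_zero]
    unfold RA; positivity
  · have hc := content_of_pot X n b hn hkb h hp
    rw [blk_full] at hc
    have hu : ∑ i ∈ B, ∑ j ∈ newS X.lam n.k b, n.u i j ^ 2
        ≤ CN * ((#(newS X.lam n.k b) : ℝ) + ((b - n.k - 1 : ℕ) : ℝ) + n.E n.k) :=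
      (sum_le_sum fun i _ => sum_le_sum fun j _ => hn.u_sq i j).trans hc
    have hs := sum_mul_sq_sum_le (newS X.lam n.k b) B (w := fun _ => 1)
      (fun _ _ => zero_le_one) z n.u
    simp only [one_mul] at hs
    have hX : 0 ≤ (#(newS X.lam n.k b) : ℝ) + ((b - n.k - 1 : ℕ) : ℝ) + n.E n.k := by
      have := hn.E_nonneg n.k; positivity
    rw [sum_congr rfl fun j hj => by
      rw [leak, if_neg (by simp only [newS, mem_sdiff] at hj; exact hj.2)]]
    rw [Real.sqrt_le_left (by unfold RN; positivity)]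
    refine hs.trans ((mul_le_mul hzB hu (by positivity) (by norm_num)).trans ?_)
    rw [RN, mul_pow, mul_pow, Real.sq_sqrt hX, CN]
    nlinarith [mul_nonneg (sq_nonneg sg) hX]
  · have hu : ∑ i ∈ B, ∑ j ∈ (act X.lam n.k)ᶜ, n.w j * n.u i j ^ 2 ≤ n.Bud :=
      (sum_le_sum_of_subset_of_nonneg (filter_subset _ _)
        fun i _ _ => oldG_nonneg X hn i).trans hn.content
    have hw : ∀ j ∈ (act X.lam n.k)ᶜ, 0 ≤ n.w j := fun j _ => zero_le_one.trans (hn.one_le_w j)
    rw [sum_congr rfl fun j hj => by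
      rw [leak, if_neg (fun hj' => (mem_compl.1 hj) (act_subset X hkb.le hj'))]]
    rw [Real.sqrt_le_left (by unfold RO; positivity)]
    refine (sum_mul_sq_sum_le _ B hw z n.u).trans ((mul_le_mul hzB hu
      (sum_nonneg fun i _ => oldG_nonneg X hn i) (by norm_num)).trans ?_)
    rw [RO, mul_pow, mul_pow, Real.sq_sqrt hn.bud_nonneg]
    nlinarith [hn.bud_nonneg,
      mul_le_mul_of_nonneg_right (show (4 : ℝ) ≤ sg ^ 2 by nlinarith) hn.bud_nonneg]

lemma Zpre_eq {π : Fin N → ℕ} {M : ℕ} (hM : 2 ≤ M) (_hπ : ∀ i ∈ n.I, π i < M) {z₀ z₁ : Fin N → ℝ}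
    (h₀ : ∀ i, i ∉ piece n π 0 → z₀ i = 0) (h₁ : ∀ i, i ∉ piece n π (M - 1) → z₁ i = 0)
    {q : ℕ} (hq : 1 ≤ q) (hqM : q ≤ M) (j : Fin d) :
    Zpre n π (fun i => z₀ i + z₁ i) q j = ∑ i ∈ piece n π 0, z₀ i * n.u i j
      + if q = M then ∑ i ∈ piece n π (M - 1), z₁ i * n.u i j else 0 := by
  unfold Zpre
  simp only [add_mul, sum_add_distrib]
  congr 1
  · refine (sum_subset (fun i hi => ?_) fun i _ hi => by rw [h₀ i hi, zero_mul]).symm
    simp only [piece, mem_filter] at hi ⊢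
    exact ⟨hi.1, by omega⟩
  · split_ifs with hqe
    · refine (sum_subset (fun i hi => ?_) fun i _ hi => by rw [h₁ i hi, zero_mul]).symm
      simp only [piece, mem_filter] at hi ⊢
      exact ⟨hi.1, by omega⟩
    · refine sum_eq_zero fun i hi => ?_
      have : i ∉ piece n π (M - 1) := fun hc => by
        simp only [piece, mem_filter] at hi hc
        omega
      rw [h₁ i this, zero_mul]

/-- Signing halves the deviation up to a constant. -/
lemma improve (hn : NodeInv X n) (hb : GoodLevel X n b) {π : Fin N → ℕ} {β : ℝ}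
    (h : Cls X n b π (b - n.k))
    (hs : ∀ t, 0 < t → t < 2 ^ (b - n.k) → Small X n b (Dv X n b π (2 ^ (b - n.k)) t) β)
    (hβ : 0 ≤ β) :
    ∃ π', Cls X n b π' (b - n.k) ∧ ∀ t, 0 < t → t < 2 ^ (b - n.k) →
      Small X n b (Dv X n b π' (2 ^ (b - n.k)) t) (β / 2 + 21 / 10) := by
  have hkb := hb.1
  obtain ⟨z₀, z₁, D⟩ := exists_drift X hn hb h
  have D₀ := D.supp₀
  have D₁ := D.supp₁
  have De₁ := D.eq₁
  set W := b - n.k with hW
  have hW1 : 1 ≤ W := by omega
  have hM2 : 2 ≤ 2 ^ W := by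
    calc 2 = 2 ^ 1 := (pow_one 2).symm
      _ ≤ 2 ^ W := Nat.pow_le_pow_right (by norm_num) hW1
  have hne : ∀ i, z₀ i = 0 ∨ z₁ i = 0 := fun i => by
    by_cases h0 : i ∈ piece n π 0
    · refine Or.inr (D₁ i fun h1 => ?_)
      simp only [piece, mem_filter] at h0 h1
      omega
    · exact Or.inl (D₀ i h0)
  set z := fun i => z₀ i + z₁ i with hzdef
  have hz : ∀ i, |z i| ≤ 1 / 2 := fun i =>
    (abs_add_le _ _).trans (by linarith [D.abs₀ i, D.abs₁ i])
  have hz2 : ∑ a ∈ n.I, z a ^ 2 ≤ 1 / 100 := by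
    refine (sum_le_sum_of_subset_of_nonneg (subset_univ _) fun i _ _ => sq_nonneg _).trans ?_
    have : ∀ i, z i ^ 2 = z₀ i ^ 2 + z₁ i ^ 2 := fun i => by
      rcases hne i with h | h <;> simp [hzdef, h]
    rw [sum_congr rfl fun i _ => this i, sum_add_distrib]
    have := D.sq₀; have := D.sq₁
    norm_num [gS] at *
    linarith
  obtain ⟨ε, hε, hcls, hE⟩ := sign X hn hkb h le_rfl (Nat.le_succ W) le_rfl hz hz2
  have hdiv : (fun i => signed π W ε i / 2 ^ (W + 1 - W)) = fun i => signed π W ε i / 2 := by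
    simp
  rw [hdiv] at hcls
  refine ⟨_, hcls, fun t ht0 htM => ?_⟩
  have hl₀ := leak_small X hn hkb h (p := 0) (by positivity) D.sq₀
  have hl₁ := leak_small X hn hkb h (p := 2 ^ W - 1) (Nat.sub_lt (by omega) one_pos) D.sq₁
  have hZ := fun {q : ℕ} (hq : 1 ≤ q) (hqM : q ≤ 2 ^ W) (j : Fin d) =>
    Zpre_eq (n := n) hM2 h.range D₀ D₁ hq hqM j
  have hEneg : ∀ q ≤ 2 ^ W, Small X n b (fun j => -Epre n π ε z q j) 2 := fun q hq => by
    simpa using (hE q hq).smul (-1)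
  have hramp : ∀ (j : Fin d) (q : ℕ), ramp n (2 ^ W) q j
      = n.O j + (q : ℝ) / (2 ^ W : ℕ) * (n.Y j - n.O j) := fun j q => by unfold ramp; ring
  rcases lt_trichotomy (2 * t) (2 ^ W) with hlt | heq | hgt
  · refine ((((hs (2 * t) (by omega) hlt).add hn hl₀).add hn (hE (2 * t) hlt.le)).smul
      (1 / 2)).mono (by norm_num; linarith) |>.congr fun j => ?_
    simp only [Dv, Pfun_pos (z := z) h.range hε hlt.le, leak, tgt]
    rw [hZ (by omega) hlt.le, if_neg hlt.ne, add_zero]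
    by_cases hj : j ∈ act X.lam b
    · simp only [hj, if_true, D.eq₀ j hj]; ring
    · simp only [hj, if_false, hramp]; push_cast; ring
  · refine (((hl₀.add hn hl₁).add hn (hE (2 ^ W) le_rfl)).smul
      (1 / 2)).mono (by norm_num; linarith) |>.congr fun j => ?_
    simp only [Dv, Pfun_neg X h.range (z := z) hε hn (show 2 * t = 2 ^ W + 2 * 0 by omega), leak, tgt]
    rw [hZ (by omega) le_rfl, if_pos rfl]
    simp only [mul_zero, Pfun_zero]
    simp only [Zpre, Epre, Nat.not_lt_zero, filter_false, sum_empty, sub_zero]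
    by_cases hj : j ∈ act X.lam b
    · simp only [hj, if_true, D.eq₀ j hj, De₁ j hj]; ring
    · simp only [hj, if_false, hramp]
      have : (2 : ℝ) * t = ((2 ^ W : ℕ) : ℝ) := by exact_mod_cast heq
      rw [← this]
      field_simp
      ring
  · have hev : (2 ^ W : ℕ) = 2 * 2 ^ (W - 1) := by
      rw [← pow_succ', Nat.sub_add_cancel hW1]
    obtain ⟨s, hs'⟩ : ∃ s, 2 * t = 2 ^ W + 2 * s := ⟨t - 2 ^ (W - 1), by omega⟩
    refine (((((hs (2 * s) (by omega) (by omega)).add hn hl₁).add hn (hE (2 ^ W) le_rfl)).add hn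
      (hEneg (2 * s) (by omega))).smul (1 / 2)).mono (by norm_num; linarith) |>.congr fun j => ?_
    simp only [Dv, Pfun_neg X h.range (z := z) hε hn hs', leak, tgt]
    rw [hZ (by omega) le_rfl, if_pos rfl, hZ (q := 2 * s) (by omega) (by omega),
      if_neg (show 2 * s ≠ 2 ^ W by omega), add_zero]
    by_cases hj : j ∈ act X.lam b
    · simp only [hj, if_true, D.eq₀ j hj, De₁ j hj]; ring
    · simp only [hj, if_false, hramp]
      have : (2 : ℝ) * t = ((2 ^ W : ℕ) : ℝ) + 2 * s := by exact_mod_cast hs'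
      have h0 : ((2 ^ W : ℕ) : ℝ) ≠ 0 := by positivity
      have ht' : (t : ℝ) = (((2 ^ W : ℕ) : ℝ) + 2 * s) / 2 := by linarith
      rw [ht']
      push_cast
      field_simp
      ring

/-- Some bound on the deviations of a partition. -/
lemma exists_bound (hn : NodeInv X n) (hkb : n.k < b) (π : Fin N → ℕ) :
    ∃ β, 0 ≤ β ∧ ∀ t, 0 < t → t < 2 ^ (b - n.k) →
      Small X n b (Dv X n b π (2 ^ (b - n.k)) t) β := by
  have h2 := two_le_sg
  set M := 2 ^ (b - n.k) with hM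
  set g := fun t => √(∑ j, Dv X n b π M t j ^ 2)
      + √(∑ j ∈ (act X.lam n.k)ᶜ, n.w j * Dv X n b π M t j ^ 2) / RO n with hg
  have hg0 : ∀ t, 0 ≤ g t := fun t => by simp only [hg]; unfold RO; positivity
  refine ⟨∑ t ∈ range M, g t, sum_nonneg fun t _ => hg0 t, fun t _ ht => ?_⟩
  refine Small.mono ?_ (single_le_sum (f := g) (fun t _ => hg0 t) (mem_range.2 ht))
  have hA : ∀ (S : Finset (Fin d)) (R : ℝ), (S.Nonempty → 1 ≤ R) → 0 ≤ R →
      √(∑ j ∈ S, Dv X n b π M t j ^ 2) ≤ g t * R := by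
    intro S R hR hR0
    rcases S.eq_empty_or_nonempty with hS | hS
    · rw [hS, sum_empty, Real.sqrt_zero]
      exact mul_nonneg (hg0 t) hR0
    · refine le_trans ?_ (le_mul_of_one_le_right (hg0 t) (hR hS))
      simp only [hg]
      refine le_add_of_le_of_nonneg (Real.sqrt_le_sqrt
        (sum_le_sum_of_subset_of_nonneg (subset_univ S) fun j _ _ => sq_nonneg _)) ?_
      unfold RO; positivity
  have hbig : ∀ x : ℝ, 1 ≤ x → 1 ≤ 40 * sg * √x := fun x hx => by
    have : 40 * sg * 1 ≤ 40 * sg * √x :=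
      mul_le_mul_of_nonneg_left (Real.one_le_sqrt.2 hx) (by linarith)
    linarith
  refine ⟨fun T => hA _ _ (fun hS => hbig _ ?_) (by unfold RA; positivity),
    hA _ _ (fun hS => hbig _ ?_) (by unfold RN; positivity), ?_⟩
  · have : (1 : ℝ) ≤ (#(act X.lam b \ act X.lam T) : ℝ) := by exact_mod_cast card_pos.2 hS
    have : (0 : ℝ) ≤ ((b - n.k - 1 : ℕ) : ℝ) := Nat.cast_nonneg _
    linarith
  · have : (1 : ℝ) ≤ (#(newS X.lam n.k b) : ℝ) := by exact_mod_cast card_pos.2 hS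
    have : (0 : ℝ) ≤ ((b - n.k - 1 : ℕ) : ℝ) := Nat.cast_nonneg _
    have := hn.E_nonneg n.k
    linarith
  · rcases hn.bud_nonneg.eq_or_lt with hb0 | hb0
    · rw [sum_eq_zero fun j hj => ?_, Real.sqrt_zero]
      · exact mul_nonneg (hg0 t) (by unfold RO; positivity)
      have hu : ∀ i ∈ n.I, n.u i j = 0 := fun i hi => by
        have h0 : oldG X n i = 0 := le_antisymm
          (by simpa [← hb0] using hn.small i hi) (oldG_nonneg X hn i)
        have := (sum_eq_zero_iff_of_nonneg fun j _ =>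
          mul_nonneg (zero_le_one.trans (hn.one_le_w j)) (sq_nonneg (n.u i j))).1 h0 j hj
        rcases mul_eq_zero.1 this with h' | h'
        · linarith [hn.one_le_w j]
        · exact sq_eq_zero_iff.1 h'
      have hYO : n.Y j = n.O j := by
        have := hn.sum_eq j
        rw [sum_eq_zero fun i hi => hu i hi] at this
        linarith
      have hnb : j ∉ act X.lam b := fun hj' => (mem_compl.1 hj) (act_subset X hkb.le hj')
      have : Dv X n b π M t j = 0 := by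
        simp only [Dv, Pfun, tgt, hnb, if_false, ramp, hYO]
        rw [sum_eq_zero fun i hi => hu i (mem_filter.1 hi).1]
        ring
      rw [this]; ring
    · have hRO : 0 < RO n := by unfold RO; positivity
      simp only [hg]
      rw [add_mul, div_mul_cancel₀ _ hRO.ne']
      exact le_add_of_nonneg_left (by positivity)

/-- The step lemma. -/
theorem step_prop : StepProp := by
  intro d N X n hn b hb
  obtain ⟨π₀, h₀⟩ := exists_cls X hn hb.1 _ le_rfl
  obtain ⟨β₀, hβ₀, hs₀⟩ := exists_bound X hn hb.1 π₀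
  have hit : ∀ K : ℕ, ∃ π, Cls X n b π (b - n.k) ∧ ∀ t, 0 < t → t < 2 ^ (b - n.k) →
      Small X n b (Dv X n b π (2 ^ (b - n.k)) t) (21 / 5 + β₀ * (1 / 2) ^ K) := by
    intro K
    induction K with
    | zero => exact ⟨π₀, h₀, fun t h1 h2 => (hs₀ t h1 h2).mono (by norm_num)⟩
    | succ K ih =>
      obtain ⟨π, h, hs⟩ := ih
      obtain ⟨π', h', hs'⟩ := improve X hn hb h hs (by positivity)
      exact ⟨π', h', fun t h1 h2 => (hs' t h1 h2).mono (le_of_eq (by rw [pow_succ]; ring))⟩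
  obtain ⟨K, hK⟩ := exists_pow_lt_of_lt_one (show (0 : ℝ) < 1 / 10 / (β₀ + 1) by positivity)
    (show (1 : ℝ) / 2 < 1 by norm_num)
  obtain ⟨π, h, hs⟩ := hit K
  refine ⟨π, Pfun n π, stepOut_of X hn hb h fun t h1 h2 => (hs t h1 h2).mono ?_⟩
  rw [lt_div_iff₀ (by positivity)] at hK
  nlinarith [pow_nonneg (show (0 : ℝ) ≤ 1 / 2 by norm_num) K]

end

end Vale.Agent.P262.S2
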