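import Vale.Agent.P262.S2.StepBase

/-!
P262 / S₂, step, part 3: combinatorics of signing a partition and the identities for the new
boundaries.
-/

namespace Vale.Agent.P262.S2

open Finset

variable {d N : ℕ}

section

variable (X : Inst d N) (n : Node d N) (b : ℕ)

lemma blk_zero {π : Fin N → ℕ} {r : ℕ} (h : ∀ i ∈ n.I, π i < 2 ^ r) :
    blk n π r 0 0 = n.I := by
  refine filter_true_of_mem fun i hi => ?_
  rw [Nat.sub_zero, Nat.div_eq_of_lt (h i hi)]

lemma blk_subset (π : Fin N → ℕ) (r r' p : ℕ) : blk n π r r' p ⊆ n.I := filter_subset _ _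

lemma blk_div {π : Fin N → ℕ} {R m r' : ℕ} (hm : m ≤ R) (hr : r' ≤ m) (p : ℕ) :
    blk n (fun i => π i / 2 ^ (R - m)) m r' p = blk n π R r' p := by
  refine filter_congr fun i _ => ?_
  rw [Nat.div_div_eq_div_mul, ← pow_add, show R - m + (m - r') = R - r' by omega]

lemma blk_full (π : Fin N → ℕ) (r p : ℕ) : blk n π r r p = piece n π p := by
  simp [blk, piece]

variable {n} {π : Fin N → ℕ} {r : ℕ} (hπ : ∀ i ∈ n.I, π i < 2 ^ r)
include hπ

lemma div_lt_pow {i : Fin N} (hi : i ∈ n.I) {r' : ℕ} (hr : r' ≤ r) :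
    π i / 2 ^ (r - r') < 2 ^ r' := by
  rw [Nat.div_lt_iff_lt_mul (by positivity), ← pow_add, show r' + (r - r') = r by omega]
  exact hπ i hi

lemma blk_signed_pos {ε : Fin N → ℝ} {r' p : ℕ} (hr : r' ≤ r) (hp : p < 2 ^ r') :
    blk n (signed π r ε) (r + 1) (r' + 1) p = (blk n π r r' p).filter (fun i => ε i = 1) := by
  ext i
  simp only [blk, mem_filter, signed, show r + 1 - (r' + 1) = r - r' by omega]
  constructor
  · rintro ⟨hi, he⟩
    by_cases h : ε i = 1
    · simp only [h, if_true] at he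
      exact ⟨⟨hi, he⟩, h⟩
    · exfalso
      simp only [h, if_false] at he
      have e : (2 : ℕ) ^ r = 2 ^ r' * 2 ^ (r - r') := by rw [← pow_add]; congr 1; omega
      rw [e, Nat.add_comm, Nat.add_mul_div_right _ _ (by positivity)] at he
      generalize π i / 2 ^ (r - r') = q at he
      omega
  · rintro ⟨⟨hi, he⟩, h⟩
    simp [hi, he, h]

lemma blk_signed_neg {ε : Fin N → ℝ} {r' p : ℕ} (hr : r' ≤ r) :
    blk n (signed π r ε) (r + 1) (r' + 1) (2 ^ r' + p)
      = (blk n π r r' p).filter (fun i => ε i ≠ 1) := by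
  ext i
  simp only [blk, mem_filter, signed, show r + 1 - (r' + 1) = r - r' by omega]
  have e : (2 : ℕ) ^ r = 2 ^ r' * 2 ^ (r - r') := by rw [← pow_add]; congr 1; omega
  constructor
  · rintro ⟨hi, he⟩
    by_cases h : ε i = 1
    · exfalso
      simp only [h, if_true] at he
      have := div_lt_pow hπ hi hr
      omega
    · simp only [h, if_false] at he
      rw [e, Nat.add_comm, Nat.add_mul_div_right _ _ (by positivity)] at he
      exact ⟨⟨hi, by omega⟩, h⟩
  · rintro ⟨⟨hi, he⟩, h⟩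
    refine ⟨hi, ?_⟩
    simp only [h, if_false]
    rw [e, Nat.add_comm, Nat.add_mul_div_right _ _ (by positivity), he, Nat.add_comm]

lemma signed_lt {ε : Fin N → ℝ} : ∀ i ∈ n.I, signed π r ε i < 2 ^ (r + 1) := by
  intro i hi
  have := hπ i hi
  unfold signed
  split_ifs <;> rw [pow_succ] <;> omega

end

/-- A sum over the positively signed part. -/
lemma sum_filter_pos {α : Type*} (B : Finset α) {ε : α → ℝ} (hε : ∀ i, ε i = 1 ∨ ε i = -1)
    (g : α → ℝ) [DecidablePred fun i => ε i = 1] :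
    ∑ i ∈ B.filter (fun i => ε i = 1), g i = (∑ i ∈ B, g i + ∑ i ∈ B, ε i * g i) / 2 := by
  rw [← sum_add_distrib, sum_filter, sum_div]
  refine sum_congr rfl fun i _ => ?_
  rcases hε i with h | h <;> norm_num [h]

/-- A sum over the negatively signed part. -/
lemma sum_filter_neg {α : Type*} (B : Finset α) {ε : α → ℝ} (hε : ∀ i, ε i = 1 ∨ ε i = -1)
    (g : α → ℝ) [DecidablePred fun i => ε i ≠ 1] :
    ∑ i ∈ B.filter (fun i => ε i ≠ 1), g i = (∑ i ∈ B, g i - ∑ i ∈ B, ε i * g i) / 2 := by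
  rw [← sum_sub_distrib, sum_filter, sum_div]
  refine sum_congr rfl fun i _ => ?_
  rcases hε i with h | h <;> norm_num [h]

/-! ### Boundaries -/

section Bdry

variable (X : Inst d N) (n : Node d N) (b : ℕ)

/-- Boundary `t` of the ordered partition `π`. -/
noncomputable def Pfun (π : Fin N → ℕ) (t : ℕ) (j : Fin d) : ℝ :=
  n.O j + ∑ i ∈ n.I.filter (fun i => π i < t), n.u i j

/-- The target of boundary `t`. -/
noncomputable def tgt (M t : ℕ) (j : Fin d) : ℝ :=
  if j ∈ act X.lam b then 0 else ramp n M t j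

/-- Deviation of boundary `t` from its target. -/
noncomputable def Dv (π : Fin N → ℕ) (M t : ℕ) (j : Fin d) : ℝ :=
  Pfun n π t j - tgt X n b M t j

/-- The drift accumulated before the piece `q`. -/
noncomputable def Zpre (π : Fin N → ℕ) (z : Fin N → ℝ) (q : ℕ) (j : Fin d) : ℝ :=
  ∑ i ∈ n.I.filter (fun i => π i < q), z i * n.u i j

variable {n}

lemma Pfun_zero (π : Fin N → ℕ) : Pfun n π 0 = n.O := by
  funext j; simp [Pfun]

lemma Pfun_top (hn : NodeInv X n) {π : Fin N → ℕ} {M : ℕ} (h : ∀ i ∈ n.I, π i < M) :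
    Pfun n π M = n.Y := by
  funext j
  rw [Pfun, filter_true_of_mem h, ← hn.sum_eq j]
  ring

lemma Pfun_succ (π : Fin N → ℕ) (t : ℕ) (j : Fin d) :
    Pfun n π (t + 1) j - Pfun n π t j = ∑ i ∈ piece n π t, n.u i j := by
  unfold Pfun piece
  simp only [sum_filter]
  rw [add_sub_add_left_eq_sub, ← sum_sub_distrib]
  refine sum_congr rfl fun i _ => ?_
  rcases lt_trichotomy (π i) t with h | h | h
  · simp [h, h.ne, Nat.lt_succ_of_lt h]
  · simp [h]
  · simp [h.ne', not_lt.2 h.le, not_lt.2 (Nat.succ_le_of_lt h)]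

lemma Epre_add_Zpre (π : Fin N → ℕ) (ε z : Fin N → ℝ) (q : ℕ) (j : Fin d) :
    Epre n π ε z q j + Zpre n π z q j = ∑ i ∈ n.I.filter (fun i => π i < q), ε i * n.u i j := by
  rw [Epre, Zpre, ← sum_add_distrib]
  exact sum_congr rfl fun i _ => by ring

variable {W : ℕ} {π : Fin N → ℕ} (hπ : ∀ i ∈ n.I, π i < 2 ^ W) {ε z : Fin N → ℝ}
  (hε : ∀ i, ε i = 1 ∨ ε i = -1)
include hπ hε

/-- Boundaries in the first half of the new partition. -/
lemma Pfun_pos {t : ℕ} (ht : 2 * t ≤ 2 ^ W) (j : Fin d) :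
    Pfun n (fun i => signed π W ε i / 2) t j
      = (n.O j + Pfun n π (2 * t) j + Zpre n π z (2 * t) j + Epre n π ε z (2 * t) j) / 2 := by
  classical
  have e : n.I.filter (fun i => signed π W ε i / 2 < t)
      = (n.I.filter (fun i => π i < 2 * t)).filter (fun i => ε i = 1) := by
    rw [filter_filter]
    refine filter_congr fun i hi => ?_
    have := hπ i hi
    unfold signed
    split_ifs with h
    · exact ⟨fun h' => ⟨by omega, h⟩, fun h' => by omega⟩
    · exact ⟨fun h' => by omega, fun h' => absurd h'.2 h⟩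
  unfold Pfun
  rw [e, sum_filter_pos _ hε, add_assoc _ (Zpre n π z (2 * t) j), add_comm (Zpre n π z (2 * t) j),
    Epre_add_Zpre]
  ring

/-- Boundaries in the second half of the new partition. -/
lemma Pfun_neg (hn : NodeInv X n) {t s : ℕ} (ht : 2 * t = 2 ^ W + 2 * s) (j : Fin d) :
    Pfun n (fun i => signed π W ε i / 2) t j
      = (n.Y j + Pfun n π (2 * s) j + (Zpre n π z (2 ^ W) j - Zpre n π z (2 * s) j)
          + (Epre n π ε z (2 ^ W) j - Epre n π ε z (2 * s) j)) / 2 := by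
  classical
  have e : n.I.filter (fun i => signed π W ε i / 2 < t)
      = n.I.filter (fun i => ε i = 1) ∪
        (n.I.filter (fun i => π i < 2 * s)).filter (fun i => ε i ≠ 1) := by
    ext i
    rw [mem_union, mem_filter, mem_filter, mem_filter, mem_filter]
    unfold signed
    constructor
    · rintro ⟨hi, h'⟩
      by_cases h : ε i = 1
      · exact Or.inl ⟨hi, h⟩
      · simp only [h, if_false] at h'
        exact Or.inr ⟨⟨hi, by omega⟩, h⟩
    · rintro (⟨hi, h⟩ | ⟨⟨hi, h'⟩, h⟩)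
      · have := hπ i hi
        exact ⟨hi, by simp only [h, if_true]; omega⟩
      · exact ⟨hi, by simp only [h, if_false]; omega⟩
  have hd : Disjoint (n.I.filter (fun i => ε i = 1))
      ((n.I.filter (fun i => π i < 2 * s)).filter (fun i => ε i ≠ 1)) := by
    rw [disjoint_left]
    intro i h1 h2
    exact (mem_filter.1 h2).2 (mem_filter.1 h1).2
  have hall : n.I.filter (fun i => π i < 2 ^ W) = n.I := filter_true_of_mem hπ
  have h1 := Epre_add_Zpre π ε z (2 ^ W) j (n := n)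
  have h2 := Epre_add_Zpre π ε z (2 * s) j (n := n)
  rw [hall] at h1
  unfold Pfun
  rw [e, sum_union hd, sum_filter_pos _ hε, sum_filter_neg _ hε]
  have h3 := hn.sum_eq j
  linarith

end Bdry

/-! ### Weighted seminorms -/

lemma sqrt_sum_add_le {α : Type*} (s : Finset α) {w : α → ℝ} (hw : ∀ j ∈ s, 0 ≤ w j)
    (f g : α → ℝ) :
    √(∑ j ∈ s, w j * (f j + g j) ^ 2) ≤ √(∑ j ∈ s, w j * f j ^ 2) + √(∑ j ∈ s, w j * g j ^ 2) := by
  have hA : 0 ≤ ∑ j ∈ s, w j * f j ^ 2 := sum_nonneg fun j hj => by have := hw j hj; positivity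
  have hB : 0 ≤ ∑ j ∈ s, w j * g j ^ 2 := sum_nonneg fun j hj => by have := hw j hj; positivity
  rw [Real.sqrt_le_left (add_nonneg (Real.sqrt_nonneg _) (Real.sqrt_nonneg _)), add_sq,
    Real.sq_sqrt hA, Real.sq_sqrt hB]
  have hcs := sum_mul_sq_le_sq_mul_sq s (fun j => √(w j) * f j) (fun j => √(w j) * g j)
  have e1 : ∀ j ∈ s, √(w j) * f j * (√(w j) * g j) = w j * (f j * g j) := fun j hj => by
    rw [mul_mul_mul_comm, Real.mul_self_sqrt (hw j hj)]
  have e2 : ∀ h : α → ℝ, ∀ j ∈ s, (√(w j) * h j) ^ 2 = w j * h j ^ 2 := fun h j hj => by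
    rw [mul_pow, Real.sq_sqrt (hw j hj)]
  rw [sum_congr rfl e1, sum_congr rfl (e2 f), sum_congr rfl (e2 g)] at hcs
  have hab : ∑ j ∈ s, w j * (f j * g j)
      ≤ √(∑ j ∈ s, w j * f j ^ 2) * √(∑ j ∈ s, w j * g j ^ 2) := by
    rw [← Real.sqrt_mul hA]
    exact (le_abs_self _).trans (Real.abs_le_sqrt hcs)
  have : ∑ j ∈ s, w j * (f j + g j) ^ 2 = ∑ j ∈ s, w j * f j ^ 2
      + 2 * ∑ j ∈ s, w j * (f j * g j) + ∑ j ∈ s, w j * g j ^ 2 := by
    rw [mul_sum, ← sum_add_distrib, ← sum_add_distrib]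
    exact sum_congr rfl fun j _ => by ring
  rw [this]
  linarith

section Small

variable {X : Inst d N} {n : Node d N} {b : ℕ}

lemma Small.mono {P : Fin d → ℝ} {β β' : ℝ} (h : Small X n b P β) (hβ : β ≤ β') :
    Small X n b P β' := by
  have h2 := two_le_sg
  exact ⟨fun T => (h.1 T).trans (mul_le_mul_of_nonneg_right hβ (by unfold RA; positivity)),
    h.2.1.trans (mul_le_mul_of_nonneg_right hβ (by unfold RN; positivity)),
    h.2.2.trans (mul_le_mul_of_nonneg_right hβ (by unfold RO; positivity))⟩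

lemma Small.add (hn : NodeInv X n) {P Q : Fin d → ℝ} {β γ : ℝ} (hP : Small X n b P β)
    (hQ : Small X n b Q γ) : Small X n b (fun j => P j + Q j) (β + γ) := by
  have h1 : ∀ s : Finset (Fin d), √(∑ j ∈ s, (P j + Q j) ^ 2)
      ≤ √(∑ j ∈ s, P j ^ 2) + √(∑ j ∈ s, Q j ^ 2) := fun s => by
    simpa using sqrt_sum_add_le s (w := fun _ => 1) (fun _ _ => zero_le_one) P Q
  refine ⟨fun T => (h1 _).trans ?_, (h1 _).trans ?_,
    (sqrt_sum_add_le _ (fun j _ => zero_le_one.trans (hn.one_le_w j)) P Q).trans ?_⟩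
  · rw [add_mul]; exact add_le_add (hP.1 T) (hQ.1 T)
  · rw [add_mul]; exact add_le_add hP.2.1 hQ.2.1
  · rw [add_mul]; exact add_le_add hP.2.2 hQ.2.2

lemma Small.smul {P : Fin d → ℝ} {β : ℝ} (c : ℝ) (hP : Small X n b P β) :
    Small X n b (fun j => c * P j) (|c| * β) := by
  have h1 : ∀ (s : Finset (Fin d)) (w : Fin d → ℝ),
      √(∑ j ∈ s, w j * (c * P j) ^ 2) = |c| * √(∑ j ∈ s, w j * P j ^ 2) := fun s w => by
    rw [← Real.sqrt_sq_eq_abs, ← Real.sqrt_mul (sq_nonneg c), mul_sum]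
    congr 1
    exact sum_congr rfl fun j _ => by ring
  have h2 : ∀ (s : Finset (Fin d)),
      √(∑ j ∈ s, (c * P j) ^ 2) = |c| * √(∑ j ∈ s, P j ^ 2) := fun s => by
    simpa using h1 s fun _ => 1
  refine ⟨fun T => ?_, ?_, ?_⟩
  · rw [h2, mul_assoc]; exact mul_le_mul_of_nonneg_left (hP.1 T) (abs_nonneg c)
  · rw [h2, mul_assoc]; exact mul_le_mul_of_nonneg_left hP.2.1 (abs_nonneg c)
  · rw [h1, mul_assoc]; exact mul_le_mul_of_nonneg_left hP.2.2 (abs_nonneg c)

lemma Small.congr {P Q : Fin d → ℝ} {β : ℝ} (hP : Small X n b P β) (h : ∀ j, Q j = P j) :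
    Small X n b Q β := by
  rwa [show Q = P from funext h]

end Small

end Vale.Agent.P262.S2
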