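import Vale.Agent.P262.Gauss
import Vale.Agent.P262.Extra
import Vale.Agent.P262.S2.Const

/-!
P262 / S₂: the one-step chain for centred partial sums and the test functions with their Gaussian
expectations.
-/

namespace Vale.Agent.P262.S2

open MeasureTheory ProbabilityTheory Finset
open scoped RealInnerProductSpace NNReal

/-! ### The chain -/

/-- Weighted partial sums. -/
noncomputable def part {m n : ℕ} (U : Fin n → V m) (w : Fin n → ℝ) (k : ℕ) : V m :=
  ∑ i : Fin n with i.val < k, w i • U i

lemma part_castSucc {m n : ℕ} (U : Fin (n + 1) → V m) (w : Fin (n + 1) → ℝ) {k : ℕ}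
    (hk : k ≤ n) : part U w k = part (fun i => U i.castSucc) (fun i => w i.castSucc) k := by
  simp [part, Finset.sum_filter, Fin.sum_univ_castSucc, not_lt.2 hk]

lemma part_last {m n : ℕ} (U : Fin (n + 1) → V m) (w : Fin (n + 1) → ℝ) :
    part U w (n + 1) = part (fun i => U i.castSucc) (fun i => w i.castSucc) n
      + w (Fin.last n) • U (Fin.last n) := by
  unfold part
  rw [Finset.filter_true_of_mem (fun i _ => i.isLt), Fin.sum_univ_castSucc,
    Finset.filter_true_of_mem (fun i _ => i.isLt)]

/-- One step of the chain at standard deviation `sg`. -/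
lemma step_back {m : ℕ} {F : V m → ℝ} (hF : Adm F) {U : V m} (hU : ‖U‖ ≤ 3 / 2) {z : ℝ}
    (hz : |z| ≤ 1 / 2) :
    ∃ F' : V m → ℝ, Adm F' ∧
      (∀ x, min (F (x + (1 - z) • U)) (F (x + (-1 - z) • U)) ≤ F' x) ∧
      gE (fun g => F' (sg • g)) ≤ gE (fun g => F (sg • g)) := by
  have hsg : 0 < sg := lt_of_lt_of_le two_pos two_le_sg
  have hG : Adm fun y : V m => F (sg • y) := by simpa using hF.shift 0 sg
  have hu : ‖sg⁻¹ • U‖ ≤ tau := by
    rw [norm_smul, norm_inv, Real.norm_of_nonneg hsg.le, sg, inv_div, div_mul_eq_mul_div,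
      div_le_iff₀ two_pos]
    have := tau_pos
    nlinarith
  obtain ⟨f', hf', hmin, hstep⟩ := oneStep.choose_spec.2.2 m _ hG (sg⁻¹ • U) hu
  refine ⟨fun x => f' (sg⁻¹ • x + (-z) • (sg⁻¹ • U)), ?_, fun x => ?_, ?_⟩
  · simpa [add_comm] using hf'.shift ((-z) • (sg⁻¹ • U)) sg⁻¹
  · refine le_of_eq_of_le ?_ (hmin _)
    congr 2
    · match_scalars <;> field_simp
      ring
    · match_scalars <;> field_simp
      ring
  · have h := hstep ((-z) • (sg⁻¹ • U)) z hz
    simp only [smul_smul, inv_mul_cancel₀ hsg.ne', one_smul] at h ⊢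
    convert h using 3 with g g
    · rw [add_comm]
    · rw [← add_smul]; ring_nf; simp

/-- The one-step lemma applied along the sequence `U`, with a test after each prefix. -/
theorem chain {m n : ℕ} (U : Fin n → V m) (z : Fin n → ℝ) (hU : ∀ i, ‖U i‖ ≤ 3 / 2)
    (hz : ∀ i, |z i| ≤ 1 / 2) (f : V m → ℝ) (hf : Adm f) (p : ℕ → V m → ℝ)
    (hp : ∀ k, Adm (p k)) :
    ∃ ε : Fin n → ℝ, (∀ i, ε i = 1 ∨ ε i = -1) ∧
      f (part U (fun i => ε i - z i) n)
          + ∑ k ∈ Finset.range (n + 1), p k (part U (fun i => ε i - z i) k)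
        ≤ gE (fun g => f (sg • g)) + ∑ k ∈ Finset.range (n + 1), gE (fun g => p k (sg • g)) := by
  induction n generalizing f with
  | zero =>
    refine ⟨fun i => i.elim0, fun i => i.elim0, ?_⟩
    have h1 := le_gE' hf 0 sg
    have h2 := le_gE' (hp 0) 0 sg
    simp only [zero_add] at h1 h2
    simp only [part, Finset.univ_eq_empty, Finset.filter_empty, Finset.sum_empty,
      Finset.sum_range_succ, Finset.range_zero, zero_add]
    linarith
  | succ n ih =>
    obtain ⟨F', hF', hmin, hle⟩ :=
      step_back (hf.add (hp (n + 1))) (hU (Fin.last n)) (hz (Fin.last n))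
    have hsum : gE (fun g => f (sg • g) + p (n + 1) (sg • g))
        = gE (fun g => f (sg • g)) + gE (fun g => p (n + 1) (sg • g)) :=
      gE_fadd (by simpa using hf.shift 0 sg) (by simpa using (hp (n + 1)).shift 0 sg)
    rw [hsum] at hle
    obtain ⟨ε, hε, hb⟩ := ih (fun i => U i.castSucc) (fun i => z i.castSucc)
      (fun i => hU _) (fun i => hz _) F' hF'
    set x := part (fun i => U i.castSucc) (fun i => ε i - z i.castSucc) n
    have hx := hmin x
    obtain ⟨e, he, hex⟩ : ∃ e : ℝ, (e = 1 ∨ e = -1) ∧
        f (x + (e - z (Fin.last n)) • U (Fin.last n))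
          + p (n + 1) (x + (e - z (Fin.last n)) • U (Fin.last n)) ≤ F' x := by
      rcases min_le_iff.1 hx with h | h
      · exact ⟨1, Or.inl rfl, h⟩
      · exact ⟨-1, Or.inr rfl, h⟩
    refine ⟨Fin.snoc ε e, fun i => ?_, ?_⟩
    · induction i using Fin.lastCases with
      | last => simpa using he
      | cast i => simpa using hε i
    · have hlast : part U (fun i => (Fin.snoc ε e : Fin (n + 1) → ℝ) i - z i) (n + 1)
          = x + (e - z (Fin.last n)) • U (Fin.last n) := by
        rw [part_last]
        simp [x]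
      have hpre : ∀ k ∈ Finset.range (n + 1),
          p k (part U (fun i => (Fin.snoc ε e : Fin (n + 1) → ℝ) i - z i) k)
            = p k (part (fun i => U i.castSucc) (fun i => ε i - z i.castSucc) k) := by
        intro k hk
        rw [part_castSucc U _ (Nat.lt_succ_iff.1 (Finset.mem_range.1 hk))]
        simp
      rw [Finset.sum_range_succ _ (n + 1), Finset.sum_range_succ _ (n + 1),
        Finset.sum_congr rfl hpre, hlast]
      linarith

/-! ### Gaussian facts -/

section Gaussian

variable {m : ℕ}

lemma integrable_exp_inner (b : V m) :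
    Integrable (fun g => Real.exp ⟪b, g⟫) (stdGaussian (V m)) :=
  (lintegral_ofReal_ne_top_iff_integrable (by fun_prop)
    (Filter.Eventually.of_forall fun _ => (Real.exp_pos _).le)).1
    (by rw [lintegral_exp_inner]; exact ENNReal.ofReal_ne_top)

lemma gE_exp_inner (b : V m) :
    gE (fun g => Real.exp ⟪b, g⟫) = Real.exp (‖b‖ ^ 2 / 2) := by
  have h := ofReal_integral_eq_lintegral_ofReal (integrable_exp_inner b)
    (Filter.Eventually.of_forall fun _ => (Real.exp_pos _).le)
  rw [lintegral_exp_inner] at h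
  exact (ENNReal.ofReal_eq_ofReal_iff (integral_nonneg fun _ => (Real.exp_pos _).le)
    (Real.exp_pos _).le).1 h

lemma gE_sq_inner (b : V m) : gE (fun g => ⟪b, g⟫ ^ 2) = ‖b‖ ^ 2 := by
  have h := variance_dual_stdGaussian (innerSL ℝ b : StrongDual ℝ (V m))
  rw [variance_of_integral_eq_zero (ContinuousLinearMap.continuous _).aemeasurable
    (by simpa [gE] using gE_linear b), innerSL_apply_norm] at h
  simpa [gE] using h

lemma integrable_norm_sq : Integrable (fun g : V m => ‖g‖ ^ 2) (stdGaussian (V m)) :=
  ((IsGaussian.memLp_two_id (μ := stdGaussian (V m))).norm).integrable_sq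

lemma integrable_sq_inner (b : V m) :
    Integrable (fun g => ⟪b, g⟫ ^ 2) (stdGaussian (V m)) := by
  refine (integrable_norm_sq.const_mul (‖b‖ ^ 2)).mono' (by fun_prop)
    (Filter.Eventually.of_forall fun g => ?_)
  rw [Real.norm_eq_abs, abs_pow, ← mul_pow]
  exact pow_le_pow_left₀ (abs_nonneg _) (abs_real_inner_le_norm b g) 2

lemma gE_comp_isometry (e : V m ≃ₗᵢ[ℝ] V m) (f : V m → ℝ) :
    gE (fun g => f (e g)) = gE f := by
  have h : (stdGaussian (V m)).map e = stdGaussian (V m) := stdGaussian_map _
  have := integral_map_equiv (μ := stdGaussian (V m)) e.toHomeomorph.toMeasurableEquiv f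
  simp only [Homeomorph.toMeasurableEquiv_coe, LinearIsometryEquiv.coe_toHomeomorph] at this
  rw [h] at this
  simp [gE, this]

/-- Change of the sign of one coordinate. -/
noncomputable def flipCoord (i : Fin m) : V m ≃ₗᵢ[ℝ] V m :=
  LinearIsometryEquiv.piLpCongrRight 2
    fun j => if j = i then LinearIsometryEquiv.neg ℝ else LinearIsometryEquiv.refl ℝ ℝ

lemma flipCoord_apply (i j : Fin m) (x : V m) :
    flipCoord i x j = if j = i then -(x j) else x j := by
  rw [flipCoord, LinearIsometryEquiv.piLpCongrRight_apply]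
  by_cases h : j = i <;> simp [h]

lemma adm_abs_inner (a : V m) : Adm fun x => |⟪a, x⟫| := by
  have := (Adm.linear a).max (Adm.linear (-a))
  simpa [inner_neg_left, abs_eq_max_neg] using this

end Gaussian

/-! ### One linear form -/

theorem gE_abs_inner {m : ℕ} (a : V m) {σ : ℝ} (hσ : 0 ≤ σ) :
    gE (fun g => |⟪a, σ • g⟫|) ≤ σ * ‖a‖ := by
  refine le_of_forall_pos_le_add fun δ hδ => ?_
  set b := σ • a with hb
  set t := ‖b‖ + δ with ht
  have ht0 : 0 < t := by positivity
  have hbn : ‖b‖ = σ * ‖a‖ := by rw [hb, norm_smul, Real.norm_of_nonneg hσ]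
  have hsw : ∀ g : V m, ⟪a, σ • g⟫ = ⟪b, g⟫ := fun g => by
    rw [hb, real_inner_smul_right, real_inner_smul_left]
  simp only [hsw]
  calc gE (fun g => |⟪b, g⟫|) ≤ ∫ g, (⟪b, g⟫ ^ 2 / t + t) / 2 ∂stdGaussian (V m) := by
        refine integral_mono (adm_abs_inner b).integrable
          ((((integrable_sq_inner b).div_const t).add (integrable_const t)).div_const 2) fun g => ?_
        have := mul_nonneg (inv_nonneg.2 ht0.le) (sq_nonneg (|⟪b, g⟫| - t))
        rw [sub_sq, sq_abs] at this
        field_simp at this ⊢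
        linarith
    _ = (‖b‖ ^ 2 / t + t) / 2 := by
        rw [integral_div, integral_add ((integrable_sq_inner b).div_const t) (integrable_const t),
          integral_div, integral_const, probReal_univ, one_smul]
        simp only [← gE_sq_inner b, gE]
    _ ≤ t := by
        have : ‖b‖ ^ 2 / t ≤ t := by
          rw [div_le_iff₀ ht0]
          nlinarith [norm_nonneg b]
        linarith
    _ = σ * ‖a‖ + δ := by rw [ht, hbn]

theorem gE_exc_inner {m : ℕ} (a : V m) {σ s : ℝ} (hσ : 0 ≤ σ) (hs : 0 < s) (ha : σ * ‖a‖ ≤ s) :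
    gE (fun g => max (|⟪a, σ • g⟫| - 1) 0) ≤ 2 * s ^ 2 * Real.exp (-(1 / (2 * s ^ 2))) := by
  set l := (s ^ 2)⁻¹ with hl
  have hl0 : 0 < l := by positivity
  set b := (l * σ) • a with hb
  have hpt : ∀ g : V m, max (|⟪a, σ • g⟫| - 1) 0
      ≤ Real.exp (-l) / l * (Real.exp ⟪b, g⟫ + Real.exp ⟪-b, g⟫) := by
    intro g
    set x := ⟪a, σ • g⟫ with hx
    have hbx : ⟪b, g⟫ = l * x := by
      rw [hx, hb, real_inner_smul_left, real_inner_smul_right]; ring
    refine max_le ?_ (by positivity)
    rw [inner_neg_left, hbx]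
    have h1 : l * (|x| - 1) ≤ Real.exp (l * (|x| - 1)) := by
      linarith [Real.add_one_le_exp (l * (|x| - 1))]
    have h2 : Real.exp (l * (|x| - 1))
        ≤ Real.exp (-l) * (Real.exp (l * x) + Real.exp (-(l * x))) := by
      rw [mul_sub, mul_one, sub_eq_neg_add, Real.exp_add]
      refine mul_le_mul_of_nonneg_left ?_ (Real.exp_pos _).le
      rcases abs_choice x with h | h <;> rw [h]
      · linarith [Real.exp_pos (-(l * x))]
      · rw [mul_neg]; linarith [Real.exp_pos (l * x)]
    rw [div_mul_eq_mul_div, le_div_iff₀ hl0]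
    linarith
  calc gE (fun g => max (|⟪a, σ • g⟫| - 1) 0)
      ≤ ∫ g, Real.exp (-l) / l * (Real.exp ⟪b, g⟫ + Real.exp ⟪-b, g⟫) ∂stdGaussian (V m) :=
        integral_mono_of_nonneg (Filter.Eventually.of_forall fun g => le_max_right _ _)
          (((integrable_exp_inner b).add (integrable_exp_inner (-b))).const_mul _)
          (Filter.Eventually.of_forall hpt)
    _ = Real.exp (-l) / l * (2 * Real.exp (‖b‖ ^ 2 / 2)) := by
        rw [integral_const_mul, integral_add (integrable_exp_inner b) (integrable_exp_inner (-b))]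
        have h1 := gE_exp_inner b
        have h2 := gE_exp_inner (-b)
        simp only [gE, norm_neg] at h1 h2
        rw [h1, h2]; ring
    _ ≤ Real.exp (-l) / l * (2 * Real.exp (l / 2)) := by
        have hbn : ‖b‖ ^ 2 ≤ l := by
          rw [hb, norm_smul, Real.norm_of_nonneg (mul_nonneg hl0.le hσ), mul_assoc, mul_pow]
          calc l ^ 2 * (σ * ‖a‖) ^ 2 ≤ l ^ 2 * s ^ 2 := by gcongr
            _ = l := by rw [hl]; field_simp
        gcongr
    _ = 2 * s ^ 2 * (Real.exp (-l) * Real.exp (l / 2)) := by rw [hl]; field_simp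
    _ = 2 * s ^ 2 * Real.exp (-(1 / (2 * s ^ 2))) := by
        rw [← Real.exp_add, hl]; congr 2; field_simp; ring

/-! ### Capped exponential -/

/-- Exponential, continued linearly above `H`. -/
noncomputable def capExp (H s : ℝ) : ℝ :=
  if s ≤ H then Real.exp s else Real.exp H * (1 + s - H)

theorem capExp_le_exp (H s : ℝ) : capExp H s ≤ Real.exp s := by
  unfold capExp
  split_ifs with h
  · rfl
  · have := mul_le_mul_of_nonneg_left (Real.add_one_le_exp (s - H)) (Real.exp_pos H).le
    rw [← Real.exp_add, add_sub_cancel] at this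
    linarith

theorem capExp_nonneg (H s : ℝ) : 0 ≤ capExp H s := by
  unfold capExp
  split_ifs with h
  · exact (Real.exp_pos s).le
  · exact mul_nonneg (Real.exp_pos H).le (by linarith)

theorem capExp_eq_of_lt {H s : ℝ} (h : capExp H s < Real.exp H) : capExp H s = Real.exp s := by
  by_contra hne
  unfold capExp at h hne
  split_ifs at h hne with hs
  · exact hne rfl
  · nlinarith [Real.exp_pos H]

lemma capExp_tangent {H t : ℝ} (ht : t ≤ H) (s : ℝ) :
    Real.exp t * (1 + s - t) ≤ capExp H s := by
  have key : ∀ r : ℝ, Real.exp t * (1 + r - t) ≤ Real.exp r := fun r => by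
    have := mul_le_mul_of_nonneg_left (Real.add_one_le_exp (r - t)) (Real.exp_pos t).le
    rw [← Real.exp_add, add_sub_cancel] at this
    linarith
  unfold capExp
  split_ifs with h
  · exact key s
  · nlinarith [key H, Real.exp_le_exp.2 ht]

lemma capExp_eq (H s : ℝ) :
    capExp H s = Real.exp (min s H) * (1 + s - min s H) := by
  unfold capExp
  split_ifs with h
  · simp [h]
  · rw [min_eq_right (le_of_not_ge h)]

lemma convexOn_capExp (H : ℝ) : ConvexOn ℝ Set.univ (capExp H) := by
  refine ⟨convex_univ, fun x _ y _ a b ha hb hab => ?_⟩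
  simp only [smul_eq_mul]
  rw [capExp_eq H (a * x + b * y)]
  set t := min (a * x + b * y) H
  have h1 := mul_le_mul_of_nonneg_left (capExp_tangent (min_le_right _ _ : t ≤ H) x) ha
  have h2 := mul_le_mul_of_nonneg_left (capExp_tangent (min_le_right _ _ : t ≤ H) y) hb
  obtain rfl : b = 1 - a := by linarith
  linarith

lemma lipschitz_capExp (H : ℝ) : LipschitzWith (Real.exp H).toNNReal (capExp H) := by
  refine LipschitzWith.of_le_add_mul _ fun x y => ?_
  rw [Real.coe_toNNReal _ (Real.exp_pos H).le, Real.dist_eq, capExp_eq H x]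
  set t := min x H
  have h1 := capExp_tangent (min_le_right _ _ : t ≤ H) y
  have h2 : Real.exp t * (x - y) ≤ Real.exp H * |x - y| :=
    (mul_le_mul_of_nonneg_left (le_abs_self _) (Real.exp_pos t).le).trans
      (mul_le_mul_of_nonneg_right (Real.exp_le_exp.2 (min_le_right _ _)) (abs_nonneg _))
  linarith

theorem adm_capExp_affine {m : ℕ} (H c : ℝ) (a : V m) :
    Adm (fun x => capExp H (c + ⟪a, x⟫)) := by
  refine ⟨⟨convex_univ, fun x _ y _ s t hs ht hst => ?_⟩, (Real.exp H).toNNReal * ‖a‖₊, ?_⟩
  · have h := (convexOn_capExp H).2 (Set.mem_univ (c + ⟪a, x⟫)) (Set.mem_univ (c + ⟪a, y⟫)) hs ht hst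
    refine le_of_eq_of_le (congrArg (capExp H) ?_) h
    rw [inner_add_right, real_inner_smul_right, real_inner_smul_right, smul_eq_mul, smul_eq_mul]
    obtain rfl : t = 1 - s := by linarith
    ring
  · exact (lipschitz_capExp H).comp (LipschitzWith.of_dist_le_mul fun x y => by
      rw [Real.dist_eq, add_sub_add_left_eq_sub, ← inner_sub_right, dist_eq_norm]
      exact abs_real_inner_le_norm a (x - y))

theorem gE_capExp {m : ℕ} (H c : ℝ) (a : V m) {σ : ℝ} (_hσ : 0 ≤ σ) :
    gE (fun g => capExp H (c + ⟪a, σ • g⟫)) ≤ Real.exp (c + σ ^ 2 * ‖a‖ ^ 2 / 2) := by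
  calc gE (fun g => capExp H (c + ⟪a, σ • g⟫))
      ≤ ∫ g, Real.exp c * Real.exp ⟪σ • a, g⟫ ∂stdGaussian (V m) := by
        refine integral_mono_of_nonneg (Filter.Eventually.of_forall fun g => capExp_nonneg _ _)
          ((integrable_exp_inner (σ • a)).const_mul _) (Filter.Eventually.of_forall fun g => ?_)
        simp only [← Real.exp_add, real_inner_smul_left, ← real_inner_smul_right]
        exact capExp_le_exp _ _
    _ = Real.exp c * Real.exp (‖σ • a‖ ^ 2 / 2) := by
        rw [integral_const_mul]
        exact congrArg _ (gE_exp_inner (σ • a))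
    _ = Real.exp (c + σ ^ 2 * ‖a‖ ^ 2 / 2) := by
        rw [← Real.exp_add, norm_smul, mul_pow, Real.norm_eq_abs, sq_abs]

/-! ### Norm of some coordinates -/

/-- Euclidean norm of some coordinates. -/
noncomputable def cnorm {m : ℕ} (S : Finset (Fin m)) (x : V m) : ℝ := √(∑ j ∈ S, x j ^ 2)

/-- The coordinate subspace of `S`. -/
noncomputable def coordSpace {m : ℕ} (S : Finset (Fin m)) : Submodule ℝ (V m) :=
  Submodule.span ℝ ((S.image fun j => EuclideanSpace.single j (1 : ℝ) : Finset (V m)) : Set (V m))

lemma finrank_coordSpace {m : ℕ} (S : Finset (Fin m)) :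
    Module.finrank ℝ (coordSpace S) ≤ S.card :=
  (finrank_span_finset_le_card _).trans Finset.card_image_le

lemma starProjection_coordSpace {m : ℕ} (S : Finset (Fin m)) (x : V m) :
    (coordSpace S).starProjection x = WithLp.toLp 2 fun j => if j ∈ S then x j else 0 := by
  apply Submodule.eq_starProjection_of_mem_of_inner_eq_zero
  · have : (WithLp.toLp 2 fun j => if j ∈ S then x j else 0)
        = ∑ j ∈ S, x j • EuclideanSpace.single j (1 : ℝ) := by
      ext i
      simp [Finset.sum_apply, Pi.single_apply, mul_ite]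
    rw [this]
    exact Submodule.sum_mem _ fun j hj => Submodule.smul_mem _ _
      (Submodule.subset_span (Finset.mem_image_of_mem _ hj))
  · intro w hw
    induction hw using Submodule.span_induction with
    | mem w hw =>
      obtain ⟨j, hj, rfl⟩ := Finset.mem_image.1 hw
      rw [real_inner_comm, EuclideanSpace.inner_single_left]
      simp [hj]
    | zero => simp
    | add u v _ _ hu hv => rw [inner_add_right, hu, hv, add_zero]
    | smul r u _ hu => rw [real_inner_smul_right, hu, mul_zero]

lemma cnorm_eq {m : ℕ} (S : Finset (Fin m)) (x : V m) :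
    cnorm S x = ‖(coordSpace S).starProjection x‖ := by
  rw [starProjection_coordSpace, EuclideanSpace.norm_eq, cnorm]
  simp [apply_ite (fun r : ℝ => r ^ 2), Finset.sum_ite_mem]

theorem adm_cnorm {m : ℕ} (S : Finset (Fin m)) : Adm (cnorm S) := by
  have h := Adm.norm_clm (coordSpace S).starProjection
  simpa [← cnorm_eq] using h

theorem gE_cnorm_exc {m : ℕ} (S : Finset (Fin m)) {σ R : ℝ} (hσ : 0 < σ) (hR : 4 * σ ≤ R) :
    gE (fun g => max (cnorm S (σ • g) - R) 0)
      ≤ 2 * σ * Real.exp ((S.card : ℝ) / 2 - R ^ 2 / (16 * σ ^ 2)) := by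
  have h := tail (coordSpace S) (ContinuousLinearMap.id ℝ (V m)) (fun x => le_rfl) 1 zero_le_one
    one_le_two 0 (R / σ) (by rw [le_div_iff₀ hσ]; linarith)
  simp only [ContinuousLinearMap.id_apply, map_zero, norm_zero, sub_zero, one_smul, zero_add] at h
  have he : (fun g : V m => max (cnorm S (σ • g) - R) 0)
      = fun g => σ * max (‖(coordSpace S).starProjection g‖ - R / σ) 0 := by
    funext g
    rw [cnorm_eq, map_smul, norm_smul, Real.norm_of_nonneg hσ.le, mul_max_of_nonneg _ _ hσ.le,
      mul_sub, mul_zero, mul_div_cancel₀ _ hσ.ne']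
  rw [he, gE_cmul]
  refine (mul_le_mul_of_nonneg_left h hσ.le).trans ?_
  rw [mul_comm 2 σ, mul_assoc]
  refine mul_le_mul_of_nonneg_left (mul_le_mul_of_nonneg_left (Real.exp_le_exp.2 ?_) two_pos.le) hσ.le
  have hc : (Module.finrank ℝ (coordSpace S) : ℝ) ≤ S.card := by
    exact_mod_cast finrank_coordSpace S
  rw [div_pow, div_div, mul_comm (σ ^ 2) 16]
  linarith

/-! ### Running maximum of prefix norms -/

/-- Largest norm of a prefix of independent coordinates pushed to `ℝ^q`. -/
noncomputable def maxPre {m n q : ℕ} (idx : Fin n → Fin m) (c : Fin n → Fin q → ℝ) (x : V m) : ℝ :=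
  (Finset.range (n + 1)).sup' Finset.nonempty_range_add_one
    fun k => √(∑ j, (∑ i : Fin n with i.val < k, c i j * x (idx i)) ^ 2)

/-- The prefix as a linear map. -/
noncomputable def preL {m n q : ℕ} (idx : Fin n → Fin m) (c : Fin n → Fin q → ℝ) (k : ℕ) :
    V m →L[ℝ] V q :=
  ∑ i : Fin n with i.val < k,
    (EuclideanSpace.proj (idx i) : V m →L[ℝ] ℝ).smulRight (WithLp.toLp 2 (c i) : V q)

section MaxPre

variable {m n q : ℕ} (idx : Fin n → Fin m) (c : Fin n → Fin q → ℝ)

lemma preL_apply (k : ℕ) (x : V m) (j : Fin q) :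
    preL idx c k x j = ∑ i : Fin n with i.val < k, c i j * x (idx i) := by
  simp [preL, mul_comm]

lemma preL_apply' (k : ℕ) (x : V m) :
    preL idx c k x = ∑ i : Fin n with i.val < k, x (idx i) • (WithLp.toLp 2 (c i) : V q) := by
  simp [preL]

lemma maxPre_eq (x : V m) :
    maxPre idx c x = (Finset.range (n + 1)).sup' Finset.nonempty_range_add_one
      fun k => ‖preL idx c k x‖ := by
  simp only [maxPre, EuclideanSpace.norm_eq, preL_apply, Real.norm_eq_abs, sq_abs]

theorem adm_maxPre : Adm (maxPre idx c) := by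
  have hk : ∀ k, Adm fun x => ‖preL idx c k x‖ := fun k =>
    ⟨convexOn_univ_norm.comp_linearMap (preL idx c k).toLinearMap, _,
      lipschitzWith_one_norm.comp (preL idx c k).lipschitz⟩
  have e : maxPre idx c = (Finset.range (n + 1)).sup' Finset.nonempty_range_add_one
      fun k x => ‖preL idx c k x‖ := by
    funext x
    rw [maxPre_eq, Finset.sup'_apply]
  rw [e]
  exact Finset.sup'_induction _ _ (fun a ha b hb => ha.max hb) fun k _ => hk k

lemma maxPre_smul_le {σ : ℝ} (hσ : 0 ≤ σ) (x : V m) :
    maxPre idx c (σ • x) ≤ σ * maxPre idx c x := by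
  rw [maxPre_eq, maxPre_eq]
  refine Finset.sup'_le _ _ fun k hk => ?_
  rw [map_smul, norm_smul, Real.norm_of_nonneg hσ]
  exact mul_le_mul_of_nonneg_left (Finset.le_sup' (fun k => ‖preL idx c k x‖) hk) hσ

end MaxPre

/-- Running maximum. -/
noncomputable def runMax (y : ℕ → ℝ) : ℕ → ℝ
  | 0 => y 0
  | k + 1 => max (runMax y k) (y (k + 1))

lemma le_runMax (y : ℕ → ℝ) {j k : ℕ} (h : j ≤ k) : y j ≤ runMax y k := by
  induction h with
  | refl => cases j with
    | zero => exact le_rfl
    | succ j => exact le_max_right _ _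
  | step _ ih => exact ih.trans (le_max_left _ _)

lemma runMax_congr {y y' : ℕ → ℝ} (k : ℕ) (h : ∀ j ≤ k, y j = y' j) :
    runMax y k = runMax y' k := by
  induction k with
  | zero => exact h 0 le_rfl
  | succ k ih =>
    simp only [runMax]
    rw [ih fun j hj => h j (hj.trans k.le_succ), h (k + 1) le_rfl]

lemma runMax_le_sum {y : ℕ → ℝ} (h : ∀ j, 0 ≤ y j) (k : ℕ) :
    runMax y k ≤ ∑ j ∈ Finset.range (k + 1), y j := by
  induction k with
  | zero => simp [runMax]
  | succ k ih =>
    rw [Finset.sum_range_succ]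
    have := Finset.sum_nonneg (s := Finset.range (k + 1)) fun j _ => h j
    exact max_le (ih.trans (le_add_of_nonneg_right (h _))) (le_add_of_nonneg_left this)

/-- Pathwise form of Doob's maximal inequality. -/
lemma doob_path {y : ℕ → ℝ} (h0 : y 0 = 0) (n : ℕ) :
    runMax y n ^ 2 ≤ 4 * y n ^ 2
      - 4 * ∑ k ∈ Finset.range n, runMax y k * (y (k + 1) - y k) := by
  have inv : ∀ j, ∑ k ∈ Finset.range j, runMax y k * (y (k + 1) - y k)
      ≤ runMax y j * y j - runMax y j ^ 2 / 2 := by
    intro j
    induction j with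
    | zero => simp [runMax, h0]
    | succ j ih =>
      rw [Finset.sum_range_succ]
      simp only [runMax]
      rcases le_total (runMax y j) (y (j + 1)) with h | h
      · rw [max_eq_right h]
        nlinarith [sq_nonneg (runMax y j - y (j + 1))]
      · rw [max_eq_left h]
        nlinarith
  nlinarith [inv n, sq_nonneg (runMax y n - 2 * y n)]

theorem gE_maxPre {m n q : ℕ} (idx : Fin n → Fin m) (hidx : Function.Injective idx)
    (c : Fin n → Fin q → ℝ) {σ : ℝ} (hσ : 0 ≤ σ) :
    gE (fun g => maxPre idx c (σ • g)) ≤ 2 * σ * √(∑ i, ∑ j, c i j ^ 2) := by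
  set Q := ∑ i, ∑ j, c i j ^ 2 with hQ
  suffices h : gE (maxPre idx c) ≤ 2 * √Q by
    calc gE (fun g => maxPre idx c (σ • g)) ≤ gE (fun g => σ * maxPre idx c g) :=
          gE_mono (by simpa using (adm_maxPre idx c).shift 0 σ)
            ((adm_maxPre idx c).const_mul hσ) (maxPre_smul_le idx c hσ)
      _ = σ * gE (maxPre idx c) := gE_cmul _ _
      _ ≤ σ * (2 * √Q) := mul_le_mul_of_nonneg_left h hσ
      _ = 2 * σ * √Q := by ring
  set Y : V m → ℕ → ℝ := fun x k => ‖preL idx c k x‖ with hY
  set col : Fin n → V q := fun i => WithLp.toLp 2 (c i) with hcol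
  set φ : Fin n → V m → ℝ := fun i x =>
    runMax (Y x) i * (‖preL idx c i x‖⁻¹ * ⟪preL idx c i x, col i⟫) with hφ
  -- the increments
  have hsucc : ∀ (i : Fin n) x, preL idx c (i + 1) x = preL idx c i x + x (idx i) • col i := by
    intro i x
    rw [preL_apply', preL_apply']
    have e : (univ.filter fun j : Fin n => j.val < i.val + 1)
        = insert i (univ.filter fun j : Fin n => j.val < i.val) := by
      ext j
      simp only [Finset.mem_filter, Finset.mem_univ, true_and, Finset.mem_insert, Fin.ext_iff]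
      omega
    rw [e, Finset.sum_insert (by simp), add_comm]
  have hinc : ∀ (i : Fin n) x,
      x (idx i) * φ i x ≤ runMax (Y x) i * (Y x (i + 1) - Y x i) := by
    intro i x
    have hM : 0 ≤ runMax (Y x) i := (norm_nonneg _).trans (le_runMax (Y x) le_rfl)
    have key : x (idx i) * (‖preL idx c i x‖⁻¹ * ⟪preL idx c i x, col i⟫)
        ≤ Y x (i + 1) - Y x i := by
      simp only [hY, hsucc]
      set S := preL idx c i x
      rcases eq_or_ne S 0 with h | h
      · simp [h]
      · have hpos := norm_pos_iff.2 h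
        have := real_inner_le_norm S (S + x (idx i) • col i)
        rw [inner_add_right, real_inner_self_eq_norm_sq, real_inner_smul_right] at this
        rw [← mul_assoc, mul_comm (x (idx i)), mul_assoc, inv_mul_le_iff₀ hpos]
        linarith
    calc x (idx i) * φ i x
        = runMax (Y x) i * (x (idx i) * (‖preL idx c i x‖⁻¹ * ⟪preL idx c i x, col i⟫)) := by
          simp only [hφ]; ring
      _ ≤ _ := mul_le_mul_of_nonneg_left key hM
  -- the martingale terms
  have hpre : ∀ (i : Fin n) x k, k ≤ i.val →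
      preL idx c k (flipCoord (idx i) x) = preL idx c k x := by
    intro i x k hk
    rw [preL_apply', preL_apply']
    refine Finset.sum_congr rfl fun j hj => ?_
    have hj' : j.val < i.val := lt_of_lt_of_le (Finset.mem_filter.1 hj).2 hk
    rw [flipCoord_apply, if_neg]
    intro h
    rw [hidx h] at hj'
    exact lt_irrefl _ hj'
  have hzero : ∀ i : Fin n, gE (fun x => x (idx i) * φ i x) = 0 := by
    intro i
    have h := gE_comp_isometry (flipCoord (idx i)) (fun x => x (idx i) * φ i x)
    have e : ∀ x, flipCoord (idx i) x (idx i) * φ i (flipCoord (idx i) x)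
        = -(x (idx i) * φ i x) := by
      intro x
      simp only [hφ, flipCoord_apply, if_true, hpre i x i le_rfl]
      rw [runMax_congr (y := Y (flipCoord (idx i) x)) (y' := Y x) i.val fun j hj => by
        simp only [hY, hpre i x j hj]]
      ring
    simp only [e] at h
    simp only [gE, integral_neg] at h ⊢
    linarith
  have hint : ∀ i : Fin n, Integrable (fun x => x (idx i) * φ i x) (stdGaussian (V m)) := by
    intro i
    have hmeas : Measurable fun x => x (idx i) * φ i x := by
      have hM : ∀ k, Measurable fun x => runMax (Y x) k := by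
        intro k
        induction k with
        | zero => exact (preL idx c 0).continuous.norm.measurable
        | succ k ih => exact ih.max (preL idx c (k + 1)).continuous.norm.measurable
      have := hM i.val
      simp only [hφ]
      fun_prop
    refine (integrable_norm_sq.const_mul
      ((∑ j ∈ Finset.range (i.val + 1), ‖preL idx c j‖) * ‖col i‖)).mono'
      hmeas.aestronglyMeasurable (Filter.Eventually.of_forall fun x => ?_)
    have h1 : |x (idx i)| ≤ ‖x‖ := by simpa using PiLp.norm_apply_le x (idx i)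
    have h2 : runMax (Y x) i ≤ (∑ j ∈ Finset.range (i.val + 1), ‖preL idx c j‖) * ‖x‖ := by
      refine (runMax_le_sum (y := Y x) (fun j => norm_nonneg _) i.val).trans ?_
      rw [Finset.sum_mul]
      exact Finset.sum_le_sum fun j _ => (preL idx c j).le_opNorm x
    have h3 : |‖preL idx c i x‖⁻¹ * ⟪preL idx c i x, col i⟫| ≤ ‖col i‖ := by
      rw [abs_mul, abs_inv, abs_norm]
      rcases eq_or_ne (preL idx c i x) 0 with h | h
      · simp [h]
      · rw [inv_mul_le_iff₀ (norm_pos_iff.2 h)]
        exact abs_real_inner_le_norm _ _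
    have hM : 0 ≤ runMax (Y x) i := (norm_nonneg _).trans (le_runMax (Y x) le_rfl)
    simp only [hφ, Real.norm_eq_abs, abs_mul, abs_of_nonneg hM] at h3 ⊢
    calc _ ≤ ‖x‖ * ((∑ j ∈ Finset.range (i.val + 1), ‖preL idx c j‖) * ‖x‖ * ‖col i‖) := by
          gcongr
      _ = _ := by ring
  -- second moment of the final value
  set b : Fin q → V m := fun j => ∑ i, c i j • EuclideanSpace.single (idx i) (1 : ℝ) with hb
  have hYn : ∀ x, Y x n ^ 2 = ∑ j, ⟪b j, x⟫ ^ 2 := by
    intro x
    simp only [hY, EuclideanSpace.real_norm_sq_eq, preL_apply]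
    refine Finset.sum_congr rfl fun j _ => ?_
    congr 1
    simp [hb, sum_inner, real_inner_smul_left, EuclideanSpace.inner_single_left,
      Finset.filter_true_of_mem]
  have hbn : ∀ j, ‖b j‖ ^ 2 = ∑ i, c i j ^ 2 := by
    intro j
    have ho := (EuclideanSpace.basisFun (Fin m) ℝ).orthonormal.comp idx hidx
    have := ho.inner_sum (fun i => c i j) (fun i => c i j) univ
    simp only [Function.comp_apply, EuclideanSpace.basisFun_apply] at this
    rw [← real_inner_self_eq_norm_sq]
    simpa [hb, sq] using this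
  have hintY : Integrable (fun x => Y x n ^ 2) (stdGaussian (V m)) := by
    simp only [hYn]
    exact integrable_finsetSum _ fun j _ => integrable_sq_inner (b j)
  have hEY : ∫ x, Y x n ^ 2 ∂stdGaussian (V m) = Q := by
    simp only [hYn]
    rw [integral_finsetSum _ fun j _ => integrable_sq_inner (b j), hQ, Finset.sum_comm]
    exact Finset.sum_congr rfl fun j _ => (gE_sq_inner (b j)).trans (hbn j)
  have hintS : Integrable (fun x => ∑ i : Fin n, x (idx i) * φ i x) (stdGaussian (V m)) :=
    integrable_finsetSum _ fun i _ => hint i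
  refine le_of_forall_pos_le_add fun δ hδ => ?_
  set t := 2 * √Q + δ with ht
  have ht0 : 0 < t := by positivity
  calc gE (maxPre idx c)
      ≤ ∫ x, ((4 * Y x n ^ 2 - 4 * ∑ i : Fin n, x (idx i) * φ i x) / t + t) / 2
          ∂stdGaussian (V m) := by
        refine integral_mono (adm_maxPre idx c).integrable
          (((((hintY.const_mul 4).sub (hintS.const_mul 4)).div_const t).add
            (integrable_const t)).div_const 2) fun x => ?_
        have h1 : maxPre idx c x ≤ runMax (Y x) n := by
          rw [maxPre_eq]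
          exact Finset.sup'_le _ _ fun k hk =>
            le_runMax (Y x) (Nat.lt_succ_iff.1 (Finset.mem_range.1 hk))
        have h2 := doob_path (y := Y x) (by simp [hY, preL]) n
        rw [← Fin.sum_univ_eq_sum_range (fun k => runMax (Y x) k * (Y x (k + 1) - Y x k)) n] at h2
        have h3 := Finset.sum_le_sum (s := univ) fun i _ => hinc i x
        have h4 : runMax (Y x) n ^ 2 / t
            ≤ (4 * Y x n ^ 2 - 4 * ∑ i : Fin n, x (idx i) * φ i x) / t := by
          gcongr
          linarith
        have h5 : 2 * runMax (Y x) n ≤ runMax (Y x) n ^ 2 / t + t := by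
          rw [div_add' _ _ _ ht0.ne', le_div_iff₀ ht0]
          nlinarith [sq_nonneg (runMax (Y x) n - t)]
        linarith
    _ = (4 * Q / t + t) / 2 := by
        have hS : ∫ x, ∑ i : Fin n, x (idx i) * φ i x ∂stdGaussian (V m) = 0 := by
          rw [integral_finsetSum _ fun i _ => hint i]
          exact Finset.sum_eq_zero fun i _ => hzero i
        have i1 : Integrable (fun x => 4 * Y x n ^ 2 - 4 * ∑ i : Fin n, x (idx i) * φ i x)
            (stdGaussian (V m)) := (hintY.const_mul 4).sub (hintS.const_mul 4)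
        rw [integral_div, integral_add (i1.div_const t) (integrable_const t), integral_div,
          integral_sub (hintY.const_mul 4) (hintS.const_mul 4), integral_const_mul,
          integral_const_mul, hEY, hS, integral_const, probReal_univ, one_smul, mul_zero, sub_zero]
    _ ≤ t := by
        have : 4 * Q / t ≤ t := by
          rw [div_le_iff₀ ht0]
          have hQ0 : 0 ≤ Q := by positivity
          nlinarith [Real.mul_self_sqrt hQ0, Real.sqrt_nonneg Q]
        linarith
    _ = 2 * √Q + δ := ht

end Vale.Agent.P262.S2
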