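import Vale.Agent.P262.S2.StepVec
import Vale.Agent.P262.S2.StepBounds
import Vale.Agent.P262.S2.Tests

/-!
P262 / S₂, step, part 7: the tests for homogeneity of the signed partition.
-/

namespace Vale.Agent.P262.S2

open Finset
open scoped RealInnerProductSpace

variable {d N : ℕ}

section Entry

variable {n : Node d N} {m : ℕ} {e : Fin m → Fin N}

/-- Test of a normalized linear function of the signs on `B`. -/
noncomputable def linTest (e : Fin m → Fin N) (B : Finset (Fin N)) (g : Fin N → ℝ) (thr : ℝ)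
    (x : V (d + m)) : ℝ :=
  max (|⟪(sv e (fun a => if a ∈ B then g a / thr else 0) : V (d + m)), x⟫| - 1) 0

lemma adm_linTest (B : Finset (Fin N)) (g : Fin N → ℝ) (thr : ℝ) :
    Adm (linTest e B g thr : V (d + m) → ℝ) :=
  (adm_abs_inner _).pospart 1

lemma linTest_nonneg (B : Finset (Fin N)) (g : Fin N → ℝ) (thr : ℝ) (x : V (d + m)) :
    0 ≤ linTest e B g thr x := le_max_right _ _

variable (he : Function.Injective e) (hI : univ.image e = n.I)
include he hI

lemma gE_linTest {B : Finset (Fin N)} (hB : B ⊆ n.I) {g : Fin N → ℝ} {thr s2 : ℝ} (hthr : 0 < thr)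
    (hs2 : 0 < s2) (hvar : sg ^ 2 * ∑ a ∈ B, g a ^ 2 ≤ s2 * thr ^ 2) :
    gE (fun x : V (d + m) => linTest e B g thr (sg • x))
      ≤ 2 * s2 * Real.exp (-(1 / (2 * s2))) := by
  have h2 := two_le_sg
  have h : sg * ‖(sv e (fun a => if a ∈ B then g a / thr else 0) : V (d + m))‖ ≤ √s2 := by
    rw [norm_sv_sub he hI hB (fun a => g a / thr)]
    refine Real.le_sqrt_of_sq_le ?_
    rw [mul_pow, Real.sq_sqrt (sum_nonneg fun a _ => sq_nonneg _)]
    simp only [div_pow]
    rw [← sum_div, ← mul_div_assoc, div_le_iff₀ (by positivity)]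
    exact hvar
  refine (gE_exc_inner _ (by linarith) (Real.sqrt_pos.2 hs2) h).trans_eq ?_
  rw [Real.sq_sqrt hs2.le]

lemma linTest_spec {B : Finset (Fin N)} (hB : B ⊆ n.I) {g : Fin N → ℝ} {thr s2 : ℝ} (hthr : 0 < thr)
    (hs21 : s2 ≤ 1) (hvar : sg ^ 2 * ∑ a ∈ B, g a ^ 2 ≤ s2 * thr ^ 2)
    {ε z : Fin N → ℝ} (hz2 : ∑ a ∈ n.I, z a ^ 2 ≤ 1 / 100)
    (h : linTest e B g thr (xfin n e ε z) < 1) : |∑ a ∈ B, ε a * g a| ≤ 21 / 10 * thr := by
  have h2 := two_le_sg
  rw [linTest, inner_xfin_sub he hI hB (fun a => g a / thr)] at h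
  simp only [← mul_div_assoc, ← sum_div] at h
  rw [← sub_div, abs_div, abs_of_pos hthr] at h
  have h' : |∑ a ∈ B, ε a * g a - ∑ a ∈ B, z a * g a| ≤ 2 * thr := by
    rw [← div_le_iff₀ hthr]
    linarith [le_max_left (|∑ a ∈ B, ε a * g a - ∑ a ∈ B, z a * g a| / thr - 1) 0]
  have hbias : |∑ a ∈ B, z a * g a| ≤ 1 / 10 * thr := by
    refine (abs_bias_le hB g hz2).trans (mul_le_mul_of_nonneg_left ?_ (by norm_num))
    rw [Real.sqrt_le_left hthr.le]
    have h4 : (1 : ℝ) ≤ sg ^ 2 := one_le_pow₀ (by linarith)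
    have hS : 0 ≤ ∑ a ∈ B, g a ^ 2 := sum_nonneg fun a _ => sq_nonneg _
    nlinarith [mul_le_mul_of_nonneg_right h4 hS, mul_le_mul_of_nonneg_right hs21 (sq_nonneg thr)]
  have := abs_sub_abs_le_abs_sub (∑ a ∈ B, ε a * g a) (∑ a ∈ B, z a * g a)
  linarith

end Entry

variable (X : Inst d N)

/-- A block of the parent partition is homogeneous. -/
lemma parent_hom {n : Node d N} (hn : NodeInv X n) {b : ℕ} (hkb : n.k ≤ b) {π : Fin N → ℕ} {r : ℕ}
    (h : Cls X n b π r) {r' p : ℕ} (hr : r' ≤ r) (hp : p < 2 ^ r') {f : ℕ} (hf : b ≤ f)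
    (hc : Clean X f) : HomAt X (blk n π r r' p) (n.k + r') f (yD n r' f) := by
  rcases r' with _ | q
  · obtain rfl : p = 0 := by simpa using hp
    rw [blk_zero n h.range]
    simpa [yD] using hn.hom f (hkb.trans hf) hc
  · exact h.hom q hr p hp f hf hc

/-- An outer block of the parent partition is homogeneous. -/
lemma parent_outer {n : Node d N} (hn : NodeInv X n) {b : ℕ} (hkb : n.k ≤ b) {π : Fin N → ℕ}
    {r : ℕ} (h : Cls X n b π r) {r' p : ℕ} (hr : r' ≤ r) (hp : p = 0 ∨ p = 2 ^ r' - 1)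
    (hc : Clean X b) : HomAt X (blk n π r r' p) (n.k + r') b (yX n b r') := by
  rcases r' with _ | q
  · obtain rfl : p = 0 := by simpa using hp
    rw [blk_zero n h.range]
    simpa [yX] using hn.hom b hkb hc
  · exact h.outer q hr p hp hc

lemma one_le_yD (n : Node d N) (r f : ℕ) : 1 ≤ yD n r f := by
  have h2 := two_le_sg
  have h1 := one_le_yb (k := n.k) (E := n.E) (f := f)
  have : 0 ≤ ∑ i ∈ range r, tD n (i + 1) f := sum_nonneg fun i _ =>
    mul_nonneg (mul_nonneg (by unfold cH; linarith) (Real.sqrt_nonneg _)) (pow_nonneg phi_pos.le _)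
  unfold yD
  linarith

lemma one_le_yX (n : Node d N) (b r : ℕ) : 1 ≤ yX n b r := by
  have h2 := two_le_sg
  have h1 := one_le_yb (k := n.k) (E := n.E) (f := b)
  have : 0 ≤ ∑ i ∈ range r, tX n b (i + 1) := sum_nonneg fun i _ =>
    mul_nonneg (by unfold cH; linarith) (pow_nonneg phi_pos.le _)
  unfold yX
  linarith

/-- Both children of a homogeneous block are homogeneous, with a larger factor. -/
lemma child_hom {B B' : Finset (Fin N)} {a f : ℕ} {y t : ℝ} (h : HomAt X B a f y) (hy : 1 ≤ y)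
    (ht : 0 ≤ t) {ε : Fin N → ℝ} (hε : ∀ i, ε i = 1 ∨ ε i = -1)
    (hB' : B' = B.filter (fun i => ε i = 1) ∨ B' = B.filter (fun i => ε i ≠ 1))
    (hdev : ∀ j ∈ act X.lam f, ∀ l ∈ act X.lam f,
      |∑ i ∈ B, ε i * (2 ^ a / 2 ^ f * (X.v i j * X.v i l))|
        ≤ 21 / 10 * (t * y * (pv X.lam f j * pv X.lam f l))) :
    HomAt X B' (a + 1) f (y + 3 / 2 * t) := by
  intro j hj l hl
  have h1 := abs_le.1 (h j hj l hl)
  have h2 := abs_le.1 (hdev j hj l hl)
  set S := ∑ i ∈ B, X.v i j * X.v i l with hS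
  set E := ∑ i ∈ B, ε i * (2 ^ a / 2 ^ f * (X.v i j * X.v i l)) with hEdef
  have hE : E = 2 ^ a / 2 ^ f * ∑ i ∈ B, ε i * (X.v i j * X.v i l) := by
    rw [hEdef, mul_sum]; exact sum_congr rfl fun i _ => by ring
  have hpp : 0 ≤ pv X.lam f j * pv X.lam f l := mul_nonneg (pv_pos hj).le (pv_pos hl).le
  have hle : (y ^ 2 - 1) * (pv X.lam f j * pv X.lam f l)
      + 21 / 10 * (t * y * (pv X.lam f j * pv X.lam f l))
      ≤ ((y + 3 / 2 * t) ^ 2 - 1) * (pv X.lam f j * pv X.lam f l) := by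
    nlinarith [mul_nonneg (mul_nonneg ht (zero_le_one.trans hy)) hpp, mul_nonneg (sq_nonneg t) hpp]
  have hval : (2 : ℝ) ^ (a + 1) / 2 ^ f * (∑ i ∈ B', X.v i j * X.v i l)
      = 2 ^ a / 2 ^ f * S + E ∨ (2 : ℝ) ^ (a + 1) / 2 ^ f * (∑ i ∈ B', X.v i j * X.v i l)
      = 2 ^ a / 2 ^ f * S - E := by
    rcases hB' with rfl | rfl
    · left; rw [sum_filter_pos _ hε, hE, pow_succ, hS]; ring
    · right; rw [sum_filter_neg _ hε, hE, pow_succ, hS]; ring
  rw [abs_le]
  rcases hval with e | e <;> rw [e] <;> constructor <;> linarith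

/-- The tests for homogeneity. -/
theorem hom_test {n : Node d N} (hn : NodeInv X n) {b : ℕ} (hkb : n.k < b)
    {π : Fin N → ℕ} {r : ℕ} (h : Cls X n b π r) {m : ℕ} (hm : m ≤ r + 1) (hmW : m ≤ b - n.k)
    {e : Fin #n.I → Fin N} (he : Function.Injective e) (hI : univ.image e = n.I)
    {z : Fin N → ℝ} (hz2 : ∑ a ∈ n.I, z a ^ 2 ≤ 1 / 100) :
    ∃ F : V (d + #n.I) → ℝ, Adm F ∧ (∀ x, 0 ≤ F x) ∧ gE (fun g => F (sg • g)) ≤ 1 / 50 ∧
      ∀ ε : Fin N → ℝ, (∀ i, ε i = 1 ∨ ε i = -1) → F (xfin n e ε z) < 1 →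
        (∀ r' < m, ∀ p, p < 2 ^ (r' + 1) → ∀ f, b ≤ f → Clean X f →
          HomAt X (blk n (signed π r ε) (r + 1) (r' + 1) p) (n.k + (r' + 1)) f
            (yD n (r' + 1) f)) ∧
        (∀ r' < m, ∀ p, (p = 0 ∨ p = 2 ^ (r' + 1) - 1) → Clean X b →
          HomAt X (blk n (signed π r ε) (r + 1) (r' + 1) p) (n.k + (r' + 1)) b
            (yX n b (r' + 1))) := by
  classical
  have h2 := two_le_sg
  have hcH : 0 < cH := by unfold cH; linarith
  set L := univ.sup (lev X.lam) + 1 with hL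
  set cc : ℕ → ℕ → ℝ := fun r' f => (2 : ℝ) ^ (n.k + r') / 2 ^ f with hcc
  set thD : ℕ → ℕ → Fin d → Fin d → ℝ := fun r' f j l =>
    tD n (r' + 1) f * yD n r' f * (pv X.lam f j * pv X.lam f l) with hthD
  set thX : ℕ → Fin d → Fin d → ℝ := fun r' j l =>
    tX n b (r' + 1) * yX n b r' * (pv X.lam b j * pv X.lam b l) with hthX
  set g : ℕ → ℕ → Fin d → Fin d → Fin N → ℝ := fun r' f j l i =>
    cc r' f * (X.v i j * X.v i l) with hg
  set out : ℕ → ℕ → ℕ := fun r' q => if q = 0 then 0 else 2 ^ r' - 1 with hout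
  set G : ℕ → ℕ → ℕ → Fin d → Fin d → V (d + #n.I) → ℝ := fun r' p f j l =>
    linTest e (blk n π r r' p) (g r' f j l) (thD r' f j l) with hG
  set H : ℕ → ℕ → Fin d → Fin d → V (d + #n.I) → ℝ := fun r' q j l =>
    linTest e (blk n π r r' (out r' q)) (g r' b j l) (thX r' j l) with hH
  set lv := (Ico b L).filter (Clean X) with hlv
  set Q := if Clean X b then range m else (∅ : Finset ℕ) with hQ
  have hQm : ∀ r' ∈ Q, r' < m ∧ Clean X b := fun r' hr => by
    simp only [hQ] at hr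
    split_ifs at hr with hc
    · exact ⟨mem_range.1 hr, hc⟩
    · simp at hr
  have htD : ∀ r' f, 0 < tD n (r' + 1) f := fun r' f => by
    have := phi_pos
    unfold tD; positivity
  have htX : ∀ r', 0 < tX n b (r' + 1) := fun r' => by
    have := phi_pos
    unfold tX; positivity
  have hthDpos : ∀ {r' f : ℕ} {j l : Fin d}, j ∈ act X.lam f → l ∈ act X.lam f →
      0 < thD r' f j l := fun {r' f j l} hj hl =>
    mul_pos (mul_pos (htD r' f) (zero_lt_one.trans_le (one_le_yD n r' f)))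
      (mul_pos (pv_pos hj) (pv_pos hl))
  have hthXpos : ∀ {r' : ℕ} {j l : Fin d}, j ∈ act X.lam b → l ∈ act X.lam b →
      0 < thX r' j l := fun {r' j l} hj hl =>
    mul_pos (mul_pos (htX r') (zero_lt_one.trans_le (one_le_yX n b r')))
      (mul_pos (pv_pos hj) (pv_pos hl))
  have hqq : ∀ {f : ℕ} {j l : Fin d}, j ∈ act X.lam f → l ∈ act X.lam f →
      1 ≤ qv X.lam f j * qv X.lam f l := fun hj hl =>
    one_le_mul_of_one_le_of_one_le (one_le_qv_of_act hj) (one_le_qv_of_act hl)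
  have hs2D : ∀ {r' f : ℕ} {j l : Fin d}, j ∈ act X.lam f → l ∈ act X.lam f →
      0 < s2D X n.k (r' + 1) f j l ∧ s2D X n.k (r' + 1) f j l ≤ 1 := fun {r' f j l} hj hl => by
    have h1 := hqq hj hl
    have h3 : (1 : ℝ) ≤ ((r' + 1 : ℕ) : ℝ) := by exact_mod_cast Nat.succ_pos r'
    have h4 := one_le_mul_of_one_le_of_one_le h3 h1
    have hd : 0 < 200 * ((r' + 1 : ℕ) : ℝ) * (qv X.lam f j * qv X.lam f l) := by
      rw [mul_assoc]; linarith
    unfold s2D
    refine ⟨div_pos (pow_pos phi_pos _) hd, ?_⟩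
    rw [div_le_one hd, mul_assoc]
    linarith [pow_le_one₀ (n := 2 * (f - (n.k + (r' + 1)))) phi_pos.le phi_le_one]
  have hs2X : ∀ {r' : ℕ} {j l : Fin d}, j ∈ act X.lam b → l ∈ act X.lam b →
      0 < s2X X n.k (r' + 1) b j l ∧ s2X X n.k (r' + 1) b j l ≤ 1 := fun {r' j l} hj hl => by
    have h1 := hqq hj hl
    have hd : 0 < 200 * (qv X.lam b j * qv X.lam b l) := by linarith
    unfold s2X
    refine ⟨div_pos (pow_pos phi_pos _) hd, ?_⟩
    rw [div_le_one hd]
    linarith [pow_le_one₀ (n := 2 * (b - (n.k + (r' + 1)))) phi_pos.le phi_le_one]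
  have hvarD : ∀ {r' p f : ℕ} {j l : Fin d}, r' < m → p < 2 ^ r' → b ≤ f → Clean X f →
      j ∈ act X.lam f → l ∈ act X.lam f →
      sg ^ 2 * ∑ a ∈ blk n π r r' p, g r' f j l a ^ 2
        ≤ s2D X n.k (r' + 1) f j l * thD r' f j l ^ 2 := fun {r' p f j l} hr hp hf hc hj hl => by
    refine le_trans (le_of_eq ?_) (entry_var X n Subset.rfl (by omega)
      (parent_hom X hn hkb.le h (by omega) hp hf hc) (one_le_yD n r' f) hj hl)
    simp only [hg, hcc, mul_sum]
    exact sum_congr rfl fun _ _ => by ring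
  have hout' : ∀ r' q, out r' q = 0 ∨ out r' q = 2 ^ r' - 1 := fun r' q => by
    simp only [hout]; split_ifs <;> simp
  have hvarX : ∀ {r' q : ℕ} {j l : Fin d}, r' < m → Clean X b →
      j ∈ act X.lam b → l ∈ act X.lam b →
      sg ^ 2 * ∑ a ∈ blk n π r r' (out r' q), g r' b j l a ^ 2
        ≤ s2X X n.k (r' + 1) b j l * thX r' j l ^ 2 := fun {r' q j l} hr hc hj hl => by
    refine le_trans (le_of_eq ?_) (entry_var_outer X n Subset.rfl (by omega)
      (parent_outer X hn hkb.le h (by omega) (hout' r' q) hc) (one_le_yX n b r') hj hl)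
    simp only [hg, hcc, mul_sum]
    exact sum_congr rfl fun _ _ => by ring
  have hlv' : ∀ f ∈ lv, b ≤ f ∧ Clean X f := fun f hf => by
    simp only [hlv, mem_filter, mem_Ico] at hf
    exact ⟨hf.1.1, hf.2⟩
  set F₁ : V (d + #n.I) → ℝ := fun x => ∑ r' ∈ range m, ∑ p ∈ range (2 ^ r'), ∑ f ∈ lv,
    ∑ j ∈ act X.lam f, ∑ l ∈ act X.lam f, G r' p f j l x with hF₁
  set F₂ : V (d + #n.I) → ℝ := fun x => ∑ r' ∈ Q, ∑ q ∈ range 2,
    ∑ j ∈ act X.lam b, ∑ l ∈ act X.lam b, H r' q j l x with hF₂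
  have hGa : ∀ r' p f j l, Adm (G r' p f j l) := fun _ _ _ _ _ => adm_linTest _ _ _
  have hHa : ∀ r' q j l, Adm (H r' q j l) := fun _ _ _ _ => adm_linTest _ _ _
  have hA₁ : Adm F₁ := Adm.finsetSum _ fun r' _ => Adm.finsetSum _ fun p _ =>
    Adm.finsetSum _ fun f _ => Adm.finsetSum _ fun j _ => Adm.finsetSum _ fun l _ => hGa ..
  have hA₂ : Adm F₂ := Adm.finsetSum _ fun r' _ => Adm.finsetSum _ fun q _ =>
    Adm.finsetSum _ fun j _ => Adm.finsetSum _ fun l _ => hHa ..
  have hF₁0 : ∀ x, 0 ≤ F₁ x := fun x => sum_nonneg fun r' _ => sum_nonneg fun p _ =>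
    sum_nonneg fun f _ => sum_nonneg fun j _ => sum_nonneg fun l _ => linTest_nonneg ..
  have hF₂0 : ∀ x, 0 ≤ F₂ x := fun x => sum_nonneg fun r' _ => sum_nonneg fun q _ =>
    sum_nonneg fun j _ => sum_nonneg fun l _ => linTest_nonneg ..
  have hsh : ∀ {K : V (d + #n.I) → ℝ}, Adm K → Adm fun x => K (sg • x) := fun hK => by
    simpa using hK.shift 0 sg
  refine ⟨fun x => F₁ x + F₂ x, hA₁.add hA₂, fun x => add_nonneg (hF₁0 x) (hF₂0 x), ?_, ?_⟩
  · rw [gE_fadd (hsh hA₁) (hsh hA₂)]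
    have hE₁ : gE (fun x => F₁ (sg • x)) ≤ 1 / 100 := by
      simp only [hF₁]
      rw [gE_finsetSum _ fun r' _ => Adm.finsetSum _ fun p _ => Adm.finsetSum _ fun f _ =>
        Adm.finsetSum _ fun j _ => Adm.finsetSum _ fun l _ => hsh (hGa ..)]
      refine le_trans (sum_le_sum fun r' hr => ?_)
        (entry_sum_le X (k := n.k) (b := b) (W := m) (by omega) L)
      rw [gE_finsetSum _ fun p _ => Adm.finsetSum _ fun f _ =>
        Adm.finsetSum _ fun j _ => Adm.finsetSum _ fun l _ => hsh (hGa ..)]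
      refine le_trans (sum_le_sum fun p hp => ?_) (sum_le_sum_of_subset_of_nonneg
        (range_subset_range.2 (Nat.pow_le_pow_right (by norm_num) (Nat.le_succ r')))
        fun p _ _ => ?_)
      · rw [gE_finsetSum _ fun f _ => Adm.finsetSum _ fun j _ => Adm.finsetSum _ fun l _ =>
          hsh (hGa ..)]
        refine sum_le_sum fun f hf => ?_
        rw [gE_finsetSum _ fun j _ => Adm.finsetSum _ fun l _ => hsh (hGa ..)]
        refine sum_le_sum fun j hj => ?_
        rw [gE_finsetSum _ fun l _ => hsh (hGa ..)]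
        exact sum_le_sum fun l hl => gE_linTest he hI (blk_subset n π r r' p) (hthDpos hj hl)
          (hs2D hj hl).1 (hvarD (mem_range.1 hr) (mem_range.1 hp) (hlv' f hf).1 (hlv' f hf).2
            hj hl)
      · exact sum_nonneg fun f _ => sum_nonneg fun j hj => sum_nonneg fun l hl =>
          mul_nonneg (by linarith [(hs2D (r' := r') hj hl).1]) (Real.exp_pos _).le
    have hE₂ : gE (fun x => F₂ (sg • x)) ≤ 1 / 100 := by
      simp only [hF₂]
      rw [gE_finsetSum _ fun r' _ => Adm.finsetSum _ fun q _ =>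
        Adm.finsetSum _ fun j _ => Adm.finsetSum _ fun l _ => hsh (hHa ..)]
      by_cases hc : Clean X b
      · simp only [hQ, if_pos hc]
        refine le_trans (sum_le_sum fun r' hr => ?_)
          (entry_sum_outer_le X (k := n.k) (b := b) (W := m) (by omega) hc)
        rw [gE_finsetSum _ fun q _ =>
          Adm.finsetSum _ fun j _ => Adm.finsetSum _ fun l _ => hsh (hHa ..)]
        refine sum_le_sum fun q _ => ?_
        rw [gE_finsetSum _ fun j _ => Adm.finsetSum _ fun l _ => hsh (hHa ..)]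
        refine sum_le_sum fun j hj => ?_
        rw [gE_finsetSum _ fun l _ => hsh (hHa ..)]
        exact sum_le_sum fun l hl => gE_linTest he hI (blk_subset n π r r' _) (hthXpos hj hl)
          (hs2X hj hl).1 (hvarX (mem_range.1 hr) hc hj hl)
      · simp only [hQ, if_neg hc, sum_empty]
        norm_num
    linarith
  · intro ε hε hlt
    set x := xfin n e ε z with hx
    have h₁ : F₁ x < 1 := by have := hF₂0 x; linarith
    have h₂ : F₂ x < 1 := by have := hF₁0 x; linarith
    constructor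
    · intro r' hr p hp f hf hc
      by_cases hfL : L ≤ f
      · intro j hj
        rw [mem_act_iff] at hj
        have : lev X.lam j ≤ univ.sup (lev X.lam) := le_sup (mem_univ j)
        omega
      obtain ⟨p', hp', hB⟩ : ∃ p' < 2 ^ r',
          blk n (signed π r ε) (r + 1) (r' + 1) p = (blk n π r r' p').filter (fun i => ε i = 1) ∨
          blk n (signed π r ε) (r + 1) (r' + 1) p
            = (blk n π r r' p').filter (fun i => ε i ≠ 1) := by
        by_cases hp2 : p < 2 ^ r'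
        · exact ⟨p, hp2, Or.inl (blk_signed_pos h.range (by omega) hp2)⟩
        · refine ⟨p - 2 ^ r', by rw [pow_succ] at hp; omega, Or.inr ?_⟩
          conv_lhs => rw [show p = 2 ^ r' + (p - 2 ^ r') by omega]
          exact blk_signed_neg h.range (by omega)
      have hy : yD n (r' + 1) f = yD n r' f + 3 / 2 * tD n (r' + 1) f := by
        unfold yD; rw [sum_range_succ]; ring
      rw [hy, ← add_assoc]
      refine child_hom X (parent_hom X hn hkb.le h (by omega) hp' hf hc) (one_le_yD n r' f)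
        (htD r' f).le hε hB fun j hj l hl => ?_
      have hfm : f ∈ lv := by
        simp only [hlv, mem_filter, mem_Ico]; exact ⟨⟨hf, by omega⟩, hc⟩
      have hG1 : G r' p' f j l x < 1 := by
        refine lt_of_le_of_lt ?_ h₁
        refine le_trans ?_ (single_le_sum (f := fun r' => ∑ p ∈ range (2 ^ r'), ∑ f ∈ lv,
          ∑ j ∈ act X.lam f, ∑ l ∈ act X.lam f, G r' p f j l x) (fun _ _ => sum_nonneg fun _ _ =>
          sum_nonneg fun _ _ => sum_nonneg fun _ _ => sum_nonneg fun _ _ => linTest_nonneg ..)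
          (mem_range.2 hr))
        refine le_trans ?_ (single_le_sum (f := fun p => ∑ f ∈ lv,
          ∑ j ∈ act X.lam f, ∑ l ∈ act X.lam f, G r' p f j l x) (fun _ _ =>
          sum_nonneg fun _ _ => sum_nonneg fun _ _ => sum_nonneg fun _ _ => linTest_nonneg ..)
          (mem_range.2 hp'))
        refine le_trans ?_ (single_le_sum (f := fun f =>
          ∑ j ∈ act X.lam f, ∑ l ∈ act X.lam f, G r' p' f j l x) (fun _ _ =>
          sum_nonneg fun _ _ => sum_nonneg fun _ _ => linTest_nonneg ..) hfm)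
        refine le_trans ?_ (single_le_sum (f := fun j => ∑ l ∈ act X.lam f, G r' p' f j l x)
          (fun _ _ => sum_nonneg fun _ _ => linTest_nonneg ..) hj)
        exact single_le_sum (f := fun l => G r' p' f j l x) (fun _ _ => linTest_nonneg ..) hl
      exact linTest_spec he hI (blk_subset n π r r' p') (hthDpos hj hl) (hs2D hj hl).2
        (hvarD hr hp' hf hc hj hl) hz2 hG1
    · intro r' hr p hp hc
      obtain ⟨q, hq, hB⟩ : ∃ q < 2,
          blk n (signed π r ε) (r + 1) (r' + 1) p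
            = (blk n π r r' (out r' q)).filter (fun i => ε i = 1) ∨
          blk n (signed π r ε) (r + 1) (r' + 1) p
            = (blk n π r r' (out r' q)).filter (fun i => ε i ≠ 1) := by
        rcases hp with rfl | rfl
        · exact ⟨0, by norm_num, Or.inl (blk_signed_pos h.range (by omega) (by positivity))⟩
        · refine ⟨1, by norm_num, Or.inr ?_⟩
          have hpos : 0 < 2 ^ r' := by positivity
          conv_lhs => rw [show 2 ^ (r' + 1) - 1 = 2 ^ r' + (2 ^ r' - 1) by rw [pow_succ]; omega]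
          exact blk_signed_neg h.range (by omega)
      have hy : yX n b (r' + 1) = yX n b r' + 3 / 2 * tX n b (r' + 1) := by
        unfold yX; rw [sum_range_succ]; ring
      rw [hy, ← add_assoc]
      refine child_hom X (parent_outer X hn hkb.le h (by omega) (hout' r' q) hc)
        (one_le_yX n b r') (htX r').le hε hB fun j hj l hl => ?_
      have hrQ : r' ∈ Q := by simp only [hQ, if_pos hc, mem_range]; exact hr
      have hH1 : H r' q j l x < 1 := by
        refine lt_of_le_of_lt ?_ h₂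
        refine le_trans ?_ (single_le_sum (f := fun r' => ∑ q ∈ range 2,
          ∑ j ∈ act X.lam b, ∑ l ∈ act X.lam b, H r' q j l x) (fun _ _ =>
          sum_nonneg fun _ _ => sum_nonneg fun _ _ => sum_nonneg fun _ _ => linTest_nonneg ..) hrQ)
        refine le_trans ?_ (single_le_sum (f := fun q =>
          ∑ j ∈ act X.lam b, ∑ l ∈ act X.lam b, H r' q j l x) (fun _ _ =>
          sum_nonneg fun _ _ => sum_nonneg fun _ _ => linTest_nonneg ..) (mem_range.2 hq))
        refine le_trans ?_ (single_le_sum (f := fun j => ∑ l ∈ act X.lam b, H r' q j l x)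
          (fun _ _ => sum_nonneg fun _ _ => linTest_nonneg ..) hj)
        exact single_le_sum (f := fun l => H r' q j l x) (fun _ _ => linTest_nonneg ..) hl
      exact linTest_spec he hI (blk_subset n π r r' _) (hthXpos hj hl) (hs2X hj hl).2
        (hvarX hr hc hj hl) hz2 hH1

end Vale.Agent.P262.S2
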