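import Vale.Agent.P262.S2.StepBase
import Vale.Agent.P262.S2.Tests

/-!
P262 / S₂, step, part 4: listing a node along a partition and lifting its vectors to
`ℝ^d × ℝ^I`, so that linear functions of the signs and prefix sums are both visible.
-/

namespace Vale.Agent.P262.S2

open Finset
open scoped RealInnerProductSpace

variable {d N : ℕ}

/-- An enumeration of a node which is monotone for `π`. -/
lemma exists_sorted (I : Finset (Fin N)) (π : Fin N → ℕ) :
    ∃ e : Fin #I → Fin N, Function.Injective e ∧ univ.image e = I ∧ Monotone (π ∘ e) := by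
  set e0 : Fin #I → Fin N := fun i => I.equivFin.symm i
  refine ⟨e0 ∘ Tuple.sort (π ∘ e0), ?_, ?_, ?_⟩
  · exact (Subtype.val_injective.comp (Equiv.injective _)).comp (Equiv.injective _)
  · ext a
    simp only [mem_image, mem_univ, true_and]
    constructor
    · rintro ⟨i, rfl⟩; exact Subtype.coe_prop _
    · intro ha
      exact ⟨(Tuple.sort (π ∘ e0)).symm (I.equivFin ⟨a, ha⟩), by simp [e0]⟩
  · exact Tuple.monotone_sort (π ∘ e0)

section

variable {m : ℕ} {I : Finset (Fin N)} {π : Fin N → ℕ} {e : Fin m → Fin N}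
  (he : Function.Injective e) (hI : univ.image e = I)
include he hI

lemma sum_filter_enum (P : Fin N → Prop) [DecidablePred P] (g : Fin N → ℝ) :
    ∑ a ∈ I.filter P, g a = ∑ i : Fin m with P (e i), g (e i) := by
  rw [← hI, filter_image, sum_image fun x _ y _ h => he h]

lemma sum_enum (g : Fin N → ℝ) : ∑ a ∈ I, g a = ∑ i, g (e i) := by
  rw [← hI, sum_image fun x _ y _ h => he h]

lemma enum_lt_iff (hmono : Monotone (π ∘ e)) (q : ℕ) (i : Fin m) :
    i.val < #(I.filter fun a => π a < q) ↔ π (e i) < q := by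
  have hc : #(I.filter fun a => π a < q) = #(univ.filter fun i' : Fin m => π (e i') < q) := by
    rw [← hI, filter_image, card_image_of_injective _ he]
  rw [hc]
  constructor
  · intro h
    by_contra hq
    push Not at hq
    have hsub : (univ.filter fun i' : Fin m => π (e i') < q) ⊆ Iio i := by
      intro i' h'
      rw [mem_Iio]
      by_contra h''
      push Not at h''
      exact absurd (mem_filter.1 h').2 (not_lt.2 (hq.trans (hmono h'')))
    have := card_le_card hsub
    rw [Fin.card_Iio] at this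
    omega
  · intro h
    have hsub : Iic i ⊆ univ.filter fun i' : Fin m => π (e i') < q := fun i' h' =>
      mem_filter.2 ⟨mem_univ _, lt_of_le_of_lt (hmono (mem_Iic.1 h')) h⟩
    have := card_le_card hsub
    rw [Fin.card_Iic] at this
    omega

end

/-- Lifted vectors. -/
noncomputable def lift (n : Node d N) {m : ℕ} (e : Fin m → Fin N) (i : Fin m) : V (d + m) :=
  WithLp.toLp 2 (Fin.append (n.u (e i)) (Pi.single i 1))

/-- The lifted form of the linear function `ε ↦ ∑ c a * ε a`. -/
noncomputable def sv {m : ℕ} (e : Fin m → Fin N) (c : Fin N → ℝ) : V (d + m) :=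
  WithLp.toLp 2 (Fin.append (0 : Fin d → ℝ) fun i => c (e i))

lemma norm_lift_le (X : Inst d N) {n : Node d N} (hn : NodeInv X n) {m : ℕ} (e : Fin m → Fin N)
    (i : Fin m) : ‖lift n e i‖ ≤ 3 / 2 := by
  rw [EuclideanSpace.norm_eq, Real.sqrt_le_left (by norm_num), Fin.sum_univ_add]
  simp only [lift, Fin.append_left, Fin.append_right, Real.norm_eq_abs, sq_abs]
  have h1 : ∑ j, n.u (e i) j ^ 2 ≤ 1 :=
    (sum_le_sum fun j _ => hn.u_sq (e i) j).trans (X.norm_le (e i))
  have h2 : ∑ x : Fin m, (Pi.single i (1 : ℝ) : Fin m → ℝ) x ^ 2 = 1 := by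
    rw [sum_eq_single i (fun x _ hx => by simp [hx]) (by simp)]
    simp
  rw [h2]
  linarith

lemma part_left (n : Node d N) {m : ℕ} (e : Fin m → Fin N) (w : Fin m → ℝ) (k : ℕ) (j : Fin d) :
    part (lift n e) w k (Fin.castAdd m j) = ∑ i : Fin m with i.val < k, w i * n.u (e i) j := by
  simp [part, lift, WithLp.ofLp_sum, Finset.sum_apply, Fin.append_left]

lemma part_right (n : Node d N) {m : ℕ} (e : Fin m → Fin N) (w : Fin m → ℝ) (k : ℕ) (i : Fin m) :
    part (lift n e) w k (Fin.natAdd d i) = if i.val < k then w i else 0 := by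
  simp only [part, lift, WithLp.ofLp_sum, WithLp.ofLp_smul, Finset.sum_apply, Pi.smul_apply,
    Fin.append_right, smul_eq_mul]
  rw [sum_filter, sum_eq_single i (fun x _ hx => by simp [Ne.symm hx]) (by simp)]
  simp

lemma inner_sv (n : Node d N) {m : ℕ} (e : Fin m → Fin N) (c : Fin N → ℝ) (w : Fin m → ℝ) :
    ⟪(sv e c : V (d + m)), part (lift n e) w m⟫ = ∑ i, w i * c (e i) := by
  rw [PiLp.inner_apply, Fin.sum_univ_add]
  simp [sv, part_right]

lemma norm_sv_sq {m : ℕ} (e : Fin m → Fin N) (c : Fin N → ℝ) :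
    ‖(sv e c : V (d + m))‖ ^ 2 = ∑ i, c (e i) ^ 2 := by
  rw [EuclideanSpace.norm_sq_eq, Fin.sum_univ_add]
  simp [sv]

end Vale.Agent.P262.S2
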