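import Vale.Agent.P262.S2.StepComb
import Vale.Agent.P262.S2.StepLift

/-!
P262 / S₂, step, part 5: the endpoint of the chain of signs and linear functions of it.
-/

namespace Vale.Agent.P262.S2

open Finset
open scoped RealInnerProductSpace

variable {d N : ℕ} {n : Node d N} {m : ℕ} {e : Fin m → Fin N}

/-- The endpoint of the lifted chain. -/
noncomputable def xfin (n : Node d N) {m : ℕ} (e : Fin m → Fin N) (ε z : Fin N → ℝ) : V (d + m) :=
  part (lift n e) (fun i => ε (e i) - z (e i)) m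

variable (he : Function.Injective e) (hI : univ.image e = n.I)
include he hI

lemma inner_xfin (c ε z : Fin N → ℝ) :
    ⟪(sv e c : V (d + m)), xfin n e ε z⟫ = ∑ a ∈ n.I, (ε a - z a) * c a := by
  rw [xfin, inner_sv, sum_enum he hI]

/-- Linear function supported on a subset of the node. -/
lemma inner_xfin_sub {B : Finset (Fin N)} (hB : B ⊆ n.I) (c ε z : Fin N → ℝ) :
    ⟪(sv e (fun a => if a ∈ B then c a else 0) : V (d + m)), xfin n e ε z⟫
      = ∑ a ∈ B, ε a * c a - ∑ a ∈ B, z a * c a := by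
  classical
  rw [inner_xfin he hI, ← sum_subset hB (fun a _ ha => by simp [ha]), ← sum_sub_distrib]
  exact sum_congr rfl fun a ha => by rw [if_pos ha]; ring

lemma norm_sv_sub {B : Finset (Fin N)} (hB : B ⊆ n.I) (c : Fin N → ℝ) :
    ‖(sv e (fun a => if a ∈ B then c a else 0) : V (d + m))‖ = √(∑ a ∈ B, c a ^ 2) := by
  classical
  rw [← Real.sqrt_sq (norm_nonneg _), norm_sv_sq, ← sum_enum he hI
    (fun a => (if a ∈ B then c a else 0) ^ 2), ← sum_subset hB (fun a _ ha => by simp [ha])]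
  congr 1
  exact sum_congr rfl fun a ha => by rw [if_pos ha]

omit he hI in
lemma abs_bias_le {I B : Finset (Fin N)} (hB : B ⊆ I) (c : Fin N → ℝ) {z : Fin N → ℝ}
    (hz2 : ∑ a ∈ I, z a ^ 2 ≤ 1 / 100) :
    |∑ a ∈ B, z a * c a| ≤ 1 / 10 * √(∑ a ∈ B, c a ^ 2) := by
  have h1 : ∑ a ∈ B, z a ^ 2 ≤ 1 / 100 :=
    (sum_le_sum_of_subset_of_nonneg hB fun a _ _ => sq_nonneg _).trans hz2
  refine (Real.abs_le_sqrt ((sum_mul_sq_le_sq_mul_sq B z c).trans
    (mul_le_mul_of_nonneg_right h1 (sum_nonneg fun a _ => sq_nonneg (c a))))).trans ?_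
  rw [Real.sqrt_mul (by norm_num), show √(1 / 100 : ℝ) = 1 / 10 by
    rw [show (1 / 100 : ℝ) = (1 / 10) ^ 2 by norm_num, Real.sqrt_sq (by norm_num)]]

end Vale.Agent.P262.S2
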