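import Mathlib
import Vale.Agent.P262.S2.StepVec
import Vale.Agent.P262.S2.StepBounds

/-!
P262 / S₂, step, part 6: the test for the potential of new contents.
-/

namespace Vale.Agent.P262.S2

open Finset
open scoped RealInnerProductSpace

variable {d N : ℕ}

section

variable (X : Inst d N) (n : Node d N) (b : ℕ)

/-- New content of one vector in the weights of depth `r`. -/
noncomputable def gW (r : ℕ) (a : Fin N) : ℝ :=
  ∑ j ∈ newS X.lam n.k b, cw X n r j * X.v a j ^ 2

lemma Ynew_eq_sum (r : ℕ) (B : Finset (Fin N)) : Ynew X n b r B = ∑ a ∈ B, gW X n b r a := by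
  unfold Ynew gW
  rw [sum_comm]
  exact sum_congr rfl fun j _ => mul_sum _ _ _

/-- Content of the children against the content of the parent. -/
lemma parent_content (r : ℕ) (B : Finset (Fin N)) :
    ∑ a ∈ B, gW X n b (r + 1) a + 23 / 200 * ∑ a ∈ B, gW X n b (r + 1) a ^ 2
      ≤ 2 * Ynew X n b r B := by
  rw [Ynew_eq_sum, mul_sum, mul_sum, ← sum_add_distrib]
  refine sum_le_sum fun a _ => ?_
  have h : gW X n b (r + 1) a ^ 2 ≤ ∑ j ∈ newS X.lam n.k b, cw X n (r + 1) j ^ 2 * X.v a j ^ 2 :=
    sq_weight_le X n b (r + 1) a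
  calc gW X n b (r + 1) a + 23 / 200 * gW X n b (r + 1) a ^ 2
      ≤ gW X n b (r + 1) a
          + 23 / 200 * ∑ j ∈ newS X.lam n.k b, cw X n (r + 1) j ^ 2 * X.v a j ^ 2 := by linarith
    _ ≤ 2 * gW X n b r a := by
        unfold gW
        rw [mul_sum, mul_sum, ← sum_add_distrib]
        refine sum_le_sum fun j _ => ?_
        have := mul_le_mul_of_nonneg_right (cw_step X n r j) (sq_nonneg (X.v a j))
        linarith

lemma lamE_pos : 0 < lamE := by
  have := two_le_sg
  unfold lamE
  positivity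

lemma lamE_le : lamE ≤ 1 / 16 := by
  unfold lamE
  rw [one_div]
  exact inv_anti₀ (by norm_num) (by nlinarith [two_le_sg])

lemma TT_pos : 0 < TT X n b := Real.exp_pos _

end

/-- Test making the potential of the signed partition small. -/
theorem pot_test (X : Inst d N) {n : Node d N} (hn : NodeInv X n) {b : ℕ}
    {π : Fin N → ℕ} {r : ℕ} (h : Cls X n b π r) {m : ℕ} (hm : m ≤ r + 1)
    {e : Fin #n.I → Fin N} (he : Function.Injective e) (hI : univ.image e = n.I)
    {z : Fin N → ℝ} (hz2 : ∑ a ∈ n.I, z a ^ 2 ≤ 1 / 100) :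
    ∃ F : V (d + #n.I) → ℝ, Adm F ∧ (∀ x, 0 ≤ F x) ∧ gE (fun g => F (sg • g)) ≤ 1 / 20 ∧
      ∀ ε : Fin N → ℝ, (∀ i, ε i = 1 ∨ ε i = -1) → F (xfin n e ε z) < 1 →
        SS X n b (fun i => signed π r ε i / 2 ^ (r + 1 - m)) m ≤ TT X n b := by
  classical
  have hsg := two_le_sg
  have hT := TT_pos X n b
  have hlam := lamE_pos
  set lam := lamE with hlamdef
  set H : ℝ := Real.log ((100 : ℝ) ^ m * TT X n b) with hH
  have hHexp : Real.exp H = (100 : ℝ) ^ m * TT X n b := Real.exp_log (by positivity)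
  -- the pieces of the test
  let B : ℕ → ℕ → Finset (Fin N) := fun r' p => blk n π r r' p
  let G : ℕ → ℕ → ℝ := fun r' p => ∑ a ∈ B r' p, gW X n b (r' + 1) a
  let Z : ℕ → ℕ → ℝ := fun r' p => ∑ a ∈ B r' p, z a * gW X n b (r' + 1) a
  let cc : ℕ → ℕ → ℝ → ℝ := fun r' p s => lam / 2 * G r' p + s * (lam / 2) * Z r' p
  let aa : ℕ → ℕ → ℝ → V (d + #n.I) := fun r' p s =>
    sv e (fun a => if a ∈ B r' p then s * (lam / 2) * gW X n b (r' + 1) a else 0)
  let term : ℕ → ℕ → ℝ → V (d + #n.I) → ℝ := fun r' p s x =>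
    ((100 : ℝ) ^ (r' + 1))⁻¹ / TT X n b * capExp H (cc r' p s + ⟪aa r' p s, x⟫)
  have hterm0 : ∀ r' p s x, 0 ≤ term r' p s x := fun r' p s x =>
    mul_nonneg (by positivity) (capExp_nonneg _ _)
  have hadm : ∀ r' p s, Adm (term r' p s) := fun r' p s =>
    (adm_capExp_affine H (cc r' p s) (aa r' p s)).const_mul (by positivity)
  let F : V (d + #n.I) → ℝ := fun x =>
    ∑ r' ∈ range m, ∑ p ∈ range (2 ^ r'), (term r' p 1 x + term r' p (-1) x)
  have hF : Adm F := Adm.finsetSum _ fun r' _ => Adm.finsetSum _ fun p _ =>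
    (hadm r' p 1).add (hadm r' p (-1))
  have hF0 : ∀ x, 0 ≤ F x := fun x => sum_nonneg fun r' _ => sum_nonneg fun p _ =>
    add_nonneg (hterm0 _ _ _ _) (hterm0 _ _ _ _)
  -- expectation of one term
  have hgE : ∀ r' p s, s = 1 ∨ s = -1 → gE (fun g => term r' p s (sg • g))
      ≤ ((100 : ℝ) ^ (r' + 1))⁻¹ / TT X n b
          * (Real.exp (lam / 42) * Real.exp (lam * Ynew X n b r' (B r' p))) := by
    intro r' p s hs
    have hBI : B r' p ⊆ n.I := blk_subset n π r r' p
    set Q := ∑ a ∈ B r' p, gW X n b (r' + 1) a ^ 2 with hQdef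
    have hQ : 0 ≤ Q := sum_nonneg fun a _ => sq_nonneg _
    simp only [term]
    rw [gE_cmul]
    refine mul_le_mul_of_nonneg_left ?_ (by positivity)
    refine (gE_capExp H _ _ (by linarith : (0 : ℝ) ≤ sg)).trans ?_
    rw [← Real.exp_add, Real.exp_le_exp]
    have hna : ‖aa r' p s‖ ^ 2 = (lam / 2) ^ 2 * Q := by
      simp only [aa]
      rw [norm_sv_sub he hI hBI, Real.sq_sqrt (sum_nonneg fun a _ => sq_nonneg _), hQdef, mul_sum]
      refine sum_congr rfl fun a _ => ?_
      rcases hs with rfl | rfl <;> ring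
    have hb : s * Z r' p ≤ 1 / 10 * √Q := by
      have := abs_bias_le hBI (gW X n b (r' + 1)) hz2
      rcases hs with rfl | rfl
      · linarith [le_abs_self (Z r' p)]
      · linarith [neg_le_abs (Z r' p)]
    have hsq : √Q ≤ 21 / 40 * Q + 10 / 21 := by
      nlinarith [sq_nonneg (√Q - 20 / 21), Real.sq_sqrt hQ]
    have hY := parent_content X n b r' (B r' p)
    have hl : sg ^ 2 * lam = 1 / 4 := by
      rw [hlamdef, lamE, mul_inv_rev, ← mul_assoc, mul_inv_cancel₀ (by positivity), one_mul,
        one_div]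
    have hZ : s * (lam / 2) * Z r' p ≤ lam / 2 * (1 / 10 * (21 / 40 * Q + 10 / 21)) := by
      rw [mul_comm s, mul_assoc]
      exact mul_le_mul_of_nonneg_left (hb.trans (by linarith)) (by positivity)
    have hvar : sg ^ 2 * ((lam / 2) ^ 2 * Q) / 2 = lam / 2 * (Q / 16) := by
      linear_combination (lam * Q / 8) * hl
    have hmul := mul_le_mul_of_nonneg_left hY (by positivity : (0 : ℝ) ≤ lam / 2)
    simp only [cc, G] at *
    rw [hna, hvar]
    linarith
  have hEF : gE (fun g => F (sg • g)) ≤ 1 / 20 := by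
    let D : ℕ → ℝ := fun r' => ∑ p ∈ range (2 ^ r'),
      ((100 : ℝ) ^ r')⁻¹ * Real.exp (lam * Ynew X n b r' (B r' p))
    have hD0 : ∀ r', 0 ≤ D r' := fun r' => sum_nonneg fun p _ => by positivity
    have hD : ∑ r' ∈ range m, D r' ≤ 2 * TT X n b := by
      rcases Nat.eq_zero_or_pos m with rfl | hm0
      · simpa using hT.le
      obtain ⟨m', rfl⟩ : ∃ m', m = m' + 1 := ⟨m - 1, by omega⟩
      rw [sum_range_succ']
      have h1 : ∑ r' ∈ range m', D (r' + 1) ≤ SS X n b π r := by
        unfold SS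
        exact sum_le_sum_of_subset_of_nonneg (f := fun r' => D (r' + 1))
          (fun a ha => mem_range.2 (by have := mem_range.1 ha; omega)) fun r' _ _ => hD0 (r' + 1)
      have h2 : D 0 ≤ TT X n b := by
        simp only [D, pow_zero, sum_range_one, inv_one, one_mul, B]
        rw [blk_zero n h.range, TT, Real.exp_le_exp, ← hlamdef]
        exact mul_le_mul_of_nonneg_left (by linarith [Ynew_zero_le X n b hn]) hlam.le
      linarith [h.pot]
    have hexp : Real.exp (lam / 42) ≤ 101 / 100 := by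
      have h16 : lam ≤ 1 / 16 := lamE_le
      have h1 := Real.add_one_le_exp (-(lam / 42))
      rw [Real.exp_neg] at h1
      have h2 : (100 / 101 : ℝ) ≤ (Real.exp (lam / 42))⁻¹ := le_trans (by linarith) h1
      have := inv_anti₀ (by norm_num) h2
      rw [inv_inv] at this
      linarith
    have hrw : gE (fun g => F (sg • g)) = ∑ r' ∈ range m, ∑ p ∈ range (2 ^ r'),
        (gE (fun g => term r' p 1 (sg • g)) + gE (fun g => term r' p (-1) (sg • g))) := by
      have hs : ∀ r' p s, Adm (fun g => term r' p s (sg • g)) := fun r' p s => by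
        simpa using (hadm r' p s).shift 0 sg
      simp only [F]
      rw [gE_finsetSum _ fun r' _ => Adm.finsetSum _ fun p _ => (hs r' p 1).add (hs r' p (-1))]
      refine sum_congr rfl fun r' _ => ?_
      rw [gE_finsetSum _ fun p _ => (hs r' p 1).add (hs r' p (-1))]
      exact sum_congr rfl fun p _ => gE_fadd (hs r' p 1) (hs r' p (-1))
    rw [hrw]
    refine le_trans (sum_le_sum fun r' _ => sum_le_sum fun p _ =>
      add_le_add (hgE r' p 1 (Or.inl rfl)) (hgE r' p (-1) (Or.inr rfl))) ?_
    have hsum : ∑ r' ∈ range m, ∑ p ∈ range (2 ^ r'),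
        (((100 : ℝ) ^ (r' + 1))⁻¹ / TT X n b
            * (Real.exp (lam / 42) * Real.exp (lam * Ynew X n b r' (B r' p)))
          + ((100 : ℝ) ^ (r' + 1))⁻¹ / TT X n b
            * (Real.exp (lam / 42) * Real.exp (lam * Ynew X n b r' (B r' p))))
        = 2 / 100 * Real.exp (lam / 42) / TT X n b * ∑ r' ∈ range m, D r' := by
      simp only [D, mul_sum]
      refine sum_congr rfl fun r' _ => sum_congr rfl fun p _ => ?_
      rw [pow_succ, mul_inv]
      ring
    rw [hsum]
    calc 2 / 100 * Real.exp (lam / 42) / TT X n b * ∑ r' ∈ range m, D r'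
        ≤ 2 / 100 * Real.exp (lam / 42) / TT X n b * (2 * TT X n b) :=
          mul_le_mul_of_nonneg_left hD (by positivity)
      _ = 4 / 100 * Real.exp (lam / 42) := by field_simp; ring
      _ ≤ 1 / 20 := by linarith
  refine ⟨F, hF, hF0, hEF, fun ε hε hx => ?_⟩
  set x := xfin n e ε z
  -- each term is a genuine exponential
  have hone : ∀ r' < m, ∀ p < 2 ^ r', ∀ s, s = 1 ∨ s = -1 →
      capExp H (cc r' p s + ⟪aa r' p s, x⟫) = Real.exp (cc r' p s + ⟪aa r' p s, x⟫) := by
    intro r' hr' p hp s hs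
    refine capExp_eq_of_lt ?_
    have h1 : term r' p s x ≤ F x := by
      refine le_trans ?_ (single_le_sum (f := fun r' => ∑ p ∈ range (2 ^ r'),
        (term r' p 1 x + term r' p (-1) x))
        (fun r' _ => sum_nonneg fun p _ => add_nonneg (hterm0 _ _ _ _) (hterm0 _ _ _ _))
        (mem_range.2 hr'))
      refine le_trans ?_ (single_le_sum (f := fun p => term r' p 1 x + term r' p (-1) x)
        (fun p _ => add_nonneg (hterm0 _ _ _ _) (hterm0 _ _ _ _)) (mem_range.2 hp))
      rcases hs with rfl | rfl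
      · exact le_add_of_nonneg_right (hterm0 _ _ _ _)
      · exact le_add_of_nonneg_left (hterm0 _ _ _ _)
    have h2 : term r' p s x < 1 := h1.trans_lt hx
    simp only [term] at h2
    rw [div_mul_eq_mul_div, div_lt_one hT, inv_mul_lt_iff₀ (by positivity)] at h2
    rw [hHexp]
    exact h2.trans_le (mul_le_mul_of_nonneg_right (pow_le_pow_right₀ (by norm_num) (by omega)) hT.le)
  -- the value of the test is the potential of the new partition
  have hval : F x = SS X n b (fun i => signed π r ε i / 2 ^ (r + 1 - m)) m / TT X n b := by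
    simp only [F]
    unfold SS
    rw [sum_div]
    refine sum_congr rfl fun r' hr' => ?_
    have hr'm := mem_range.1 hr'
    have hr'r : r' ≤ r := by omega
    rw [pow_succ 2 r', mul_two, sum_range_add, sum_add_distrib, add_div, sum_div, sum_div]
    refine congrArg₂ (· + ·) ?_ ?_ <;> refine sum_congr rfl fun p hp => ?_
    · have hp' := mem_range.1 hp
      have hid := inner_xfin_sub he hI (blk_subset n π r r' p)
        (fun a => 1 * (lam / 2) * gW X n b (r' + 1) a) ε z
      rw [blk_div n hm hr'm, blk_signed_pos h.range hr'r hp', Ynew_eq_sum,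
        sum_filter_pos _ hε (gW X n b (r' + 1))]
      simp only [term]
      rw [hone r' hr'm p hp' 1 (Or.inl rfl)]
      have e2 : cc r' p 1 + ⟪aa r' p 1, x⟫ = lam * ((∑ a ∈ B r' p, gW X n b (r' + 1) a
          + ∑ a ∈ B r' p, ε a * gW X n b (r' + 1) a) / 2) := by
        simp only [cc, aa, G, Z, B, x]
        rw [hid]
        simp only [one_mul, mul_left_comm _ (lam / 2), ← mul_sum]
        ring
      rw [e2]
      simp only [B]
      ring
    · have hp' := mem_range.1 hp
      have hid := inner_xfin_sub he hI (blk_subset n π r r' p)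
        (fun a => (-1) * (lam / 2) * gW X n b (r' + 1) a) ε z
      rw [blk_div n hm hr'm, blk_signed_neg h.range hr'r, Ynew_eq_sum,
        sum_filter_neg _ hε (gW X n b (r' + 1))]
      simp only [term]
      rw [hone r' hr'm p hp' (-1) (Or.inr rfl)]
      have e2 : cc r' p (-1) + ⟪aa r' p (-1), x⟫ = lam * ((∑ a ∈ B r' p, gW X n b (r' + 1) a
          - ∑ a ∈ B r' p, ε a * gW X n b (r' + 1) a) / 2) := by
        simp only [cc, aa, G, Z, B, x]
        rw [hid]
        simp only [neg_mul, one_mul, mul_neg, sum_neg_distrib, mul_left_comm _ (lam / 2),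
          ← mul_sum]
        ring
      rw [e2]
      simp only [B]
      ring
  rw [hval, div_lt_one hT] at hx
  exact hx.le

end Vale.Agent.P262.S2
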