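import Vale.Agent.P262.S2.StepVec
import Vale.Agent.P262.S2.StepBounds
import Vale.Agent.P262.S2.Tests

/-!
P262 / S₂, step, part 8: the tests for halving the old content and for the deviations.
-/

namespace Vale.Agent.P262.S2

open Finset
open scoped RealInnerProductSpace

variable {d N : ℕ} (X : Inst d N)

lemma oldG_nonneg {n : Node d N} (hn : NodeInv X n) (i : Fin N) : 0 ≤ oldG X n i :=
  sum_nonneg fun j _ => mul_nonneg (zero_le_one.trans (hn.one_le_w j)) (sq_nonneg _)

lemma Mk_nonneg : 0 ≤ Mk := sq_nonneg _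

lemma gE_div {m : ℕ} (r : ℝ) (f : V m → ℝ) : gE (fun g => f g / r) = gE f / r := by
  simp only [div_eq_inv_mul]
  exact gE_cmul _ _

lemma sqrt_content_sq {n : Node d N} (hn : NodeInv X n) :
    √(∑ a ∈ n.I, oldG X n a ^ 2) ≤ n.Bud / (2000 * sg) := by
  have h2 := two_le_sg
  have h0 : ∀ a, 0 ≤ oldG X n a := oldG_nonneg X hn
  rw [Real.sqrt_le_left (div_nonneg hn.bud_nonneg (by linarith))]
  calc ∑ a ∈ n.I, oldG X n a ^ 2 ≤ ∑ a ∈ n.I, Mk * n.Bud * oldG X n a := sum_le_sum fun a ha => by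
        rw [sq]; exact mul_le_mul_of_nonneg_right (hn.small a ha) (h0 a)
    _ = Mk * n.Bud * ∑ a ∈ n.I, oldG X n a := (mul_sum ..).symm
    _ ≤ Mk * n.Bud * n.Bud :=
        mul_le_mul_of_nonneg_left hn.content (mul_nonneg Mk_nonneg hn.bud_nonneg)
    _ = (n.Bud / (2000 * sg)) ^ 2 := by
        rw [Mk, one_div, inv_pow, div_pow, div_eq_inv_mul]; ring

/-- The test for halving the old content. -/
theorem half_test {n : Node d N} (hn : NodeInv X n) {π : Fin N → ℕ} {r : ℕ}
    (hπ : ∀ i ∈ n.I, π i < 2 ^ r)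
    {e : Fin #n.I → Fin N} (he : Function.Injective e) (hI : univ.image e = n.I)
    {z : Fin N → ℝ} (hz2 : ∑ a ∈ n.I, z a ^ 2 ≤ 1 / 100) :
    ∃ F : V (d + #n.I) → ℝ, Adm F ∧ (∀ x, 0 ≤ F x) ∧ gE (fun g => F (sg • g)) ≤ 1 / 300 ∧
      ∀ ε : Fin N → ℝ, (∀ i, ε i = 1 ∨ ε i = -1) → F (xfin n e ε z) < 1 →
        ∀ p < 2, ∑ i ∈ blk n (signed π r ε) (r + 1) 1 p, oldG X n i ≤ 3 / 5 * n.Bud := by
  classical
  have h2 := two_le_sg
  have hg := oldG_nonneg X hn
  have hb := hn.bud_nonneg
  set a : V (d + #n.I) := sv e (fun i => oldG X n i) with ha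
  have hna : ‖a‖ ≤ n.Bud / (2000 * sg) := by
    rw [← Real.sqrt_sq (norm_nonneg a), ha, norm_sv_sq, ← sum_enum he hI (fun i => oldG X n i ^ 2)]
    exact sqrt_content_sq X hn
  refine ⟨fun x => |⟪a, x⟫| / (3 / 20 * n.Bud), ?_, fun x => by positivity, ?_, ?_⟩
  · simp only [div_eq_inv_mul]
    exact (adm_abs_inner a).const_mul (by positivity)
  · rw [gE_div (3 / 20 * n.Bud) (fun g => |⟪a, sg • g⟫|)]
    refine (div_le_div_of_nonneg_right (gE_abs_inner a (by linarith)) (by positivity)).trans ?_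
    rcases hb.eq_or_lt with hb0 | hb0
    · simp [← hb0]
    · rw [div_le_iff₀ (by positivity)]
      calc sg * ‖a‖ ≤ sg * (n.Bud / (2000 * sg)) := mul_le_mul_of_nonneg_left hna (by linarith)
        _ = 1 / 300 * (3 / 20 * n.Bud) := by field_simp; ring
  · intro ε hε hF p hp
    have hx : ⟪a, xfin n e ε z⟫ = ∑ i ∈ n.I, (ε i - z i) * oldG X n i := inner_xfin he hI _ ε z
    have hbias := abs_le.1 ((abs_bias_le (I := n.I) Subset.rfl (fun i => oldG X n i) hz2).trans
      (mul_le_mul_of_nonneg_left (sqrt_content_sq X hn) (by norm_num)))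
    have hval : |∑ i ∈ n.I, (ε i - z i) * oldG X n i| ≤ 3 / 20 * n.Bud := by
      rcases hb.eq_or_lt with hb0 | hb0
      · have h0 : ∑ i ∈ n.I, (ε i - z i) * oldG X n i = 0 := sum_eq_zero fun i hi => by
          have := hn.small i hi
          rw [← hb0, mul_zero] at this
          rw [le_antisymm this (hg i), mul_zero]
        rw [h0, abs_zero]; positivity
      · have hF' : |⟪a, xfin n e ε z⟫| / (3 / 20 * n.Bud) < 1 := hF
        rw [div_lt_one (by positivity), hx] at hF'
        exact hF'.le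
    rw [abs_le] at hval
    have hs : ∑ i ∈ n.I, ε i * oldG X n i
        = ∑ i ∈ n.I, (ε i - z i) * oldG X n i + ∑ i ∈ n.I, z i * oldG X n i := by
      rw [← sum_add_distrib]; exact sum_congr rfl fun i _ => by ring
    have hq : n.Bud / (2000 * sg) ≤ n.Bud / 4000 :=
      div_le_div_of_nonneg_left hb (by norm_num) (by linarith)
    have hc := hn.content
    interval_cases p
    · rw [blk_signed_pos hπ (r' := 0) (Nat.zero_le r) (by norm_num), blk_zero n hπ,
        sum_filter_pos _ hε]
      linarith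
    · have hb1 := blk_signed_neg (ε := ε) (r' := 0) (p := 0) hπ (Nat.zero_le r)
      simp only [pow_zero, add_zero, zero_add] at hb1
      rw [hb1, blk_zero n hπ, sum_filter_neg _ hε]
      linarith

lemma hundred_le_exp : (100 : ℝ) ≤ Real.exp 99 := by
  linarith [Real.add_one_le_exp (99 : ℝ)]

lemma dev_count_le (S : ℕ) :
    (2 ^ (S + 1) + 1 : ℝ) * (6 * Real.exp (-(99 * ((S : ℝ) + 1)))) ≤ 6 / 25 := by
  have h1 : Real.exp (-(99 * ((S : ℝ) + 1))) = (Real.exp 99)⁻¹ ^ (S + 1) := by
    rw [← Real.exp_neg, ← Real.exp_nat_mul]; push_cast; ring_nf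
  have h2 : (Real.exp 99)⁻¹ ≤ 1 / 100 := by
    rw [one_div]; exact inv_anti₀ (by norm_num) hundred_le_exp
  have h3 : (2 : ℝ) ^ (S + 1) + 1 ≤ 2 * 2 ^ (S + 1) := by
    have : (1 : ℝ) ≤ 2 ^ (S + 1) := one_le_pow₀ (by norm_num)
    linarith
  have h4 : (1 : ℝ) / 50 * (1 / 50) ^ S ≤ 1 / 50 :=
    mul_le_of_le_one_right (by norm_num) (pow_le_one₀ (by norm_num) (by norm_num))
  calc _ ≤ 2 * (2 : ℝ) ^ (S + 1) * (6 * (1 / 100) ^ (S + 1)) := by
        rw [h1]
        exact mul_le_mul h3 (mul_le_mul_of_nonneg_left (pow_le_pow_left₀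
          (inv_nonneg.2 (Real.exp_pos _).le) h2 _) (by norm_num)) (by positivity) (by positivity)
    _ = 12 * (1 / 50 * (1 / 50 : ℝ) ^ S) := by
        rw [show (1 / 50 : ℝ) = 2 * (1 / 100) by norm_num, mul_pow, pow_succ, pow_succ]; ring
    _ ≤ 6 / 25 := by linarith

/-- Coordinates of the first summand. -/
noncomputable def lC (m : ℕ) (S : Finset (Fin d)) : Finset (Fin (d + m)) :=
  S.map (Fin.castAddEmb m)

/-- The excess over a radius. -/
noncomputable def excess {m : ℕ} (S : Finset (Fin d)) (R : ℝ) (x : V (d + m)) : ℝ :=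
  max (cnorm (lC m S) x - R) 0

lemma gE_excess_le {m : ℕ} (S : Finset (Fin d)) {R : ℝ} (hR : 4 * sg ≤ R) {t : ℝ}
    (ht : (#S : ℝ) / 2 - R ^ 2 / (16 * sg ^ 2) ≤ t) :
    gE (fun g : V (d + m) => excess S R (sg • g)) ≤ 2 * sg * Real.exp t := by
  have h2 := two_le_sg
  refine (gE_cnorm_exc (lC m S) (by linarith) hR).trans ?_
  rw [lC, card_map]
  exact mul_le_mul_of_nonneg_left (Real.exp_le_exp.2 ht) (by linarith)

/-- The penalty for large deviations of a prefix. -/
noncomputable def devPen (n : Node d N) (b : ℕ) {m : ℕ} (x : V (d + m)) : ℝ :=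
  ((∑ T ∈ (act X.lam b).image (lev X.lam), excess (act X.lam b \ act X.lam T) (RA X n b T) x)
    + if (newS X.lam n.k b).Nonempty then excess (newS X.lam n.k b) (RN X n b) x else 0) / sg

lemma adm_devPen (n : Node d N) (b : ℕ) {m : ℕ} : Adm (devPen X n b : V (d + m) → ℝ) := by
  have h2 := two_le_sg
  have he : ∀ (S : Finset (Fin d)) (R : ℝ), Adm (excess S R : V (d + m) → ℝ) :=
    fun S R => (adm_cnorm _).pospart R
  show Adm fun x => devPen X n b x
  simp only [devPen, div_eq_inv_mul]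
  refine Adm.const_mul ((Adm.finsetSum _ fun T _ => he _ _).add ?_) (by positivity)
  by_cases h : (newS X.lam n.k b).Nonempty
  · simpa [h] using he _ _
  · simpa [h] using Adm.const (0 : ℝ)

lemma devPen_nonneg (n : Node d N) (b : ℕ) {m : ℕ} (x : V (d + m)) : 0 ≤ devPen X n b x := by
  have h2 := two_le_sg
  have he : ∀ (S : Finset (Fin d)) (R : ℝ), 0 ≤ excess S R x := fun S R => le_max_right _ _
  unfold devPen
  refine div_nonneg (add_nonneg (sum_nonneg fun T _ => he _ _) ?_) (by linarith)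
  split
  · exact he _ _
  · exact le_rfl

lemma gE_devPen_le {n : Node d N} (hn : NodeInv X n) (b : ℕ) {m : ℕ} :
    gE (fun g : V (d + m) => devPen X n b (sg • g))
      ≤ 6 * Real.exp (-(99 * (((b - n.k - 1 : ℕ) : ℝ) + 1))) := by
  have h2 := two_le_sg
  have hE := hn.E_nonneg n.k
  have hS : (0 : ℝ) ≤ ((b - n.k - 1 : ℕ) : ℝ) := Nat.cast_nonneg _
  have hadm : ∀ (S : Finset (Fin d)) (R : ℝ), Adm fun g : V (d + m) => excess S R (sg • g) :=
    fun S R => by
      have := ((adm_cnorm (lC m S)).pospart R).shift 0 sg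
      simpa [excess] using this
  have hR : ∀ x : ℝ, 1 ≤ x → 4 * sg ≤ 40 * sg * √x := fun x hx => by
    have : 40 * sg * 1 ≤ 40 * sg * √x :=
      mul_le_mul_of_nonneg_left (Real.one_le_sqrt.2 hx) (by linarith)
    linarith
  have hsq : ∀ x : ℝ, 0 ≤ x → (40 * sg * √x) ^ 2 / (16 * sg ^ 2) = 100 * x := fun x hx => by
    rw [mul_pow, Real.sq_sqrt hx]; field_simp; ring
  simp only [devPen]
  rw [gE_div sg, gE_fadd (Adm.finsetSum _ fun T _ => hadm _ _)
    (by split_ifs with h; exacts [hadm _ _, Adm.const 0]),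
    gE_finsetSum _ (fun T _ => hadm _ _), div_le_iff₀ (by linarith)]
  set u := Real.exp (-(99 * (((b - n.k - 1 : ℕ) : ℝ) + 1)))
  have hA : ∑ T ∈ (act X.lam b).image (lev X.lam),
      gE (fun g : V (d + m) => excess (act X.lam b \ act X.lam T) (RA X n b T) (sg • g))
      ≤ 4 * sg * u := by
    have := mul_le_mul_of_nonneg_left (tail_sum_le X b (b - n.k - 1)) (show 0 ≤ 2 * sg by linarith)
    rw [mul_sum] at this
    refine (sum_le_sum fun T hT => gE_excess_le _ ?_ ?_).trans (this.trans_eq (by ring))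
    · obtain ⟨j, hj, rfl⟩ := mem_image.1 hT
      have h1 : (1 : ℝ) ≤ (#(act X.lam b \ act X.lam (lev X.lam j)) : ℝ) := by
        exact_mod_cast card_pos.2 ⟨j, mem_sdiff.2 ⟨hj, by simp [act]⟩⟩
      exact hR _ (by linarith)
    · rw [RA, hsq _ (by positivity)]
  have hB : gE (fun g : V (d + m) => if (newS X.lam n.k b).Nonempty then
      excess (newS X.lam n.k b) (RN X n b) (sg • g) else 0) ≤ 2 * sg * u := by
    by_cases h : (newS X.lam n.k b).Nonempty
    · simp only [h, if_true]
      have h1 : (1 : ℝ) ≤ (#(newS X.lam n.k b) : ℝ) := by exact_mod_cast card_pos.2 h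
      refine gE_excess_le _ (hR _ (by linarith)) ?_
      rw [hsq _ (by positivity)]
      linarith
    · simp only [h, if_false, gE_const]; positivity
  linarith

lemma devPen_spec {n : Node d N} {b : ℕ} (hn : NodeInv X n) {m : ℕ} {x : V (d + m)}
    (hx : devPen X n b x < 1) {P : Fin d → ℝ} (hP : ∀ j, P j = x (Fin.castAdd m j)) :
    (∀ T, √(∑ j ∈ act X.lam b \ act X.lam T, P j ^ 2) ≤ 2 * RA X n b T) ∧
      √(∑ j ∈ newS X.lam n.k b, P j ^ 2) ≤ 2 * RN X n b := by
  have h2 := two_le_sg
  have hE := hn.E_nonneg n.k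
  have hS : (0 : ℝ) ≤ ((b - n.k - 1 : ℕ) : ℝ) := Nat.cast_nonneg _
  rw [devPen, div_lt_one (by linarith)] at hx
  have hn' : 0 ≤ if (newS X.lam n.k b).Nonempty then
      excess (newS X.lam n.k b) (RN X n b) x else 0 := by
    split
    · exact le_max_right _ _
    · exact le_rfl
  have hA0 : ∀ T, 0 ≤ excess (act X.lam b \ act X.lam T) (RA X n b T) x := fun T => le_max_right _ _
  have hcn : ∀ S : Finset (Fin d), cnorm (lC m S) x = √(∑ j ∈ S, P j ^ 2) := fun S => by
    simp [cnorm, lC, hP]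
  have hge : ∀ (S : Finset (Fin d)) (R : ℝ), √(∑ j ∈ S, P j ^ 2) - R ≤ excess S R x :=
    fun S R => by rw [excess, hcn]; exact le_max_left _ _
  have hR : ∀ y : ℝ, 1 ≤ y → sg ≤ 40 * sg * √y := fun y hy => by
    have : 40 * sg * 1 ≤ 40 * sg * √y :=
      mul_le_mul_of_nonneg_left (Real.one_le_sqrt.2 hy) (by linarith)
    linarith
  refine ⟨fun T => ?_, ?_⟩
  · rcases (act X.lam b \ act X.lam T).eq_empty_or_nonempty with h | h
    · rw [h, sum_empty, Real.sqrt_zero]
      unfold RA; positivity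
    · obtain ⟨j, hj, hmax⟩ := exists_max_image _ (lev X.lam) h
      have heq : act X.lam b \ act X.lam T = act X.lam b \ act X.lam (lev X.lam j) := by
        ext i
        simp only [mem_sdiff, mem_act_iff, not_lt] at hj hmax ⊢
        constructor
        · intro hi; exact ⟨hi.1, hmax i hi⟩
        · intro hi; exact ⟨hi.1, hi.2.trans hj.2⟩
      have h1 : (1 : ℝ) ≤ (#(act X.lam b \ act X.lam T) : ℝ) := by exact_mod_cast card_pos.2 h
      have hR' : RA X n b (lev X.lam j) = RA X n b T := by rw [RA, RA, heq]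
      have hterm := single_le_sum (f := fun T => excess (act X.lam b \ act X.lam T) (RA X n b T) x)
        (fun T _ => hA0 T) (mem_image_of_mem (lev X.lam) (mem_sdiff.1 hj).1)
      simp only [hR', ← heq] at hterm
      have := hge (act X.lam b \ act X.lam T) (RA X n b T)
      have : sg ≤ RA X n b T := hR _ (by linarith)
      linarith
  · rcases (newS X.lam n.k b).eq_empty_or_nonempty with h | h
    · rw [h, sum_empty, Real.sqrt_zero]
      unfold RN; positivity
    · have h1 : (1 : ℝ) ≤ (#(newS X.lam n.k b) : ℝ) := by exact_mod_cast card_pos.2 h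
      simp only [h, if_true] at hx
      have h0 := sum_nonneg (s := (act X.lam b).image (lev X.lam)) fun T _ => hA0 T
      have := hge (newS X.lam n.k b) (RN X n b)
      have : sg ≤ RN X n b := hR _ (by linarith)
      linarith

/-- Weighted old coordinates of the vectors, as coefficients for `maxPre`. -/
noncomputable def cOld (n : Node d N) {m : ℕ} (e : Fin m → Fin N) (i : Fin m) (j : Fin d) : ℝ :=
  if j ∈ (act X.lam n.k)ᶜ then √(n.w j) * n.u (e i) j else 0

lemma sqrt_cOld {n : Node d N} (hn : NodeInv X n) {m : ℕ} (e : Fin m → Fin N)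
    (s : Finset (Fin m)) (w : Fin m → ℝ) :
    ∑ j, (∑ i ∈ s, cOld X n e i j * w i) ^ 2
      = ∑ j ∈ (act X.lam n.k)ᶜ, n.w j * (∑ i ∈ s, w i * n.u (e i) j) ^ 2 := by
  rw [← sum_subset (subset_univ (act X.lam n.k)ᶜ) (fun j _ hj => by simp [cOld, hj])]
  refine sum_congr rfl fun j hj => ?_
  rw [← Real.sq_sqrt (zero_le_one.trans (hn.one_le_w j)), ← mul_pow, mul_sum]
  congr 1
  exact sum_congr rfl fun i _ => by rw [cOld, if_pos hj]; ring

/-- The tests for the deviations of the prefixes. -/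
theorem small_test {n : Node d N} (hn : NodeInv X n) {b : ℕ} (hkb : n.k < b)
    {π : Fin N → ℕ} {r : ℕ} (hrW : r ≤ b - n.k)
    {e : Fin #n.I → Fin N} (he : Function.Injective e) (hI : univ.image e = n.I)
    (hmono : Monotone (π ∘ e)) (z : Fin N → ℝ) :
    ∃ (F : V (d + #n.I) → ℝ) (P : ℕ → V (d + #n.I) → ℝ),
      (Adm F ∧ (∀ x, 0 ≤ F x) ∧ ∀ k, Adm (P k) ∧ ∀ x, 0 ≤ P k x) ∧
      gE (fun g => F (sg • g)) + ∑ k ∈ range (#n.I + 1), gE (fun g => P k (sg • g)) ≤ 3 / 10 ∧
      ∀ ε : Fin N → ℝ, F (xfin n e ε z)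
          + ∑ k ∈ range (#n.I + 1), P k (part (lift n e) (fun i => ε (e i) - z (e i)) k) < 1 →
        ∀ q ≤ 2 ^ r, Small X n b (Epre n π ε z q) 2 := by
  classical
  have h2 := two_le_sg
  have hw0 : ∀ j, 0 ≤ n.w j := fun j => zero_le_one.trans (hn.one_le_w j)
  set K := (range (2 ^ r + 1)).image fun q => #(n.I.filter fun a => π a < q) with hK
  set F : V (d + #n.I) → ℝ := fun x => maxPre (Fin.natAdd d) (cOld X n e) x / (80 * sg * √n.Bud)
    with hF
  set P : ℕ → V (d + #n.I) → ℝ := fun k x => if k ∈ K then devPen X n b x else 0 with hP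
  have hmp : ∀ x, 0 ≤ maxPre (Fin.natAdd d) (cOld X n e) x := fun x =>
    (Real.sqrt_nonneg _).trans (le_sup' (f := fun k => √(∑ j, (∑ i : Fin #n.I with i.val < k,
      cOld X n e i j * x (Fin.natAdd d i)) ^ 2)) (mem_range.2 (Nat.succ_pos _) : 0 ∈ _))
  have hadmP : ∀ k, Adm (P k) := fun k => by
    simp only [hP]
    split_ifs
    · exact adm_devPen X n b
    · exact Adm.const 0
  refine ⟨F, P, ⟨?_, fun x => div_nonneg (hmp x) (by positivity), fun k => ⟨hadmP k, fun x => ?_⟩⟩,
    ?_, fun ε hlt q hq => ?_⟩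
  · simp only [hF, div_eq_inv_mul]
    exact (adm_maxPre _ _).const_mul (by positivity)
  · simp only [hP]
    split_ifs
    · exact devPen_nonneg X n b x
    · exact le_rfl
  · have hF' : gE (fun g => F (sg • g)) ≤ 1 / 40 := by
      rw [hF, gE_div (80 * sg * √n.Bud)
        (fun g => maxPre (Fin.natAdd d) (cOld X n e) (sg • g))]
      refine div_le_of_le_mul₀ (by positivity) (by norm_num)
        ((gE_maxPre _ (Fin.natAdd_injective _ _) _ (by linarith)).trans ?_)
      rw [show 1 / 40 * (80 * sg * √n.Bud) = 2 * sg * √n.Bud by ring]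
      refine mul_le_mul_of_nonneg_left (Real.sqrt_le_sqrt ?_) (by positivity)
      refine le_trans (le_of_eq ?_) hn.content
      rw [sum_enum he hI]
      refine sum_congr rfl fun i _ => ?_
      rw [oldG, ← sum_subset (subset_univ (act X.lam n.k)ᶜ) (fun j _ hj => by simp [cOld, hj])]
      refine sum_congr rfl fun j hj => ?_
      rw [cOld, if_pos hj, mul_pow, Real.sq_sqrt (hw0 j)]
    set u := Real.exp (-(99 * (((b - n.k - 1 : ℕ) : ℝ) + 1))) with hu
    have hb0 := gE_devPen_le X hn b (m := #n.I)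
    have hP' : ∑ k ∈ range (#n.I + 1), gE (fun g => P k (sg • g)) ≤ (2 ^ r + 1 : ℕ) * (6 * u) := by
      calc ∑ k ∈ range (#n.I + 1), gE (fun g => P k (sg • g))
          ≤ ∑ k ∈ range (#n.I + 1), if k ∈ K then 6 * u else 0 := sum_le_sum fun k _ => by
            simp only [hP]
            split_ifs
            · exact hb0
            · rw [gE_const]
        _ = #(range (#n.I + 1) ∩ K) * (6 * u) := by
            rw [sum_ite_mem, sum_const, nsmul_eq_mul]
        _ ≤ (2 ^ r + 1 : ℕ) * (6 * u) := by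
            refine mul_le_mul_of_nonneg_right ?_ (by positivity)
            exact_mod_cast ((card_le_card inter_subset_right).trans card_image_le).trans_eq
              (card_range _)
    have hpow : ((2 ^ r + 1 : ℕ) : ℝ) ≤ 2 ^ (b - n.k - 1 + 1) + 1 := by
      push_cast
      linarith [pow_le_pow_right₀ (show (1 : ℝ) ≤ 2 by norm_num)
        (show r ≤ b - n.k - 1 + 1 by omega)]
    have h5 := mul_le_mul_of_nonneg_right hpow (show 0 ≤ 6 * u by positivity)
    have := dev_count_le (b - n.k - 1)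
    linarith
  · set w : Fin #n.I → ℝ := fun i => ε (e i) - z (e i) with hw
    set k := #(n.I.filter fun a => π a < q) with hk
    have hk' : k ∈ range (#n.I + 1) := mem_range.2 (Nat.lt_succ_iff.2 (card_le_card (filter_subset _ _)))
    have hkK : k ∈ K := mem_image.2 ⟨q, mem_range.2 (Nat.lt_succ_iff.2 hq), rfl⟩
    have hpre : ∀ j, Epre n π ε z q j = ∑ i : Fin #n.I with i.val < k, w i * n.u (e i) j := by
      intro j
      rw [Epre, sum_filter_enum he hI]
      refine sum_congr (filter_congr fun i _ => ?_) fun _ _ => rfl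
      exact (enum_lt_iff he hI hmono q i).symm
    have hPn : ∀ k x, 0 ≤ P k x := fun k x => by
      simp only [hP]
      split_ifs
      · exact devPen_nonneg X n b x
      · exact le_rfl
    have hone := single_le_sum (f := fun k => P k (part (lift n e) w k)) (fun k _ => hPn _ _) hk'
    simp only [hP, hkK, if_true] at hone
    have hFn : 0 ≤ F (xfin n e ε z) := div_nonneg (hmp _) (by positivity)
    obtain ⟨hact, hnew⟩ := devPen_spec X hn
      (show devPen X n b (part (lift n e) w k) < 1 by simp only [hP] at hlt; linarith)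
      (P := Epre n π ε z q) (fun j => by rw [part_left, hpre])
    refine ⟨hact, hnew, ?_⟩
    have hle : √(∑ j ∈ (act X.lam n.k)ᶜ, n.w j * Epre n π ε z q j ^ 2)
        ≤ maxPre (Fin.natAdd d) (cOld X n e) (xfin n e ε z) := by
      refine le_trans (le_of_eq ?_) (le_sup' (f := fun k => √(∑ j,
        (∑ i : Fin #n.I with i.val < k, cOld X n e i j * xfin n e ε z (Fin.natAdd d i)) ^ 2)) hk')
      congr 1
      simp only [xfin, part_right, Fin.is_lt, if_true]
      rw [sqrt_cOld X hn]
      exact sum_congr rfl fun j _ => by rw [hpre]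
    refine hle.trans ?_
    rcases hn.bud_nonneg.eq_or_lt with hb0 | hb0
    · have hzero : ∀ i j, cOld X n e i j = 0 := by
        intro i j
        have hei : e i ∈ n.I := hI ▸ mem_image_of_mem e (mem_univ i)
        have h0 : oldG X n (e i) = 0 := le_antisymm
          (by simpa [← hb0] using hn.small (e i) hei) (oldG_nonneg X hn _)
        unfold cOld
        split_ifs with hj
        · have := (sum_eq_zero_iff_of_nonneg fun j _ =>
            mul_nonneg (hw0 j) (sq_nonneg _)).1 h0 j hj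
          rcases mul_eq_zero.1 this with h | h
          · linarith [hn.one_le_w j]
          · simp [sq_eq_zero_iff.1 h]
        · rfl
      simp [maxPre, hzero, RO, ← hb0]
    · have hsum := sum_nonneg (s := range (#n.I + 1)) fun k _ => hPn k (part (lift n e) w k)
      have hF1 : maxPre (Fin.natAdd d) (cOld X n e) (xfin n e ε z) / (80 * sg * √n.Bud) < 1 := by
        simp only [hF] at hlt ⊢
        linarith
      rw [div_lt_one (by positivity)] at hF1
      unfold RO
      linarith

end Vale.Agent.P262.S2
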