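import Vale.Agent.P262.S2.StepHom
import Vale.Agent.P262.S2.StepPot
import Vale.Agent.P262.S2.StepSmall

/-!
P262 / S₂, step, part 9: signing an admissible partition gives an admissible partition with small
signed prefix sums.
-/

namespace Vale.Agent.P262.S2

open Finset

variable {d N : ℕ}

/-- One signing. -/
theorem sign (X : Inst d N) {n : Node d N} (hn : NodeInv X n) {b : ℕ} (hkb : n.k < b)
    {π : Fin N → ℕ} {r : ℕ} (h : Cls X n b π r) (hr : r ≤ b - n.k) {m : ℕ} (hm : m ≤ r + 1)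
    (hmW : m ≤ b - n.k) {z : Fin N → ℝ} (hz : ∀ i, |z i| ≤ 1 / 2)
    (hz2 : ∑ a ∈ n.I, z a ^ 2 ≤ 1 / 100) :
    ∃ ε : Fin N → ℝ, (∀ i, ε i = 1 ∨ ε i = -1) ∧
      Cls X n b (fun i => signed π r ε i / 2 ^ (r + 1 - m)) m ∧
      ∀ q ≤ 2 ^ r, Small X n b (Epre n π ε z q) 2 := by
  classical
  obtain ⟨e, he, hI, hmono⟩ := exists_sorted n.I π
  obtain ⟨F₁, hF₁, hF₁0, hE₁, h₁⟩ := hom_test X hn hkb h hm hmW he hI hz2
  obtain ⟨F₂, hF₂, hF₂0, hE₂, h₂⟩ := pot_test X hn h hm he hI hz2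
  obtain ⟨F₃, hF₃, hF₃0, hE₃, h₃⟩ := half_test X hn h.range he hI hz2
  obtain ⟨F₄, P, ⟨hF₄, hF₄0, hP⟩, hE₄, h₄⟩ := small_test X hn hkb hr he hI hmono z
  obtain ⟨ε₀, hε₀, hchain⟩ := chain (lift n e) (fun i => z (e i)) (norm_lift_le X hn e)
    (fun i => hz (e i)) (fun x => F₁ x + F₂ x + F₃ x + F₄ x)
    (((hF₁.add hF₂).add hF₃).add hF₄) P (fun k => (hP k).1)
  set ε : Fin N → ℝ := Function.extend e ε₀ (fun _ => 1) with hεdef
  have hεe : ∀ i, ε (e i) = ε₀ i := fun i => he.extend_apply _ _ i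
  have hε : ∀ a, ε a = 1 ∨ ε a = -1 := by
    intro a
    by_cases ha : ∃ i, e i = a
    · obtain ⟨i, rfl⟩ := ha
      rw [hεe]; exact hε₀ i
    · exact Or.inl (Function.extend_apply' _ _ _ ha)
  have hs : ∀ {G : V (d + #n.I) → ℝ}, Adm G → Adm fun g => G (sg • g) := fun hG => by
    simpa using hG.shift 0 sg
  rw [gE_fadd (((hs hF₁).add (hs hF₂)).add (hs hF₃)) (hs hF₄),
    gE_fadd ((hs hF₁).add (hs hF₂)) (hs hF₃), gE_fadd (hs hF₁) (hs hF₂)] at hchain
  have hw : (fun i => ε₀ i - z (e i)) = fun i => ε (e i) - z (e i) := funext fun i => by rw [hεe]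
  rw [hw] at hchain
  have hx : xfin n e ε z = part (lift n e) (fun i => ε (e i) - z (e i)) #n.I := rfl
  rw [← hx] at hchain
  have hsum := sum_nonneg (s := range (#n.I + 1))
    fun k _ => (hP k).2 (part (lift n e) (fun i => ε (e i) - z (e i)) k)
  have := hF₁0 (xfin n e ε z)
  have := hF₂0 (xfin n e ε z)
  have := hF₃0 (xfin n e ε z)
  have := hF₄0 (xfin n e ε z)
  obtain ⟨hhom, hout⟩ := h₁ ε hε (by linarith)
  refine ⟨ε, hε, ⟨?_, ?_, ?_, ?_, h₂ ε hε (by linarith)⟩, h₄ ε (by linarith)⟩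
  · intro i hi
    have := signed_lt h.range (ε := ε) i hi
    rw [Nat.div_lt_iff_lt_mul (by positivity), ← pow_add, show m + (r + 1 - m) = r + 1 by omega]
    exact this
  · intro r' hr' p hp
    rw [blk_div n hm (by omega)]
    exact hhom r' hr' p hp
  · intro r' hr' p hp
    rw [blk_div n hm (by omega)]
    exact hout r' hr' p hp
  · intro hm0 p hp
    rw [blk_div n hm (by omega)]
    exact h₃ ε hε (by linarith) p hp

end Vale.Agent.P262.S2
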